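import Vale.Agent.P073.Spec.Gauge

/-!
# P073, block GAUGE: iteration of `SpecCell` over the good cells
-/

open Set Metric Topology MeasureTheory Filter
open scoped ENNReal

namespace P073.Gauge

open Vale.Agent.P073.St (V)
open Vale.Agent.P073.SQ (ev)
open Vale.Agent.P073.AB
open P073.Net (dyc dyo)

namespace C110

theorem interior_dyc (v : V) (n : ℕ) (z : Fin 3 → ℤ) :
    interior (dyc v n z) = dyo v n z := by
  have h : dyc v n z = Set.pi univ (fun k => Icc (v k + z k / 2 ^ n) (v k + (z k + 1) / 2 ^ n)) := by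
    ext x; simp only [dyc, Set.mem_ofPred_eq, Set.mem_pi, mem_univ, forall_true_left, mem_Icc]
  rw [h, interior_pi_set finite_univ]
  ext x; simp only [dyo, Set.mem_ofPred_eq, Set.mem_pi, mem_univ, forall_true_left, interior_Icc, mem_Ioo]

theorem disjoint_dyc (v : V) (n : ℕ) {z z' : Fin 3 → ℤ} (h : z ≠ z') :
    Disjoint (dyc v n z') (interior (dyc v n z)) := by
  rw [interior_dyc, Set.disjoint_left]
  intro x hx hx'
  apply h
  funext k
  have h1 := hx k
  have h2 := hx' k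
  have hp : (0:ℝ) < 2 ^ n := by positivity
  have h3 : (z' k : ℝ) < z k + 1 := by
    have : (z' k : ℝ) / 2 ^ n < (z k + 1) / 2 ^ n := by linarith [h1.1, h2.2]
    exact (div_lt_div_iff_of_pos_right hp).1 this
  have h4 : (z k : ℝ) < z' k + 1 := by
    have : (z k : ℝ) / 2 ^ n < (z' k + 1) / 2 ^ n := by linarith [h1.2, h2.1]
    exact (div_lt_div_iff_of_pos_right hp).1 this
  have h5 : z' k < z k + 1 := by exact_mod_cast h3
  have h6 : z k < z' k + 1 := by exact_mod_cast h4
  omega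

theorem boxB_subset (v : V) (n k : ℕ) (z : Fin 3 → ℤ) : boxB v n k z ⊆ dyc v n z := by
  intro x hx i
  have h := hx i
  have : (0:ℝ) ≤ 1 / 2 ^ (n + k) := by positivity
  constructor <;> linarith [h.1, h.2]

theorem interior_boxB_subset (v : V) (n k : ℕ) (z : Fin 3 → ℤ) :
    interior (boxB v n k z) ⊆ interior (dyc v n z) := interior_mono (boxB_subset v n k z)

theorem boxR_subset_boxB (v : V) (n k : ℕ) (z : Fin 3 → ℤ) : boxR v n k z ⊆ boxB v n k z := by
  intro x hx i
  have h := hx i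
  have h0 : (0:ℝ) < 1 / 2 ^ (n + k) := by positivity
  have h1 : (2:ℝ) / 2 ^ (n + k) = 2 * (1 / 2 ^ (n + k)) := by ring
  rw [h1] at h
  constructor <;> linarith [h.1, h.2]

theorem boxR_subset_shrink (v : V) (n k k' : ℕ) (z : Fin 3 → ℤ) :
    boxR v n k z ⊆ shrink v n z (1 / 2 ^ (n + k + k')) := by
  intro x hx i
  have h := hx i
  have h0 : (0:ℝ) < 1 / 2 ^ (n + k) := by positivity
  have h1 : (2:ℝ) / 2 ^ (n + k) = 2 * (1 / 2 ^ (n + k)) := by ring
  have h2 : (1:ℝ) / 2 ^ (n + k + k') ≤ 1 / 2 ^ (n + k) := by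
    apply one_div_le_one_div_of_le (by positivity)
    exact pow_le_pow_right₀ (by norm_num) (by omega)
  rw [h1] at h
  constructor <;> linarith [h.1, h.2]

/-- comparison of dyadic numbers -/
theorem dy_le_iff (a b : ℤ) (m j : ℕ) :
    (a : ℝ) / 2 ^ m ≤ b / 2 ^ (m + j) ↔ a * 2 ^ j ≤ b := by
  rw [div_le_div_iff₀ (by positivity) (by positivity), pow_add]
  have hp : (0:ℝ) < 2 ^ m := by positivity
  constructor
  · intro h
    have h1 : (a : ℝ) * 2 ^ j ≤ b := by
      have : (a * 2 ^ j) * (2:ℝ) ^ m ≤ b * 2 ^ m := by linarith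
      exact le_of_mul_le_mul_right this hp
    exact_mod_cast h1
  · intro h
    have h1 : (a : ℝ) * 2 ^ j ≤ b := by exact_mod_cast h
    nlinarith

theorem dy_ge_iff (a b : ℤ) (m j : ℕ) :
    (b : ℝ) / 2 ^ (m + j) ≤ a / 2 ^ m ↔ b ≤ a * 2 ^ j := by
  rw [div_le_div_iff₀ (by positivity) (by positivity), pow_add]
  have hp : (0:ℝ) < 2 ^ m := by positivity
  constructor
  · intro h
    have h1 : (b : ℝ) ≤ a * 2 ^ j := by
      have : b * (2:ℝ) ^ m ≤ (a * 2 ^ j) * 2 ^ m := by linarith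
      exact le_of_mul_le_mul_right this hp
    exact_mod_cast h1
  · intro h
    have h1 : (b : ℝ) ≤ a * 2 ^ j := by exact_mod_cast h
    nlinarith

theorem dyc_subset_of {v : V} {m j : ℕ} {z w : Fin 3 → ℤ}
    (h : ∀ k, z k * 2 ^ j ≤ w k ∧ w k + 1 ≤ (z k + 1) * 2 ^ j) :
    dyc v (m + j) w ⊆ dyc v m z := by
  intro x hx k
  have h1 := (dy_le_iff (z k) (w k) m j).2 (h k).1
  have h2 := (dy_ge_iff (z k + 1) (w k + 1) m j).2 (h k).2
  push_cast at h2
  have h3 := hx k
  constructor <;> linarith [h3.1, h3.2]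

theorem pt_mem_edge (v : V) (e : Idx × Fin 3) : pt v e.1.1 e.1.2 ∈ edge v e :=
  left_mem_segment ℝ _ _

theorem pt_mem_edge' (v : V) (e : Idx × Fin 3) :
    pt v e.1.1 e.1.2 + (1 / 2 ^ e.1.1 : ℝ) • ev e.2 ∈ edge v e :=
  right_mem_segment ℝ _ _

theorem ev_apply (i j : Fin 3) : ev i j = if j = i then 1 else 0 := by
  simp [ev, Pi.single_apply]

theorem mem_edge_iff {v : V} {e : Idx × Fin 3} {x : V} :
    x ∈ edge v e ↔ ∃ s ∈ Icc (0:ℝ) 1, x = gam v e s := by
  rw [edge, segment_eq_image']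
  constructor
  · rintro ⟨s, hs, rfl⟩
    refine ⟨s, hs, ?_⟩
    simp [gam]
  · rintro ⟨s, hs, rfl⟩
    refine ⟨s, hs, ?_⟩
    simp [gam]

/-- coordinates of the index of an edge of generation `m + j` contained in a cube of generation
`m` -/
theorem edge_coords {v : V} {m j : ℕ} {z : Fin 3 → ℤ} {e : Idx × Fin 3} (he : e.1.1 = m + j)
    (hsub : edge v e ⊆ dyc v m z) :
    (∀ k, z k * 2 ^ j ≤ e.1.2 k ∧ e.1.2 k ≤ (z k + 1) * 2 ^ j) ∧
      e.1.2 e.2 + 1 ≤ (z e.2 + 1) * 2 ^ j := by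
  have h1 := hsub (pt_mem_edge v e)
  have h2 := hsub (pt_mem_edge' v e)
  constructor
  · intro k
    have h := h1 k
    simp only [pt, he] at h
    constructor
    · refine (dy_le_iff (z k) (e.1.2 k) m j).1 ?_
      linarith [h.1]
    · refine (dy_ge_iff (z k + 1) (e.1.2 k) m j).1 ?_
      push_cast
      linarith [h.2]
  · have h := (h2 e.2).2
    simp only [pt, he, Pi.add_apply, Pi.smul_apply, ev_apply, if_true, smul_eq_mul, mul_one] at h
    refine (dy_ge_iff (z e.2 + 1) (e.1.2 e.2 + 1) m j).1 ?_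
    push_cast
    have : ((e.1.2 e.2 : ℝ) + 1) / 2 ^ (m + j) = e.1.2 e.2 / 2 ^ (m + j) + 1 / 2 ^ (m + j) := by
      ring
    rw [this]
    linarith

/-- every fine edge in a coarse cube is an edge of a fine cube in the coarse cube -/
theorem cube_of_edge {v : V} {m j : ℕ} {z : Fin 3 → ℤ} {e : Idx × Fin 3} (he : e.1.1 = m + j)
    (hsub : edge v e ⊆ dyc v m z) :
    ∃ w, EdgeOf e (m + j, w) ∧ dyc v (m + j) w ⊆ dyc v m z := by
  obtain ⟨h1, h2⟩ := edge_coords he hsub
  refine ⟨fun k => if k = e.2 then e.1.2 k else min (e.1.2 k) ((z k + 1) * 2 ^ j - 1), ?_, ?_⟩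
  · refine ⟨he, by simp, ?_⟩
    intro k hk
    simp only [hk, if_false]
    have h3 := (h1 k).2
    rcases le_or_gt (e.1.2 k) ((z k + 1) * 2 ^ j - 1) with h | h
    · left; rw [min_eq_left h]
    · right; rw [min_eq_right h.le]; omega
  · apply dyc_subset_of
    intro k
    by_cases hk : k = e.2
    · subst hk
      simp only [if_true]
      exact ⟨(h1 _).1, h2⟩
    · simp only [hk, if_false]
      have h3 := (h1 k)
      have h4 : (1:ℤ) ≤ 2 ^ j := by
        have : (0:ℤ) < 2 ^ j := by positivity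
        omega
      have h5 : z k * 2 ^ j + 2 ^ j = (z k + 1) * 2 ^ j := by ring
      constructor
      · refine le_min h3.1 ?_
        omega
      · have := min_le_right (e.1.2 k) ((z k + 1) * 2 ^ j - 1)
        omega

/-- the fine edge through a point of a coarse edge -/
theorem exists_fine_edge {v : V} {m j : ℕ} {e : Idx × Fin 3} (he : e.1.1 = m) {x : V}
    (hx : x ∈ edge v e) : ∃ e' : Idx × Fin 3, e'.1.1 = m + j ∧ x ∈ edge v e' ∧
      edge v e' ⊆ edge v e := by
  obtain ⟨s, hs, rfl⟩ := mem_edge_iff.1 hx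
  have hp : (0:ℝ) < 2 ^ j := by positivity
  -- index
  obtain ⟨i, hi0, hi1, hi2, hi3⟩ : ∃ i : ℤ, 0 ≤ i ∧ i + 1 ≤ 2 ^ j ∧ (i : ℝ) ≤ s * 2 ^ j ∧
      s * 2 ^ j ≤ i + 1 := by
    rcases lt_or_eq_of_le hs.2 with h1 | h1
    · refine ⟨⌊s * 2 ^ j⌋, ?_, ?_, Int.floor_le _, (Int.lt_floor_add_one _).le⟩
      · exact Int.floor_nonneg.2 (mul_nonneg hs.1 hp.le)
      · have h2 : s * 2 ^ j < 2 ^ j := by nlinarith
        have h3 : (⌊s * 2 ^ j⌋ : ℝ) < 2 ^ j := lt_of_le_of_lt (Int.floor_le _) h2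
        have h4 : ⌊s * 2 ^ j⌋ < (2:ℤ) ^ j := by exact_mod_cast h3
        omega
    · refine ⟨2 ^ j - 1, ?_, by omega, ?_, ?_⟩
      · have : (0:ℤ) < 2 ^ j := by positivity
        omega
      · push_cast; rw [h1]; linarith
      · push_cast; rw [h1]; linarith
  set e' : Idx × Fin 3 := ((m + j, fun k => e.1.2 k * 2 ^ j + if k = e.2 then i else 0), e.2)
    with he'
  have hval : ∀ t : ℝ, gam v e' t = gam v e ((i + t) / 2 ^ j) := by
    intro t
    funext k
    simp only [gam, pt, he', he, Pi.add_apply, Pi.smul_apply, ev_apply, smul_eq_mul]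
    have hm : (2:ℝ) ^ m ≠ 0 := by positivity
    have hj : (2:ℝ) ^ j ≠ 0 := by positivity
    by_cases hk : k = e.2
    · subst hk
      simp only [if_true]
      push_cast
      rw [pow_add]
      field_simp
      ring
    · simp only [hk, if_false]
      push_cast
      rw [pow_add]
      field_simp
      ring
  refine ⟨e', rfl, ?_, ?_⟩
  · rw [mem_edge_iff]
    refine ⟨s * 2 ^ j - i, ⟨by linarith, by linarith⟩, ?_⟩
    rw [hval]
    congr 1
    field_simp
    ring
  · intro y hy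
    obtain ⟨t, ht, rfl⟩ := mem_edge_iff.1 hy
    rw [hval, mem_edge_iff]
    refine ⟨_, ⟨?_, ?_⟩, rfl⟩
    · have : (0:ℝ) ≤ i := by exact_mod_cast hi0
      have := ht.1
      positivity
    · rw [div_le_one hp]
      have : (i:ℝ) + 1 ≤ 2 ^ j := by exact_mod_cast hi1
      linarith [ht.2]

/-- the fine cube through a point of the protected box -/
theorem exists_fine_cube {v : V} {n k₁ k₀ : ℕ} (hk : 3 ≤ k₁) {z : Fin 3 → ℤ} {x : V}
    (hx : x ∈ boxR v n k₁ z) : ∃ w, x ∈ dyc v (n + k₁ + k₀) w ∧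
      dyc v (n + k₁ + k₀) w ⊆ boxR v n k₁ z := by
  -- lower and upper index of the box in fine units
  set N : ℤ := 2 ^ (k₁ + k₀) with hN
  set D : ℤ := 2 * 2 ^ k₀ with hD
  have hNR : (N : ℝ) = 2 ^ (k₁ + k₀) := by simp [hN]
  have hDR : (D : ℝ) = 2 * 2 ^ k₀ := by simp [hD]
  set P : ℝ := 2 ^ (n + k₁ + k₀) with hP
  have hPpos : 0 < P := by positivity
  have e1 : ∀ a : ℝ, a / 2 ^ n = a * 2 ^ (k₁ + k₀) / P := by
    intro a
    rw [hP, show n + k₁ + k₀ = n + (k₁ + k₀) by ring, pow_add 2 n (k₁ + k₀)]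
    field_simp
  have e2 : (2:ℝ) / 2 ^ (n + k₁) = 2 * 2 ^ k₀ / P := by
    rw [hP, pow_add 2 (n + k₁) k₀]
    field_simp
  have hlow : ∀ k, v k + ((z k * N + D : ℤ) : ℝ) / P = v k + z k / 2 ^ n + 2 / 2 ^ (n + k₁) := by
    intro k
    rw [e1, e2]; push_cast; rw [hNR, hDR]; ring
  have hup : ∀ k, v k + (((z k + 1) * N - D : ℤ) : ℝ) / P =
      v k + (z k + 1) / 2 ^ n - 2 / 2 ^ (n + k₁) := by
    intro k
    rw [e1, e2]; push_cast; rw [hNR, hDR]; ring
  have hlt : ∀ k, z k * N + D + 1 ≤ (z k + 1) * N - D := by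
    intro k
    have h8 : (8:ℤ) * 2 ^ k₀ ≤ N := by
      rw [hN, pow_add]
      have : (2:ℤ) ^ 3 ≤ 2 ^ k₁ := pow_le_pow_right₀ (by norm_num) hk
      have h0 : (0:ℤ) < 2 ^ k₀ := by positivity
      nlinarith
    have h0 : (0:ℤ) < 2 ^ k₀ := by positivity
    have : (z k + 1) * N = z k * N + N := by ring
    rw [this, hD]
    omega
  have key : ∀ k, ∃ w : ℤ, z k * N + D ≤ w ∧ w + 1 ≤ (z k + 1) * N - D ∧
      v k + w / P ≤ x k ∧ x k ≤ v k + (w + 1) / P := by
    intro k
    have h := hx k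
    rw [← hlow k, ← hup k] at h
    have hx1 : ((z k * N + D : ℤ) : ℝ) ≤ (x k - v k) * P := by
      have : ((z k * N + D : ℤ) : ℝ) / P ≤ x k - v k := by linarith [h.1]
      exact (div_le_iff₀ hPpos).1 this
    have hx2 : (x k - v k) * P ≤ (((z k + 1) * N - D : ℤ) : ℝ) := by
      have : x k - v k ≤ (((z k + 1) * N - D : ℤ) : ℝ) / P := by linarith [h.2]
      exact (le_div_iff₀ hPpos).1 this
    rcases lt_or_eq_of_le hx2 with h1 | h1
    · refine ⟨⌊(x k - v k) * P⌋, Int.le_floor.2 hx1, ?_, ?_, ?_⟩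
      · have : ⌊(x k - v k) * P⌋ < (z k + 1) * N - D := Int.floor_lt.2 h1
        omega
      · have := Int.floor_le ((x k - v k) * P)
        have h3 : (⌊(x k - v k) * P⌋ : ℝ) / P ≤ x k - v k := (div_le_iff₀ hPpos).2 this
        linarith
      · have := (Int.lt_floor_add_one ((x k - v k) * P)).le
        have h3 : x k - v k ≤ (⌊(x k - v k) * P⌋ + 1 : ℝ) / P := (le_div_iff₀ hPpos).2 this
        linarith
    · refine ⟨(z k + 1) * N - D - 1, by linarith [hlt k], by omega, ?_, ?_⟩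
      · have h3 : (((z k + 1) * N - D - 1 : ℤ) : ℝ) / P ≤ x k - v k := by
          rw [div_le_iff₀ hPpos, h1]; push_cast; linarith
        linarith
      · have h3 : x k - v k ≤ (((z k + 1) * N - D - 1 : ℤ) + 1 : ℝ) / P := by
          rw [le_div_iff₀ hPpos, h1]; push_cast; linarith
        linarith
  choose w hw1 hw2 hw3 hw4 using key
  refine ⟨w, fun k => ⟨hw3 k, hw4 k⟩, ?_⟩
  intro y hy k
  have h := hy k
  rw [← hlow k, ← hup k]
  have h1 : ((z k * N + D : ℤ) : ℝ) / P ≤ (w k : ℝ) / P :=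
    div_le_div_of_nonneg_right (by exact_mod_cast hw1 k) hPpos.le
  have h2 : ((w k : ℝ) + 1) / P ≤ (((z k + 1) * N - D : ℤ) : ℝ) / P :=
    div_le_div_of_nonneg_right (by exact_mod_cast hw2 k) hPpos.le
  constructor <;> linarith [h.1, h.2]

theorem dvar_congr {p : ℝ} {h h' : V → V} {v : V} {e : Idx × Fin 3} {w : V}
    (H : ∀ x ∈ edge v e, h' x = h x) : dvar p h' v e w = dvar p h v e w := by
  unfold dvar
  rw [← restrict_Ioo_eq_restrict_Icc]
  apply setLIntegral_congr_fun measurableSet_Ioo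
  intro t ht
  have : (fun s => h' (gam v e s)) =ᶠ[𝓝 t] fun s => h (gam v e s) := by
    filter_upwards [isOpen_Ioo.mem_nhds ht] with s hs
    exact H _ (mem_edge_iff.2 ⟨s, Ioo_subset_Icc_self hs, rfl⟩)
  simp only [this.deriv_eq]

end C110

open C110 in
theorem specCells (hC : SpecCell) : SpecCells := by
  classical
  intro p θ M hp hθ hM
  obtain ⟨C, hCpos, H⟩ := hC p θ M hp hθ hM
  refine ⟨C, hCpos, fun k₁ hk₁ => ?_⟩
  obtain ⟨k₀, κ, hκ, H⟩ := H k₁ hk₁
  refine ⟨k₀, κ, hκ, ?_⟩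
  intro Ω Λ v I n₂ J A L h hΩ hΛ hI hyp hdisj
  -- induction
  have main : ∀ J' ⊆ J, ∃ h' : ConHomeo Ω Λ,
      (∀ z ∈ J', CellOut p C k₁ n₂ v z (A z) h'.toFun) ∧
      (∀ e : Idx × Fin 3, (∃ q ∈ I, EdgeOf e q) →
        (∀ z ∈ J', Disjoint (edge v e) (interior (boxB v n₂ k₁ z))) →
        ∀ x ∈ edge v e, h'.toFun x = h.toFun x) ∧
      ∀ z ∈ J, z ∉ J' → CellHyp p θ M κ k₁ k₀ n₂ Λ v I z (A z) (L z) h'.toFun := by
    intro J'
    induction J' using Finset.induction_on with
    | empty =>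
      intro _
      exact ⟨h, by simp, fun e _ _ x _ => rfl, fun z hz _ => hyp z hz⟩
    | insert z J' hz ih =>
      intro hsub
      have hsub' : J' ⊆ J := fun a ha => hsub (Finset.mem_insert_of_mem ha)
      have hzJ : z ∈ J := hsub (Finset.mem_insert_self z J')
      obtain ⟨h', h1, h2, h3⟩ := ih hsub'
      set m₀ := n₂ + k₁ + k₀ with hm₀
      set I' : Set Idx := {q | q ∈ I ∧ ∃ z' ∈ J', dyc v q.1 q.2 ⊆ boxR v n₂ k₁ z'} with hI'
      have hz' : ∀ z' ∈ J', z ≠ z' := by
        rintro z' hz' rfl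
        exact hz hz'
      obtain ⟨h'', g1, g2, g3⟩ := H Ω Λ v I I' n₂ z (A z) (L z) h' hΩ hΛ hI (h3 z hzJ hz)
        (fun q hq => hq.1)
        (fun q hq => by
          obtain ⟨_, z', hz'', hq'⟩ := hq
          exact (disjoint_dyc v n₂ (hz' z' hz'')).mono_left
            (hq'.trans ((boxR_subset_boxB _ _ _ _).trans (boxB_subset _ _ _ _))))
        (fun q hq x hx => by
          obtain ⟨_, z', hz'', hq'⟩ := hq
          rw [(h1 z' hz'').box x (hq' hx)]
          intro hmem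
          exact Set.disjoint_left.1 (hdisj z hzJ z' (hsub' hz'') (hz' z' hz'')) hmem
            ⟨x, boxR_subset_shrink _ _ _ _ _ (hq' hx), rfl⟩)
      -- the new map agrees with the old one on the fine edges of the other cells
      have hout : ∀ z' ∈ J, z' ≠ z → ∀ e : Idx × Fin 3, e.1.1 = m₀ → edge v e ⊆ dyc v n₂ z' →
          ∀ x ∈ edge v e, h''.toFun x = h'.toFun x := by
        intro z' hz'J hne e he hsub'' x hx
        obtain ⟨w, hw1, hw2⟩ := cube_of_edge (j := k₁ + k₀) (by rw [he, hm₀]; ring) hsub''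
        have hw3 : ((n₂ + k₁ + k₀, w) : Idx) ∈ I := by
          apply (hyp z' hz'J).fine_sub
          rw [show n₂ + k₁ + k₀ = n₂ + (k₁ + k₀) by ring]
          exact hw2
        refine (g2 e ⟨(n₂ + k₁ + k₀, w), hw3, ?_⟩ x hx).1 ?_
        · rw [show n₂ + k₁ + k₀ = n₂ + (k₁ + k₀) by ring]
          exact hw1
        · intro hxi
          exact Set.disjoint_left.1 (disjoint_dyc v n₂ (Ne.symm hne)) (hsub'' hx)
            (interior_boxB_subset _ _ _ _ hxi)
      refine ⟨h'', ?_, ?_, ?_⟩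
      · intro z' hz''
        rcases Finset.mem_insert.1 hz'' with rfl | hz''
        · exact g1
        · have hz'J := hsub' hz''
          have hne : z' ≠ z := fun hh => hz' z' hz'' hh.symm
          constructor
          · intro x hx
            obtain ⟨w, hw1, hw2⟩ := exists_fine_cube (k₀ := k₀) hk₁ hx
            have hwI : ((n₂ + k₁ + k₀, w) : Idx) ∈ I := (hyp z' hz'J).fine_sub w
              (hw2.trans ((boxR_subset_boxB _ _ _ _).trans (boxB_subset _ _ _ _)))
            rw [g3 (n₂ + k₁ + k₀, w) ⟨hwI, z', hz'', hw2⟩ x hw1]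
            exact (h1 z' hz'').box x hx
          · intro e he hs1 hs2
            have heq : ∀ x ∈ edge v e, h''.toFun x = h'.toFun x := by
              intro x hx
              obtain ⟨e', he', hxe', hsub''⟩ := exists_fine_edge (j := k₀) he hx
              refine hout z' hz'J hne e' he' (hsub''.trans ?_) x hxe'
              exact fun y hy => boxB_subset _ _ _ _ (hs1 hy).1
            obtain ⟨o1, o2⟩ := (h1 z' hz'').gap e he hs1 hs2
            refine ⟨fun x hx => ?_, ?_⟩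
            · rw [heq x hx]; exact o1 x hx
            · rw [dvar_congr heq]; exact o2
      · intro e he hd x hx
        rw [(g2 e he x hx).1, h2 e he (fun z' hz'' => hd z' (Finset.mem_insert_of_mem hz'')) x hx]
        exact fun hxi => Set.disjoint_left.1 (hd z (Finset.mem_insert_self _ _)) hx hxi
      · intro z₁ hz₁ hz₁'
        have hz₁J' : z₁ ∉ J' := fun hh => hz₁' (Finset.mem_insert_of_mem hh)
        have hne : z₁ ≠ z := fun hh => hz₁' (hh ▸ Finset.mem_insert_self _ _)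
        have old := h3 z₁ hz₁ hz₁J'
        refine ⟨old.aff, old.below, old.above, old.fine, ?_, ?_, old.inside⟩
        · intro e he hs
          have heq := hout z₁ hz₁ hne e he hs
          obtain ⟨o1, o2⟩ := old.own e he hs
          refine ⟨fun x hx => ?_, ?_⟩
          · rw [heq x hx]; exact o1 x hx
          · rw [dvar_congr heq]; exact o2
        · intro e he hs x hx
          rcases (g2 e he x hx).2 with hh | hh
          · obtain ⟨x', hx', hxx⟩ := hh
            rw [← hxx]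
            exact old.foreign e he hs x' hx'
          · intro hmem
            exact Set.disjoint_left.1 (hdisj z₁ hz₁ z hzJ hne) hmem hh
  obtain ⟨h', h1, h2, _⟩ := main J subset_rfl
  exact ⟨h', h1, h2⟩

end P073.Gauge
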