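import Vale.Agent.P073.Gauge.Of407d
import Vale.Agent.P073.SMF.Spec
import Vale.Agent.P073.AB.Sum308d

/-!
# P073, block GAUGE, composition (helper407): `SpecGauge` from NET, the graph of the edges, the
tiles, GB (`SpecCells`) and SM (`SpecSmooth`)
-/

open Set Metric Topology MeasureTheory Filter
open scoped ENNReal

namespace P073.Gauge

open Vale.Agent.P073.St (V Mat euc IsHomeo IsBoundedDomain IsDiffeo IsSobolev)
open Vale.Agent.P073.SQ (ev)
open Vale.Agent.P073.AB
open P073.Net (dyc dyo Graph ACOn)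
open P073.Gauge.C110 P073.Gauge.O407

theorem specGauge_of (hN : P073.Top.NetOut) (hG : SpecGraph) (hT : SpecTiles) (hC : SpecCells)
    (hS : P073.SMF.SpecSmooth) : SpecGauge := by
  intro p θ M hp hp2 hθ hM
  have hp0 : 0 ≤ p := by linarith
  obtain ⟨C', hC'0, hC'⟩ := hC p θ M hp hθ hM
  have hMp : 0 ≤ M ^ p := Real.rpow_nonneg hM.le p
  refine ⟨8 * (M ^ p + 1) + 4 * (C' + 1), by positivity, fun k₁ hk₁ => ?_⟩
  obtain ⟨k₀, κ', hκ'0, hcells⟩ := hC' k₁ hk₁
  refine ⟨k₀, κ' / 8, by positivity, ?_⟩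
  intro ε Ω Λ f F hε hΩ hΛ hf _ c δ hδ δ₀ hδ₀
  have hb : Bornology.IsBounded Ω := P073.SMF.bounded_of_euc hΩ
  obtain ⟨-, hI, hgen, -, -⟩ := hT Ω c.n₀ c.v hΩ.1 hb hΩ.2.1.nonempty
  have hfc : ContinuousOn f Ω := by
    obtain ⟨g, -, h, -⟩ := hf
    exact h
  have hsubΩ : ∀ e : Idx × Fin 3, (∃ q ∈ tiles Ω c.n₀ c.v, EdgeOf e q) → edge c.v e ⊆ Ω := by
    rintro e ⟨q, hq, he⟩
    exact (Gr.edge_subset_dyc he).trans (hI.sub q hq)
  -- tolerances for the net
  have htol : ∀ e : Idx × Fin 3, ∃ r > 0, (∃ q ∈ tiles Ω c.n₀ c.v, EdgeOf e q) → ∀ z ∈ c.J,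
      ¬ edge c.v e ⊆ dyc c.v c.n₂ z → ∀ x ∈ edge c.v e, ∀ y : V,
      ‖y - f x‖ ≤ r → y ∉ c.A z '' shrink c.v c.n₂ z (1 / 2 ^ c.n₀) := by
    intro e
    by_cases he : ∃ q ∈ tiles Ω c.n₀ c.v, EdgeOf e q
    · obtain ⟨r, hr, h⟩ := exists_tol c hfc he (hsubΩ e he)
      exact ⟨r, hr, fun _ => h⟩
    · exact ⟨1, one_pos, fun h => absurd h he⟩
  choose r hr0 hr using htol
  set δ' : Idx × Fin 3 → ℝ := fun e => min (δ e / 8) (min (κ' / 8 * (1 / 2 ^ e.1.1)) (r e))
    with hδ'
  have hδ'0 : ∀ e, 0 < δ' e := fun e =>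
    lt_min (by have := hδ e; positivity) (lt_min (by positivity) (hr0 e))
  have hδ'1 : ∀ e, δ' e ≤ δ e / 8 := fun e => min_le_left _ _
  have hδ'2 : ∀ e, δ' e ≤ κ' / 8 * (1 / 2 ^ e.1.1) := fun e =>
    (min_le_right _ _).trans (min_le_left _ _)
  have hδ'3 : ∀ e, δ' e ≤ r e := fun e => (min_le_right _ _).trans (min_le_right _ _)
  obtain ⟨h, hh⟩ := net_of hN hG hp hp2 hΩ hΛ hf hI c.rat (fun e he => by
    apply c.fin e (hsubΩ e he)
    obtain ⟨q, hq, he⟩ := he
    rw [he.1]
    exact hgen q hq) δ' hδ'0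
  have hcell : ∀ z ∈ c.J, CellHyp p θ M κ' k₁ k₀ c.n₂ Λ c.v (tiles Ω c.n₀ c.v) z (c.A z) (c.L z)
      h.toFun := fun z hz =>
    cellHyp_of c hT hp hp2 hΩ hb hκ'0 le_rfl hδ'2
      (fun e he z hz hne x hx y hy => hr e he z hz hne x hx y (hy.trans (hδ'3 e))) hh hz
  obtain ⟨h', hout, hoff⟩ := hcells Ω Λ c.v (tiles Ω c.n₀ c.v) c.n₂ c.J c.A c.L h hΩ.1 hΛ.1 hI
    hcell (by rw [← c.eqn]; exact c.disj)
  -- the radius for the smoothing
  have hr₁ : (0:ℝ) < min δ₀ (1 / 2 ^ (c.n₂ + 1)) := lt_min hδ₀ (by positivity)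
  obtain ⟨m, hmc, hm0, hm1, hm2⟩ := exists_radius hΩ.1 hI hr₁ (δ := fun e => δ e / 2)
    (fun e => half_pos (hδ e))
  have hJΩ : ∀ z ∈ c.J, dyc c.v c.n₂ z ⊆ Ω := fun z hz => dyc_sub_domain c hz
  have hRsub : ∀ z, boxR c.v c.n₂ k₁ z ⊆ dyc c.v c.n₂ z := fun z =>
    (boxR_subset_boxB _ _ _ _).trans (boxB_subset _ _ _ _)
  -- segments
  set E : Set (Idx × Fin 3) := {e | (∃ q ∈ tiles Ω c.n₀ c.v, EdgeOf e q) ∨
    (e.1.1 = c.n₂ + k₁ ∧ ∃ z ∈ c.J, edge c.v e ⊆ dyc c.v c.n₂ z)} with hE
  have hEΩ : ∀ e ∈ E, edge c.v e ⊆ Ω := by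
    rintro e (he | ⟨-, z, hz, he⟩)
    · exact hsubΩ e he
    · exact he.trans (hJΩ z hz)
  have hEfin : ∀ K ⊆ Ω, IsCompact K → {e : E | (edge c.v e.1 ∩ K).Nonempty}.Finite := by
    intro K hK hKc
    have h1 := Gr.finite_edges hI hK hKc
    have h2 : (⋃ z ∈ c.J, {e : Idx × Fin 3 | e.1.1 = c.n₂ + k₁ ∧
        pt c.v e.1.1 e.1.2 ∈ dyc c.v c.n₂ z}).Finite :=
      c.J.finite_toSet.biUnion fun z _ => finite_pts c.v c.n₂ k₁ z
    refine Set.Finite.of_finite_image (f := fun e : E => e.1) ((h1.union h2).subset ?_)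
      Subtype.val_injective.injOn
    rintro _ ⟨⟨e, he⟩, hne, rfl⟩
    rcases he with he | ⟨he, z, hz, hez⟩
    · exact Or.inl ⟨he, hne⟩
    · exact Or.inr (mem_iUnion₂.2 ⟨z, hz, he, hez (pt_mem_edge _ _)⟩)
  -- squares
  set Q : Set (Idx × Fin 3) := {s | s.1.1 = c.n₂ + k₁ ∧
    ∃ z ∈ c.J, squ c.v s ⊆ frontier (boxR c.v c.n₂ k₁ z)} with hQ
  have hRcl : ∀ z, IsClosed (boxR c.v c.n₂ k₁ z) := fun z => (isCompact_shrink _ _ _ _).isClosed
  have hptsq : ∀ s : Idx × Fin 3, pt c.v s.1.1 s.1.2 ∈ squ c.v s := by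
    intro s
    refine ⟨rfl, fun k _ => ?_⟩
    have h4 : ((s.1.2 k : ℝ) + 1) / 2 ^ s.1.1 = s.1.2 k / 2 ^ s.1.1 + 1 / 2 ^ s.1.1 := by ring
    have : (0:ℝ) ≤ 1 / 2 ^ s.1.1 := by positivity
    simp only [pt]
    rw [h4]
    constructor <;> linarith
  have hupd : ∀ s : Idx × Fin 3, ∀ x ∈ dyc c.v s.1.1 s.1.2,
      Function.update x s.2 (pt c.v s.1.1 s.1.2 s.2) ∈ squ c.v s := by
    intro s x hx
    refine ⟨by rw [Function.update_self]; rfl, fun k hk => ?_⟩
    rw [Function.update_of_ne hk]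
    exact hx k
  have hQfin : Q.Finite := by
    have h2 : (⋃ z ∈ c.J, {e : Idx × Fin 3 | e.1.1 = c.n₂ + k₁ ∧
        pt c.v e.1.1 e.1.2 ∈ dyc c.v c.n₂ z}).Finite :=
      c.J.finite_toSet.biUnion fun z _ => finite_pts c.v c.n₂ k₁ z
    refine h2.subset ?_
    rintro s ⟨hs, z, hz, hsub⟩
    refine mem_iUnion₂.2 ⟨z, hz, hs, ?_⟩
    exact hRsub z ((hRcl z).frontier_subset (hsub (hptsq s)))
  have : Finite Q := hQfin
  obtain ⟨G, hG1, -, hG2, hG3, hG4, hG5⟩ := hS p Ω Λ h' m (δ₀ / 3) hp hΩ hΛ hmc hm0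
    (by positivity) E inferInstance (fun e => pt c.v e.1.1.1 e.1.1.2)
    (fun e => (1 / 2 ^ e.1.1.1 : ℝ) • ev e.1.2)
    (fun e => (1 / 2 ^ e.1.1.1) ^ p * min (δ e.1 / 8) 1)
    (by
      intro e hcon
      have := congrFun hcon e.1.2
      simp only [Pi.smul_apply, ev_apply, if_true, smul_eq_mul, mul_one, Pi.zero_apply] at this
      have h0 : (0:ℝ) < 1 / 2 ^ e.1.1.1 := by positivity
      exact h0.ne' this)
    (fun e => hEΩ e.1 e.2) hEfin
    (by
      intro e
      have h1 : 0 < min (δ e.1 / 8) 1 := lt_min (by have := hδ e.1; positivity) one_pos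
      positivity)
    Q inferInstance (fun s => s.1.2) (fun s => pt c.v s.1.1.1 s.1.1.2 s.1.2)
    (fun s => dyc c.v s.1.1.1 s.1.1.2) (fun s => 1 / 8 ^ (c.n₂ + k₁))
    (fun s => isCompact_dyc _ _ _)
    (by
      rintro ⟨s, hs, z, hz, hsub⟩ x hx
      exact hJΩ z hz (hRsub z ((hRcl z).frontier_subset (hsub (hupd s x hx)))))
    (fun K _ _ => Set.toFinite _)
    (fun s => by positivity)
  -- energies along the edges
  have hseg : ∀ e ∈ E, jInt c.v e (fun x => ENNReal.ofReal (‖fderiv ℝ G x (ev e.2) -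
      lineDeriv ℝ h'.toFun x (ev e.2)‖ ^ p)) ≤ ENNReal.ofReal (min (δ e / 8) 1) := by
    intro e he
    have h1 := hG3 ⟨e, he⟩
    rw [seg_eq] at h1
    have hpos : (0:ℝ) < (1 / 2 ^ e.1.1) ^ p := by positivity
    apply le_of_mul_ofReal hpos
    rw [← ENNReal.ofReal_mul hpos.le]
    exact h1
  have hmeas : ∀ e : Idx × Fin 3, AEMeasurable (fun t => ‖fderiv ℝ G (gam c.v e t) (ev e.2) -
      lineDeriv ℝ h'.toFun (gam c.v e t) (ev e.2)‖) (volume.restrict (Icc (0:ℝ) 1)) := by
    intro e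
    have h1 : Measurable (fun t => fderiv ℝ G (gam c.v e t) (ev e.2)) := by
      have h2 : Continuous (gam c.v e) := by
        unfold gam
        fun_prop
      exact (measurable_fderiv_apply_const ℝ G (ev e.2)).comp h2.measurable
    exact (h1.sub (aemeasurable_lineDeriv h'.toFun c.v e)).norm.aemeasurable
  refine ⟨G, hG1, ?_, ?_⟩
  · -- edges outside of the boxes
    intro e he hdis
    have hsame := hoff e he hdis
    obtain ⟨hcl, hen⟩ := hh e he
    constructor
    · intro x hx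
      have hxΩ := hsubΩ e he hx
      have h1 := hG2 x hxΩ
      have h2 := hm2 e he x hx
      have h3 := hcl x hx
      rw [← hsame x hx] at h3
      calc ‖G x - f x‖ ≤ ‖G x - h'.toFun x‖ + ‖h'.toFun x - f x‖ :=
            norm_sub_le_norm_sub_add_norm_sub _ _ _
        _ ≤ δ e / 2 + δ e / 8 := add_le_add (h1.trans h2) (h3.trans (hδ'1 e))
        _ ≤ δ e := by linarith [hδ e]
    · have h1 := hseg e (Or.inl he)
      have h2 : jInt c.v e (fun x => ENNReal.ofReal (‖lineDeriv ℝ h'.toFun x (ev e.2) -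
          cl (F x) (ev e.2)‖ ^ p)) = jInt c.v e (fun x => ENNReal.ofReal
            (‖lineDeriv ℝ h.toFun x (ev e.2) - cl (F x) (ev e.2)‖ ^ p)) :=
        jInt_congr fun t ht => by rw [lineDeriv_congr hsame ht]
      have h3 : jInt c.v e (fun x => ENNReal.ofReal (‖fderiv ℝ G x (ev e.2) -
          cl (F x) (ev e.2)‖ ^ p)) ≤ 4 * (jInt c.v e (fun x => ENNReal.ofReal
            (‖fderiv ℝ G x (ev e.2) - lineDeriv ℝ h'.toFun x (ev e.2)‖ ^ p)) +
            jInt c.v e (fun x => ENNReal.ofReal (‖lineDeriv ℝ h'.toFun x (ev e.2) -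
              cl (F x) (ev e.2)‖ ^ p))) :=
        lintegral_tri hp hp2 (hmeas e)
      rw [h2] at h3
      calc eInt c.v e (fun x => ENNReal.ofReal (‖fderiv ℝ G x (ev e.2) -
            cl (F x) (ev e.2)‖ ^ p))
          ≤ ENNReal.ofReal (1 / 2 ^ e.1.1) * (4 * (jInt c.v e (fun x => ENNReal.ofReal
            (‖fderiv ℝ G x (ev e.2) - lineDeriv ℝ h'.toFun x (ev e.2)‖ ^ p)) +
            jInt c.v e (fun x => ENNReal.ofReal
            (‖lineDeriv ℝ h.toFun x (ev e.2) - cl (F x) (ev e.2)‖ ^ p)))) := by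
              rw [eInt_eq]
              gcongr
        _ = 4 * (eInt c.v e (fun x => ENNReal.ofReal
            (‖fderiv ℝ G x (ev e.2) - lineDeriv ℝ h'.toFun x (ev e.2)‖ ^ p)) +
            eInt c.v e (fun x => ENNReal.ofReal
            (‖lineDeriv ℝ h.toFun x (ev e.2) - cl (F x) (ev e.2)‖ ^ p))) := by
              rw [eInt_eq, eInt_eq]
              ring
        _ ≤ 4 * (ENNReal.ofReal (δ e / 8) + ENNReal.ofReal (δ e / 8)) := by
              gcongr
              · exact (eInt_le_jInt _ _ _).trans (h1.trans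
                  (ENNReal.ofReal_le_ofReal (min_le_left _ _)))
              · exact hen.trans (ENNReal.ofReal_le_ofReal (hδ'1 e))
        _ = ENNReal.ofReal (δ e) := by
              have := hδ e
              rw [← ENNReal.ofReal_add (by positivity) (by positivity),
                show (4 : ℝ≥0∞) = ENNReal.ofReal 4 by norm_num,
                ← ENNReal.ofReal_mul (by norm_num)]
              congr 1
              ring
  · intro z hz
    have hbox := (hout z hz).box
    have hRΩ : boxR c.v c.n₂ k₁ z ⊆ Ω := (hRsub z).trans (hJΩ z hz)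
    refine ⟨?_, ?_, ?_, ?_⟩
    · intro x hx
      rw [← hbox x hx]
      exact (hG2 x (hRΩ hx)).trans ((hm1 x (hRΩ hx)).trans (min_le_left _ _))
    · -- volume
      have key : ∀ j, ∫⁻ x in boxR c.v c.n₂ k₁ z,
          ENNReal.ofReal (‖fderiv ℝ G x (ev j) - c.L z (ev j)‖ ^ p) ≤
          ENNReal.ofReal (δ₀ / 3) := by
        intro j
        refine (lintegral_le_interior (convex_shrink _ _ _ _) _).trans ?_
        refine le_trans (le_of_eq ?_) ((lintegral_mono_set
          (interior_subset.trans hRΩ)).trans (hG5 j))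
        apply setLIntegral_congr_fun isOpen_interior.measurableSet
        intro x hx
        have : fderiv ℝ h'.toFun x = c.L z := fderiv_box (fun x y => c.aff z x y) hbox hx
        simp only [this]
        rfl
      calc _ ≤ ∑ _j : Fin 3, ENNReal.ofReal (δ₀ / 3) := Finset.sum_le_sum fun j _ => key j
        _ = ENNReal.ofReal δ₀ := by
          rw [Finset.sum_const, Finset.card_univ, Fintype.card_fin, nsmul_eq_mul]
          rw [show ((3 : ℕ) : ℝ≥0∞) = ENNReal.ofReal 3 by norm_num,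
            ← ENNReal.ofReal_mul (by norm_num)]
          congr 1
          ring
    · -- squares
      intro s hs hsub
      have hsQ : s ∈ Q := ⟨hs, z, hz, hsub⟩
      have hsub' : squ c.v s ⊆ boxR c.v c.n₂ k₁ z := hsub.trans (hRcl z).frontier_subset
      have h8 : (1 : ℝ) / 2 ^ (3 * (c.n₂ + k₁)) = 1 / 8 ^ (c.n₂ + k₁) := by
        rw [pow_mul]; norm_num
      have key : ∀ j ∈ Finset.univ.erase s.2, ∫⁻ x in dyc c.v s.1.1 s.1.2,
            ENNReal.ofReal (‖fderiv ℝ G (Function.update x s.2 (pt c.v s.1.1 s.1.2 s.2)) (ev j)‖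
              ^ p) ≤ ENNReal.ofReal (4 * (M ^ p + 1) / 8 ^ (c.n₂ + k₁)) := by
        intro j hj
        have hj' : j ≠ s.2 := (Finset.mem_erase.1 hj).1
        have h1 := hG4 ⟨s, hsQ⟩ j hj'
        simp only at h1
        -- the derivative of `h'`
        have h2 : ∫⁻ x in dyc c.v s.1.1 s.1.2, ENNReal.ofReal
            (‖lineDeriv ℝ h'.toFun (Function.update x s.2 (pt c.v s.1.1 s.1.2 s.2))
              (Pi.single j 1)‖ ^ p) ≤ ENNReal.ofReal (M ^ p / 8 ^ (c.n₂ + k₁)) := by
          refine (lintegral_le_interior (convex_dyc _ _ _) _).trans ?_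
          rw [interior_dyc]
          have h3 : ∀ x ∈ dyo c.v s.1.1 s.1.2, ENNReal.ofReal
              (‖lineDeriv ℝ h'.toFun (Function.update x s.2 (pt c.v s.1.1 s.1.2 s.2))
              (Pi.single j 1)‖ ^ p) ≤ ENNReal.ofReal (M ^ p) := by
            intro x hx
            apply ENNReal.ofReal_le_ofReal
            apply Real.rpow_le_rpow (norm_nonneg _) _ hp0
            have h4 := lineDeriv_squ (fun x y => c.aff z x y) hbox hsub' hx hj'
            have h5 : (Pi.single j 1 : V) = ev j := rfl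
            rw [h5, h4]
            refine (c.above z hz _).trans ?_
            have : ‖ev j‖ = 1 := by
              unfold ev
              rw [Pi.norm_single, norm_one]
            rw [this, mul_one]
          have hmeaso : MeasurableSet (dyo c.v s.1.1 s.1.2) := by
            rw [← interior_dyc]; exact isOpen_interior.measurableSet
          refine (setLIntegral_mono' hmeaso h3).trans ?_
          rw [setLIntegral_const, S308.volume_dyo, ← ENNReal.ofReal_mul hMp, hs]
          apply ENNReal.ofReal_le_ofReal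
          exact le_of_eq (by ring)
        have hmeas2 : AEMeasurable (fun x : V =>
            ‖fderiv ℝ G (Function.update x s.2 (pt c.v s.1.1 s.1.2 s.2)) (Pi.single j 1) -
            lineDeriv ℝ h'.toFun (Function.update x s.2 (pt c.v s.1.1 s.1.2 s.2))
              (Pi.single j 1)‖) (volume.restrict (dyc c.v s.1.1 s.1.2)) := by
          have hcu : Continuous fun x : V =>
              Function.update x s.2 (pt c.v s.1.1 s.1.2 s.2) := by fun_prop
          have h6 : Measurable fun x : V =>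
              fderiv ℝ G (Function.update x s.2 (pt c.v s.1.1 s.1.2 s.2)) (Pi.single j 1) :=
            (measurable_fderiv_apply_const ℝ G (Pi.single j 1)).comp hcu.measurable
          have h7 : (fun x : V => lineDeriv ℝ h'.toFun
              (Function.update x s.2 (pt c.v s.1.1 s.1.2 s.2)) (Pi.single j 1)) =ᵐ[
              volume.restrict (dyc c.v s.1.1 s.1.2)] fun _ => c.L z (ev j) := by
            have h9 : (volume : Measure V) (frontier (dyc c.v s.1.1 s.1.2)) = 0 :=
              (convex_dyc _ _ _).addHaar_frontier volume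
            have h10 : ∀ᵐ x ∂(volume : Measure V), x ∉ frontier (dyc c.v s.1.1 s.1.2) :=
              measure_eq_zero_iff_ae_notMem.1 h9
            refine (ae_restrict_iff' (isCompact_dyc _ _ _).measurableSet).2 ?_
            filter_upwards [h10] with x hx hx'
            have h11 : x ∈ dyo c.v s.1.1 s.1.2 := by
              rw [← interior_dyc]
              by_contra hcon
              exact hx ⟨subset_closure hx', hcon⟩
            exact lineDeriv_squ (fun x y => c.aff z x y) hbox hsub' h11 hj'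
          exact (h6.aemeasurable.sub (aemeasurable_const.congr h7.symm)).norm
        have h12 := lintegral_tri hp hp2 (c := fun _ => 0) hmeas2
        simp only [sub_zero] at h12
        refine h12.trans ?_
        calc _ ≤ 4 * (ENNReal.ofReal (1 / 8 ^ (c.n₂ + k₁)) +
              ENNReal.ofReal (M ^ p / 8 ^ (c.n₂ + k₁))) := by
              gcongr
          _ = _ := by
            rw [← ENNReal.ofReal_add (by positivity) (by positivity),
              show (4 : ℝ≥0∞) = ENNReal.ofReal 4 by norm_num, ← ENNReal.ofReal_mul (by norm_num)]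
            congr 1
            ring
      refine (Finset.sum_le_sum key).trans ?_
      rw [Finset.sum_const, Finset.card_erase_of_mem (Finset.mem_univ _), Finset.card_univ,
        Fintype.card_fin, nsmul_eq_mul, show (((3 - 1 : ℕ)) : ℝ≥0∞) = ENNReal.ofReal 2 by norm_num,
        ← ENNReal.ofReal_mul (by norm_num)]
      apply ENNReal.ofReal_le_ofReal
      rw [div_eq_mul_one_div (8 * (M ^ p + 1) + 4 * (C' + 1)), h8]
      have h13 : (0:ℝ) < 1 / 8 ^ (c.n₂ + k₁) := by positivity
      have h14 : 2 * (4 * (M ^ p + 1) / 8 ^ (c.n₂ + k₁)) =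
          (8 * (M ^ p + 1)) * (1 / 8 ^ (c.n₂ + k₁)) := by ring
      rw [h14]
      apply mul_le_mul_of_nonneg_right _ h13.le
      linarith
    · -- edges of the gap
      intro e he hsub hfr
      obtain ⟨h1, h2⟩ := (hout z hz).gap e he hsub hfr
      have hez : edge c.v e ⊆ dyc c.v c.n₂ z :=
        (hsub.trans sdiff_subset).trans (boxB_subset _ _ _ _)
      have heE : e ∈ E := Or.inr ⟨he, z, hz, hez⟩
      constructor
      · intro x hx
        have hxΩ := hEΩ e heE hx
        have h3 := (hG2 x hxΩ).trans ((hm1 x hxΩ).trans (min_le_right _ _))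
        calc ‖G x - c.A z x‖ ≤ ‖G x - h'.toFun x‖ + ‖h'.toFun x - c.A z x‖ :=
              norm_sub_le_norm_sub_add_norm_sub _ _ _
          _ ≤ 1 / 2 ^ (c.n₂ + 1) + 1 / 2 ^ (c.n₂ + 1) := add_le_add h3 (h1 x hx)
          _ = 1 / 2 ^ c.n₂ := by rw [pow_succ]; field_simp; norm_num
      · have h3 := hseg e heE
        rw [dvar_zero, ← he, mul_comm C', ENNReal.ofReal_mul (by positivity)] at h2
        have h4 := le_of_mul_ofReal (by positivity) h2
        have h5 : jInt c.v e (fun x => ENNReal.ofReal (‖fderiv ℝ G x (ev e.2)‖ ^ p)) ≤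
            4 * (jInt c.v e (fun x => ENNReal.ofReal
            (‖fderiv ℝ G x (ev e.2) - lineDeriv ℝ h'.toFun x (ev e.2)‖ ^ p)) +
            jInt c.v e (fun x => ENNReal.ofReal (‖lineDeriv ℝ h'.toFun x (ev e.2)‖ ^ p))) := by
          have := lintegral_tri hp hp2 (c := fun _ => 0) (hmeas e)
          simp only [sub_zero] at this
          exact this
        have h6 : jInt c.v e (fun x => ENNReal.ofReal (‖fderiv ℝ G x (ev e.2)‖ ^ p)) ≤
            ENNReal.ofReal (4 * (C' + 1)) := by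
          refine h5.trans ?_
          calc _ ≤ 4 * (ENNReal.ofReal 1 + ENNReal.ofReal C') := by
                gcongr
                exact h3.trans (ENNReal.ofReal_le_ofReal (min_le_right _ _))
            _ = _ := by
              rw [← ENNReal.ofReal_add (by positivity) (by positivity),
                show (4 : ℝ≥0∞) = ENNReal.ofReal 4 by norm_num,
                ← ENNReal.ofReal_mul (by norm_num)]
              congr 1
              ring
        rw [eInt_eq]
        calc _ ≤ ENNReal.ofReal (1 / 2 ^ e.1.1) * ENNReal.ofReal (4 * (C' + 1)) := by gcongr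
          _ ≤ _ := by
            rw [← ENNReal.ofReal_mul (by positivity), he]
            apply ENNReal.ofReal_le_ofReal
            rw [div_eq_mul_one_div (8 * (M ^ p + 1) + 4 * (C' + 1)), mul_comm]
            apply mul_le_mul_of_nonneg_right _ (by positivity)
            linarith

end P073.Gauge
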