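import Vale.Agent.P073.AB.Part86
import Vale.Agent.P073.AB.Graph907
import Vale.Agent.P073.PR720.Cx

/-!
# P073, block GAUGE/CX: incidences in the cell complex of a dyadic partition
-/

open Set Metric Topology Filter

namespace P073.Gauge.CxA

open Vale.Agent.P073.St (V)
open Vale.Agent.P073.SQ (ev cube)
open Vale.Agent.P073.AB Vale.Agent.P073.AB.P86
open Vale.Agent.P073.AB.Gr (PEdge mem_edge mid mid_spec edge_subset_dyc)
open P073.Net (dyc dyo)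
open P073.PR720 (LF)

/-- the relative boundary of a dyadic square -/
def sqbd (v : V) (s : Idx × Fin 3) : Set V := squ v s \ rel v s

/-- the boundary of a dyadic cube -/
def cbd (v : V) (q : Idx) : Set V := dyc v q.1 q.2 \ dyo v q.1 q.2

theorem mem_sqbd {v : V} {s : Idx × Fin 3} {x : V} : x ∈ sqbd v s ↔ x ∈ squ v s ∧
    ∃ k, k ≠ s.2 ∧ (x k = v k + s.1.2 k / 2 ^ s.1.1 ∨ x k = v k + (s.1.2 k + 1) / 2 ^ s.1.1) := by
  constructor
  · rintro ⟨hx, hn⟩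
    refine ⟨hx, ?_⟩
    by_contra hcon
    push Not at hcon
    apply hn
    refine ⟨hx.1, fun k hk => ?_⟩
    obtain ⟨h1, h2⟩ := hcon k hk
    obtain ⟨h3, h4⟩ := hx.2 k hk
    exact ⟨lt_of_le_of_ne h3 (Ne.symm h1), lt_of_le_of_ne h4 h2⟩
  · rintro ⟨hx, k, hk, h⟩
    refine ⟨hx, fun hr => ?_⟩
    obtain ⟨h1, h2⟩ := hr.2 k hk
    rcases h with h | h <;> linarith

theorem mem_cbd {v : V} {q : Idx} {x : V} : x ∈ cbd v q ↔ x ∈ dyc v q.1 q.2 ∧
    ∃ k, (x k = v k + q.2 k / 2 ^ q.1 ∨ x k = v k + (q.2 k + 1) / 2 ^ q.1) := by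
  constructor
  · rintro ⟨hx, hn⟩
    refine ⟨hx, ?_⟩
    by_contra hcon
    push Not at hcon
    apply hn
    intro k
    obtain ⟨h1, h2⟩ := hcon k
    obtain ⟨h3, h4⟩ := hx k
    exact ⟨lt_of_le_of_ne h3 (Ne.symm h1), lt_of_le_of_ne h4 h2⟩
  · rintro ⟨hx, k, h⟩
    refine ⟨hx, fun hr => ?_⟩
    obtain ⟨h1, h2⟩ := hr k
    rcases h with h | h <;> linarith

theorem sqbd_subset {v : V} {s : Idx × Fin 3} : sqbd v s ⊆ squ v s := sdiff_subset

theorem cbd_subset {v : V} {q : Idx} : cbd v q ⊆ dyc v q.1 q.2 := sdiff_subset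

theorem exists_third (a b : Fin 3) : ∃ l : Fin 3, l ≠ a ∧ l ≠ b := by
  revert a b; decide

theorem third (a b l j : Fin 3) : a ≠ b → l ≠ a → l ≠ b → j ≠ l → j = a ∨ j = b := by
  revert a b l j; decide

variable {Ω : Set V} {v : V} {I : Set Idx}

/-- a minimal square is a face of a cube of the partition -/
theorem exists_face {s : Idx × Fin 3} (hs : MinSq v I s) :
    ∃ q ∈ I, FaceOf s q ∧ squ v s ⊆ dyc v q.1 q.2 := by
  obtain ⟨⟨q, hq, hf⟩, -⟩ := hs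
  refine ⟨q, hq, hf, ?_⟩
  rcases faceOf_iff.1 hf with rfl | rfl
  · exact squ_sub_hi
  · exact squ_sub_lo

/-- (L1) edges of the partition avoid the relative interiors of the minimal squares -/
theorem edge_rel (hΩ : IsOpen Ω) (hI : Part Ω v I) {s e : Idx × Fin 3} (hs : MinSq v I s)
    (he : PEdge I e) {x : V} (hx : x ∈ edge v e) : x ∉ rel v s := by
  intro hr
  obtain ⟨q, hq, heq⟩ := he
  obtain ⟨qp, qm, htwo⟩ := two_of_minSq hΩ hI hs
  have hxq : x ∈ dyc v q.1 q.2 := edge_subset_dyc heq hx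
  obtain ⟨zz, hzz, hsub⟩ : ∃ zz : Fin 3 → ℤ, (∀ j, j ≠ s.2 → zz j = s.1.2 j) ∧
      dyc v s.1.1 zz ⊆ dyc v q.1 q.2 := by
    rcases rel_mem hI htwo hr hq hxq with rfl | rfl
    · exact ⟨_, fun j _ => rfl, htwo.subp⟩
    · exact ⟨_, fun j hj => lo_other s hj, htwo.subm⟩
  obtain ⟨j, hj1, hj2⟩ := exists_third e.2 s.2
  have h1 := sub_ineq hsub j
  rw [hzz j hj2] at h1
  have h2 := hr.2 j hj2
  have h3 := (mem_edge.1 hx).1 j hj1
  obtain ⟨h4, -, h5⟩ := heq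
  rw [h4] at h3
  rcases h5 j hj1 with h6 | h6
  · rw [h6] at h3; linarith [h1.1, h2.1]
  · rw [h6] at h3; push_cast at h3; linarith [h1.2, h2.2]

theorem edgeOfSq_edgeOf {s e : Idx × Fin 3} {q : Idx} (hf : FaceOf s q) (he : EdgeOfSq e s) :
    EdgeOf e q := by
  obtain ⟨h1, h2, h3, h4, h5⟩ := he
  obtain ⟨f1, f2, f3⟩ := hf
  refine ⟨h1.trans f1, by rw [h3]; exact f3 _ h2, fun j hj => ?_⟩
  by_cases hjs : j = s.2
  · subst hjs
    rw [h4]; exact f2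
  · rw [← f3 j hjs]; exact h5 j hj hjs

theorem edgeOfSq_subset {s e : Idx × Fin 3} (he : EdgeOfSq e s) : edge v e ⊆ squ v s := by
  obtain ⟨h1, h2, h3, h4, h5⟩ := he
  intro x hx
  obtain ⟨g1, g2, g3⟩ := mem_edge.1 hx
  refine ⟨?_, fun k hk => ?_⟩
  · rw [g1 s.2 (Ne.symm h2), h4, h1]
  · by_cases hke : k = e.2
    · subst hke
      rw [← h3, ← h1]; exact ⟨g2, g3⟩
    · have hp : (0:ℝ) < 1 / 2 ^ s.1.1 := by positivity
      have g4 := g1 k hke
      rw [h1] at g4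
      rw [div_add_one]
      rcases h5 k hke hk with h6 | h6
      · rw [h6] at g4; rw [g4]; constructor <;> linarith
      · rw [h6] at g4
        push_cast at g4
        rw [div_add_one] at g4
        rw [g4]; constructor <;> linarith

/-- every point of the relative boundary is on an edge of the square -/
theorem exists_edgeOfSq {s : Idx × Fin 3} {x : V} (hx : x ∈ sqbd v s) :
    ∃ e, EdgeOfSq e s ∧ x ∈ edge v e := by
  obtain ⟨hxs, k, hk, h⟩ := mem_sqbd.1 hx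
  obtain ⟨l, hl1, hl2⟩ := exists_third k s.2
  have h3 : ∀ j, j ≠ l → j = k ∨ j = s.2 := fun j hj => third k s.2 l j hk hl1 hl2 hj
  rcases h with h | h
  · refine ⟨((s.1.1, s.1.2), l), ⟨rfl, hl2, rfl, rfl, fun j _ _ => Or.inl rfl⟩, mem_edge.2
      ⟨fun j hj => ?_, hxs.2 l hl2⟩⟩
    rcases h3 j hj with rfl | rfl
    · exact h
    · exact hxs.1
  · refine ⟨((s.1.1, Function.update s.1.2 k (s.1.2 k + 1)), l), ⟨rfl, hl2, ?_, ?_,
      fun j hj1 hj2 => ?_⟩, mem_edge.2 ⟨fun j hj => ?_, ?_⟩⟩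
    · exact Function.update_of_ne hl1 _ _
    · exact Function.update_of_ne (Ne.symm hk) _ _
    · rcases h3 j hj1 with rfl | h4
      · right; exact Function.update_self _ _ _
      · exact absurd h4 hj2
    · rcases h3 j hj with rfl | rfl
      · simp only [Function.update_self]; push_cast; exact h
      · simp only [Function.update_of_ne (Ne.symm hk)]; exact hxs.1
    · simp only [Function.update_of_ne hl1]
      exact hxs.2 l hl2

/-- (L2) the relative boundary of a minimal square is the union of the minimal edges in it -/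
theorem sqbd_eq (hΩ : IsOpen Ω) (hI : Part Ω v I) {s : Idx × Fin 3} (hs : MinSq v I s) :
    sqbd v s = ⋃ e ∈ {e | Gr.Min v I e ∧ edge v e ⊆ squ v s}, edge v e := by
  apply Subset.antisymm
  · intro x hx
    obtain ⟨e, he, hxe⟩ := exists_edgeOfSq hx
    obtain ⟨q, hq, hf, -⟩ := exists_face hs
    obtain ⟨S, -, hmin, hcov⟩ := Gr.exists_cover hΩ hI ⟨q, hq, edgeOfSq_edgeOf hf he⟩
    rw [hcov] at hxe
    obtain ⟨e', he', hxe'⟩ := mem_iUnion₂.1 hxe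
    refine mem_biUnion (x := e') ⟨hmin e' he', ?_⟩ hxe'
    have : edge v e' ⊆ edge v e := by
      rw [hcov]; exact subset_biUnion_of_mem (u := fun e => edge v e) he'
    exact this.trans (edgeOfSq_subset he)
  · intro x hx
    obtain ⟨e, ⟨hmin, hsub⟩, hxe⟩ := mem_iUnion₂.1 hx
    exact ⟨hsub hxe, edge_rel hΩ hI hs hmin.1 hxe⟩

/-- (L3) -/
theorem squ_inter (hΩ : IsOpen Ω) (hI : Part Ω v I) {s s' : Idx × Fin 3} (hs : MinSq v I s)
    (hs' : MinSq v I s') (hne : s ≠ s') : squ v s ∩ squ v s' ⊆ sqbd v s := by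
  rintro x ⟨hx, hx'⟩
  exact ⟨hx, fun hr => hne (sq_disj hΩ hI hs hs' hr hx')⟩

/-- (L1') -/
theorem squ_inter_edge (hΩ : IsOpen Ω) (hI : Part Ω v I) {s e : Idx × Fin 3} (hs : MinSq v I s)
    (he : PEdge I e) : squ v s ∩ edge v e ⊆ sqbd v s := by
  rintro x ⟨hx, hx'⟩
  exact ⟨hx, edge_rel hΩ hI hs he hx'⟩

/-- (L4) every minimal edge is contained in a minimal square -/
theorem exists_squ (hΩ : IsOpen Ω) (hI : Part Ω v I) {e : Idx × Fin 3} (he : Gr.Min v I e) :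
    ∃ s, MinSq v I s ∧ edge v e ⊆ squ v s := by
  obtain ⟨q, hq, heq⟩ := he.1
  obtain ⟨hm1, hm2, hm3⟩ := mid_spec v e
  have hxq : mid v e ∈ dyc v q.1 q.2 := edge_subset_dyc heq hm1
  obtain ⟨l, hl⟩ : ∃ l : Fin 3, l ≠ e.2 := exists_ne e.2
  have h1 := (mem_edge.1 hm1).1 l hl
  rw [heq.1] at h1
  obtain ⟨s, hs, hxs, -⟩ := bd_cover hΩ hI hq hxq (l := l) (by
    rcases heq.2.2 l hl with h2 | h2
    · left; rw [h1, h2]
    · right; rw [h1, h2]; push_cast; rfl)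
  have h2 : mid v e ∈ sqbd v s := ⟨hxs, edge_rel hΩ hI hs he.1 hm1⟩
  rw [sqbd_eq hΩ hI hs] at h2
  obtain ⟨e', ⟨hmin, hsub⟩, hxe'⟩ := mem_iUnion₂.1 h2
  by_cases hee : e = e'
  · rw [hee]; exact ⟨s, hs, hsub⟩
  · exact absurd ⟨hm2, hm3⟩ (Gr.not_inner hI he hmin hee hm1 hxe')

/-- (L5) -/
theorem finite_min (hI : Part Ω v I) {s : Idx × Fin 3} (hs : MinSq v I s) :
    {e | Gr.Min v I e ∧ edge v e ⊆ squ v s}.Finite := by
  obtain ⟨q, hq, hf, hsub⟩ := exists_face hs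
  refine (Gr.finite_edges hI (hI.sub q hq) (isCompact_dyc v q.1 q.2)).subset ?_
  rintro e ⟨he, hes⟩
  obtain ⟨y, hy⟩ := Gr.edge_nonempty v e
  exact ⟨he.1, y, hy, hsub (hes hy)⟩

/-- (L6) local finiteness of the minimal squares -/
theorem lf_squ (hΩ : IsOpen Ω) (hI : Part Ω v I) {x : V} (hx : x ∈ Ω) :
    ∃ U ∈ 𝓝 x, {s | MinSq v I s ∧ (squ v s ∩ U).Nonempty}.Finite := by
  obtain ⟨K, hK, hKΩ, hKc⟩ := local_compact_nhds (hΩ.mem_nhds hx)
  refine ⟨K, hK, ((hI.fin K hKΩ hKc).biUnion (fun r hr => finite_minSq hI hr.1)).subset ?_⟩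
  rintro s ⟨hs, y, hy, hyK⟩
  obtain ⟨q, hq, hf, hsub⟩ := exists_face hs
  exact mem_biUnion (x := q) ⟨hq, y, hsub hy, hyK⟩ ⟨hs, hsub⟩

/-- a minimal square in a cube lies in its boundary -/
theorem squ_sub_cbd (hI : Part Ω v I) {s : Idx × Fin 3} (hs : MinSq v I s) {q : Idx} (hq : q ∈ I)
    (hsub : squ v s ⊆ dyc v q.1 q.2) : squ v s ⊆ cbd v q := by
  intro x hx
  refine mem_cbd.2 ⟨hsub hx, s.2, ?_⟩
  have h1 := abseq (bd_pos hI hs hq hsub).1
  have h2 : x s.2 = sc v s s.2 := by rw [hx.1]; simp [sc]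
  rw [h2]; exact h1

/-- (L7) -/
theorem cbd_eq (hΩ : IsOpen Ω) (hI : Part Ω v I) {q : Idx} (hq : q ∈ I) :
    cbd v q = ⋃ s ∈ {s | MinSq v I s ∧ squ v s ⊆ dyc v q.1 q.2}, squ v s := by
  apply Subset.antisymm
  · intro x hx
    obtain ⟨hxq, l, hl⟩ := mem_cbd.1 hx
    obtain ⟨s, hs, hxs, hsub⟩ := bd_cover hΩ hI hq hxq hl
    exact mem_biUnion (x := s) ⟨hs, hsub⟩ hxs
  · intro x hx
    obtain ⟨s, ⟨hs, hsub⟩, hxs⟩ := mem_iUnion₂.1 hx
    exact squ_sub_cbd hI hs hq hsub hxs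

/-- (L8) -/
theorem dyc_inter_squ (hI : Part Ω v I) {s : Idx × Fin 3} (hs : MinSq v I s) {q : Idx}
    (hq : q ∈ I) : dyc v q.1 q.2 ∩ squ v s ⊆ cbd v q := by
  rintro x ⟨hx, hx'⟩
  obtain ⟨q0, hq0, hf, hsub⟩ := exists_face hs
  refine ⟨hx, fun ho => ?_⟩
  have := eq_of_mem hI hq hq0 ho (hsub hx')
  subst this
  exact (squ_sub_cbd hI hs hq hsub hx').2 ho

/-- (L9) -/
theorem dyc_inter_dyc (hI : Part Ω v I) {q q' : Idx} (hq : q ∈ I) (hq' : q' ∈ I) (hne : q ≠ q') :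
    dyc v q.1 q.2 ∩ dyc v q'.1 q'.2 ⊆ cbd v q := by
  rintro x ⟨hx, hx'⟩
  exact ⟨hx, fun ho => hne (eq_of_mem hI hq hq' ho hx')⟩

/-- (L10) -/
theorem exists_two (hΩ : IsOpen Ω) (hI : Part Ω v I) {s : Idx × Fin 3} (hs : MinSq v I s) :
    ∃ q ∈ I, ∃ q' ∈ I, q ≠ q' ∧ ∀ r ∈ I, squ v s ⊆ dyc v r.1 r.2 ↔ r = q ∨ r = q' := by
  obtain ⟨qp, qm, htwo⟩ := two_of_minSq hΩ hI hs
  refine ⟨qp, htwo.memp, qm, htwo.memm, ?_, fun r hr => ⟨fun h => ?_, ?_⟩⟩
  · intro heq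
    obtain ⟨q0, hq0, hf, hsub⟩ := exists_face hs
    have hlo : lo s ≠ s.1.2 := by
      intro h
      have := congrFun h s.2
      rw [lo_same] at this
      omega
    rcases faceOf_iff.1 hf with rfl | rfl
    · have h1 := eq_of_sub hI hq0 htwo.memp htwo.subp
      rw [← h1] at heq
      have h2 := htwo.subm
      rw [← heq] at h2
      exact hlo (eq_of_sub_same h2)
    · have h1 := eq_of_sub hI hq0 htwo.memm htwo.subm
      rw [← h1] at heq
      have h2 := htwo.subp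
      rw [heq] at h2
      exact hlo (eq_of_sub_same h2).symm
  · exact rel_mem hI htwo sc_mem hr (h (rel_sub sc_mem))
  · rintro (rfl | rfl)
    · exact squ_sub_hi.trans htwo.subp
    · exact squ_sub_lo.trans htwo.subm

/-- (L11) local finiteness of the cubes -/
theorem lf_dyc (hΩ : IsOpen Ω) (hI : Part Ω v I) {x : V} (hx : x ∈ Ω) :
    ∃ U ∈ 𝓝 x, {q | q ∈ I ∧ (dyc v q.1 q.2 ∩ U).Nonempty}.Finite := by
  obtain ⟨K, hK, hKΩ, hKc⟩ := local_compact_nhds (hΩ.mem_nhds hx)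
  exact ⟨K, hK, hI.fin K hKΩ hKc⟩

end P073.Gauge.CxA
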