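import Vale.Agent.P073.Gauge.Cx673b
import Vale.Agent.P073.Gauge.CxA86

/-!
# P073, block CX: `SpecCx`
-/

open Set Metric Topology Filter

namespace P073.Gauge

open Vale.Agent.P073.St (V)
open Vale.Agent.P073.AB
open P073.Net (dyc dyo)
open P073.PR720 (LF)

namespace Cx673

theorem facts {Ω : Set V} {v : V} {I : Set Idx} (hΩ : IsOpen Ω) (hI : Part Ω v I) :
    Facts Ω v I where
  L1 _ _ _ hs hx hxe he := ⟨hx, CxA.edge_rel hΩ hI hs he hxe⟩
  L2 _ hs := CxA.sqbd_eq hΩ hI hs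
  L3 _ _ hs hs' hne := CxA.squ_inter hΩ hI hs hs' hne
  L4 _ he := CxA.exists_squ hΩ hI he
  L5 _ hs := CxA.finite_min hI hs
  L6 := by
    intro z hz
    obtain ⟨U, hU, hfin⟩ := CxA.lf_squ hΩ hI hz
    refine ⟨U, hU, (hfin.preimage (Subtype.val_injective
      (p := fun s : Idx × Fin 3 => MinSq v I s)).injOn).subset fun s hs => ⟨s.2, hs⟩⟩
  L7 _ hq := CxA.cbd_eq hΩ hI hq
  L8 _ hq _ hs := CxA.dyc_inter_squ hI hs hq
  L9 _ hq _ hq' hne := CxA.dyc_inter_dyc hI hq hq' hne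
  L10 _ hs := CxA.exists_two hΩ hI hs
  L11 _ hq := P86.finite_minSq hI hq
  L12 := by
    intro z hz
    obtain ⟨U, hU, hfin⟩ := CxA.lf_dyc hΩ hI hz
    refine ⟨U, hU, (hfin.preimage (Subtype.val_injective
      (p := fun q : Idx => q ∈ I)).injOn).subset fun q hq => ⟨q.2, hq⟩⟩

end Cx673

/-- **(CX)** -/
theorem specCx : SpecCx := fun _ _ _ hΩ hI =>
  Cx673.dyCx_of_facts hΩ hI (Cx673.facts hΩ hI)

end P073.Gauge
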