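import Vale.Agent.P073.Spec.Gauge
import Vale.Agent.P073.TR.Sard
import Vale.Agent.P073.ConicalStrata2

/-!
# P073, block GAUGE: linearity spaces along segments and coordinate planes
-/

open Set Metric Topology MeasureTheory Filter

namespace P073.Gauge

section general

variable {E F : Type*} [NormedAddCommGroup E] [NormedSpace ℝ E]
  [NormedAddCommGroup F] [NormedSpace ℝ F]

/-- a subset of the interval which is locally finite in it is finite -/
theorem finite_of_locally {B : Set ℝ} {a b : ℝ}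
    (h : ∀ t ∈ Icc a b, ∃ δ > 0, ∀ s, |s - t| < δ → s ≠ t → s ∉ B) :
    {t ∈ Icc a b | t ∈ B}.Finite := by
  have h1 : ∀ t ∈ Icc a b, ∃ U ∈ 𝓝[Icc a b] t, (U ∩ B).Finite := by
    intro t ht
    obtain ⟨δ, hδ, hB⟩ := h t ht
    refine ⟨ball t δ, mem_nhdsWithin_of_mem_nhds (ball_mem_nhds t hδ), ?_⟩
    refine (finite_singleton t).subset ?_
    rintro s ⟨hs, hsB⟩
    by_contra hne
    rw [mem_ball, Real.dist_eq] at hs
    exact hB s hs hne hsB
  choose! U hU hUB using h1
  obtain ⟨T, hT, hcov⟩ := isCompact_Icc.elim_nhdsWithin_subcover U hU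
  have h2 : {t ∈ Icc a b | t ∈ B} ⊆ ⋃ t ∈ T, (U t ∩ B) := by
    rintro t ⟨ht, htB⟩
    obtain ⟨s, hs, hst⟩ := mem_iUnion₂.1 (hcov ht)
    exact mem_iUnion₂.2 ⟨s, hs, hst, htB⟩
  exact (T.finite_toSet.biUnion fun t ht => hUB t (hT t ht)).subset h2

/-- the directions of a segment are in the linearity space except at finitely many points -/
theorem finite_notMem_linSpace [FiniteDimensional ℝ E] {h : E → F} {Ω : Set E} (hΩ : IsOpen Ω)
    (H : ConicalOn h Ω) {a w : E} (hseg : ∀ t ∈ Icc (0:ℝ) 1, a + t • w ∈ Ω) :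
    {t ∈ Icc (0:ℝ) 1 | w ∉ linSpace h (a + t • w)}.Finite := by
  refine finite_of_locally (B := {t | w ∉ linSpace h (a + t • w)}) fun t ht => ?_
  obtain ⟨δ, hδ, h1⟩ := segment_linSpace (w := w) hΩ H (hseg t ht)
  refine ⟨δ, hδ, fun s hs hst hsB => hsB ?_⟩
  have h2 := h1 (s - t) hs (sub_ne_zero.2 hst)
  have h3 : a + t • w + (s - t) • w = a + s • w := by module
  rwa [h3] at h2

/-- the derivative along a direction of the linearity space -/
theorem hasDerivAt_of_mem_linSpace {h : E → F} {a w : E} {t : ℝ}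
    (H : ConicalAt h (a + t • w)) (hw : w ∈ linSpace h (a + t • w)) :
    HasDerivAt (fun s : ℝ => h (a + s • w)) (tcone h (a + t • w) w) t := by
  obtain ⟨r, hr, hform⟩ := H.exists_tcone
  have hev : ∀ᶠ s : ℝ in 𝓝 t, h (a + s • w) =
      h (a + t • w) + (s - t) • tcone h (a + t • w) w := by
    have hc2 : Continuous (fun s : ℝ => ‖(s - t) • w‖) := by fun_prop
    have h1 : ∀ᶠ s : ℝ in 𝓝 t, ‖(s - t) • w‖ < r :=
      hc2.continuousAt.eventually_lt_const (by simpa using hr)
    filter_upwards [h1] with s hs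
    have h2 := hform _ hs.le
    rw [tcone_smul_of_mem hw] at h2
    rw [← h2]
    congr 1
    module
  have hlin : HasDerivAt (fun s : ℝ => h (a + t • w) +
      (s - t) • tcone h (a + t • w) w) (tcone h (a + t • w) w) t := by
    have h1 : HasDerivAt (fun s : ℝ => s - t) 1 t := (hasDerivAt_id t).sub_const t
    have h2 := (h1.smul_const (tcone h (a + t • w) w)).const_add (h (a + t • w))
    rw [one_smul] at h2
    exact h2
  exact hlin.congr_of_eventuallyEq hev

/-- Lipschitz bound along segments -/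
theorem exists_lipschitz_segment [FiniteDimensional ℝ E] {h : E → F} {Ω : Set E} (hΩ : IsOpen Ω)
    (H : ConicalOn h Ω) (hc : ContinuousOn h Ω) {a w : E}
    (hseg : ∀ t ∈ Icc (0:ℝ) 1, a + t • w ∈ Ω) :
    ∃ K : NNReal, LipschitzOnWith K (fun s : ℝ => h (a + s • w)) (Icc 0 1) := by
  apply LocallyLipschitzOn.exists_lipschitzOnWith_of_compact isCompact_Icc
  intro t ht
  obtain ⟨δ, hδ, hb, M, hM⟩ := exists_lipschitz_near hΩ H hc (hseg t ht)
  have hcw : Continuous (fun s : ℝ => a + s • w) := by fun_prop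
  have hl : LipschitzWith ‖w‖₊ (fun s : ℝ => a + s • w) := by
    refine LipschitzWith.of_dist_le_mul fun s s' => ?_
    rw [dist_eq_norm, add_sub_add_left_eq_sub, ← sub_smul, norm_smul, mul_comm, dist_eq_norm]
    simp
  refine ⟨M * ‖w‖₊, (fun s : ℝ => a + s • w) ⁻¹' ball (a + t • w) δ,
    mem_nhdsWithin_of_mem_nhds (hcw.continuousAt.preimage_mem_nhds (ball_mem_nhds _ hδ)), ?_⟩
  exact hM.comp (hl.lipschitzOnWith) fun s hs => hs

/-- countably many centres are enough for the strata, in a set with a property `P` -/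
theorem exists_countable_centres [FiniteDimensional ℝ E] {h : E → F} {Ω : Set E} (hΩ : IsOpen Ω)
    (H : ConicalOn h Ω) (P : E → Prop) :
    ∃ T : Set E, T.Countable ∧ (∀ x ∈ T, x ∈ Ω ∧ P x) ∧
      ∀ y ∈ Ω, P y → ∃ x ∈ T, y - x ∈ linSpace h x := by
  classical
  have key : ∀ k : ℕ, ∃ T : Set E, T.Countable ∧ (∀ x ∈ T, x ∈ Ω ∧ P x) ∧
      ∀ y ∈ Ω, P y → Module.finrank ℝ (linSpace h y) = k → ∃ x ∈ T, y - x ∈ linSpace h x := by
    intro k
    set B : Set E := {x | x ∈ Ω ∧ P x ∧ Module.finrank ℝ (linSpace h x) = k} with hB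
    have h1 : ∀ x ∈ B, ∃ r > 0, ∀ v : E, ‖v‖ < r → v ∉ linSpace h x →
        Module.finrank ℝ (linSpace h x) < Module.finrank ℝ (linSpace h (x + v)) := by
      intro x hx
      obtain ⟨r, hr, -, -, -, hlt, -⟩ := exists_stratum_nhd hΩ H hx.1
      exact ⟨r, hr, hlt⟩
    choose! r hr hrL using h1
    obtain ⟨T, hTB, hT, hcov⟩ := TopologicalSpace.countable_cover_nhdsWithin
      (f := fun x => ball x (r x)) (s := B)
      (fun x hx => mem_nhdsWithin_of_mem_nhds (ball_mem_nhds x (hr x hx)))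
    refine ⟨T, hT, fun x hx => ⟨(hTB hx).1, (hTB hx).2.1⟩, fun y hyΩ hyP hyk => ?_⟩
    obtain ⟨x, hxT, hyx⟩ := mem_iUnion₂.1 (hcov ⟨hyΩ, hyP, hyk⟩)
    have hxB := hTB hxT
    have hn : ‖y - x‖ < r x := by rwa [mem_ball, dist_eq_norm] at hyx
    refine ⟨x, hxT, ?_⟩
    by_contra hnot
    have h2 := hrL x hxB _ hn hnot
    rw [add_sub_cancel, hyk, hxB.2.2] at h2
    exact lt_irrefl _ h2
  choose T hT hTP hTc using key
  refine ⟨⋃ k, T k, countable_iUnion hT, fun x hx => ?_, fun y hy hyP => ?_⟩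
  · obtain ⟨k, hk⟩ := mem_iUnion.1 hx
    exact hTP k x hk
  · obtain ⟨x, hx, h⟩ := hTc _ y hy hyP rfl
    exact ⟨x, mem_iUnion.2 ⟨_, hx⟩, h⟩

end general

open Vale.Agent.P073.St (V Mat IsHomeo IsDiffeo IsBoundedDomain)
open Vale.Agent.P073.SQ (ev)

theorem specLin : SpecLin := by
  intro Ω Λ h a w hΩ hseg
  refine ⟨(finite_notMem_linSpace hΩ h.conical hseg).countable, fun t ht hw => ?_,
    exists_lipschitz_segment hΩ h.conical h.cont hseg⟩
  exact hasDerivAt_of_mem_linSpace (h.conical.conicalAt hΩ (hseg t ⟨ht.1.le, ht.2.le⟩)) hw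

/-- the linear map which kills the coordinate `k` -/
noncomputable def kill (k : Fin 3) : V →ₗ[ℝ] V where
  toFun v := Function.update v k 0
  map_add' v w := by
    funext i
    by_cases hi : i = k
    · subst hi; simp
    · simp [hi]
  map_smul' c v := by
    funext i
    by_cases hi : i = k
    · subst hi; simp
    · simp [hi]

theorem specLin2 : SpecLin2 := by
  intro Ω Λ h k c hΩ
  obtain ⟨T, hT, hTP, hTc⟩ := exists_countable_centres hΩ h.conical
    (fun y : V => y k = c ∧ ∃ j, j ≠ k ∧ ev j ∉ linSpace h.toFun y)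
  rw [ae_iff]
  have hsub : {x : V | ¬ (Function.update x k c ∈ Ω →
      ∀ j, j ≠ k → ev j ∈ linSpace h.toFun (Function.update x k c))} ⊆
      ⋃ y ∈ T, {x : V | x - y ∈ (linSpace h.toFun y).comap (kill k)} := by
    intro x hx
    simp only [mem_ofPred_eq, not_forall] at hx
    obtain ⟨hxΩ, j, hj, hx⟩ := hx
    obtain ⟨y, hyT, hmem⟩ := hTc _ hxΩ ⟨by simp, j, hj, hx⟩
    refine mem_iUnion₂.2 ⟨y, hyT, ?_⟩
    have h1 : Function.update x k c - y = kill k (x - y) := by
      funext i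
      by_cases hi : i = k
      · subst hi; simp [kill, (hTP y hyT).2.1]
      · simp [kill, hi]
    rw [h1] at hmem
    exact hmem
  refine measure_mono_null hsub ?_
  rw [measure_biUnion_null_iff hT]
  intro y hy
  refine TR.measure_translate_submodule volume _ ?_ y
  obtain ⟨-, -, j, hj, hj2⟩ := hTP y hy
  intro htop
  apply hj2
  have h1 : ev j ∈ (linSpace h.toFun y).comap (kill k) := htop ▸ Submodule.mem_top
  have h2 : kill k (ev j) = ev j := by
    funext i
    by_cases hi : i = k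
    · subst hi
      simp [kill, ev, hj.symm]
    · simp [kill, hi]
  rw [Submodule.mem_comap, h2] at h1
  exact h1

end P073.Gauge
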