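import Vale.Agent.P073.Gauge.Of407a
import Vale.Agent.P073.Spec.Top

/-!
# P073, block GAUGE, composition (helper407), part b: the net
-/

open Set Metric Topology MeasureTheory Filter
open scoped ENNReal

namespace P073.Gauge.O407

open Vale.Agent.P073.St (V Mat euc IsHomeo IsBoundedDomain)
open Vale.Agent.P073.SQ (ev)
open Vale.Agent.P073.AB
open P073.Net (dyc dyo Graph ACOn)
open P073.Gauge.C110
open P073.PLS (Rat3)

theorem exists_pos_le {α : Type*} {s : Set α} (hs : s.Finite) (w : α → ℝ)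
    (hw : ∀ a ∈ s, 0 < w a) : ∃ ε > 0, ∀ a ∈ s, ε ≤ w a := by
  rcases s.eq_empty_or_nonempty with rfl | hne
  · exact ⟨1, one_pos, fun a ha => absurd ha (notMem_empty a)⟩
  · obtain ⟨a, ha, h⟩ := hs.exists_minimalFor w s hne
    refine ⟨w a, hw a ha, fun b hb => ?_⟩
    by_contra hcon
    push Not at hcon
    exact absurd (h hb hcon.le) (not_le.2 hcon)

theorem continuous_euc : Continuous euc := by
  unfold euc
  fun_prop

theorem gam_rat (v : V) (e : Idx × Fin 3) : pt v e.1.1 e.1.2 ∈ Rat3 v ∧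
    pt v e.1.1 e.1.2 + (1 / 2 ^ e.1.1 : ℝ) • ev e.2 ∈ Rat3 v := by
  constructor
  · refine ⟨fun k => e.1.2 k / 2 ^ e.1.1, fun k => ?_⟩
    simp only [pt]
    push_cast
    rfl
  · refine ⟨fun k => e.1.2 k / 2 ^ e.1.1 + (1 / 2 ^ e.1.1) * (if k = e.2 then 1 else 0),
      fun k => ?_⟩
    simp only [pt, Pi.add_apply, Pi.smul_apply, ev_apply, smul_eq_mul]
    split_ifs
    · push_cast; ring
    · push_cast; ring

theorem good_edge {v : V} {Ω : Set V} {f : V → V} {F : V → Mat} (rat : RatGood v Ω f F)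
    {e : Idx × Fin 3} (he : edge v e ⊆ Ω) :
    Vale.Agent.P073.HB.GoodSeg f (fun x => cl (F x)) (pt v e.1.1 e.1.2)
      ((1 / 2 ^ e.1.1 : ℝ) • ev e.2) := by
  obtain ⟨⟨q, hq⟩, ⟨q', hq'⟩⟩ := gam_rat v e
  have := rat _ _ (fun k => ⟨q k, hq k⟩) (fun k => ⟨q' k, hq' k⟩) he
  rwa [add_sub_cancel_left] at this

theorem intervalIntegrable_D {v : V} {Ω : Set V} {f : V → V} {F : V → Mat}
    (rat : RatGood v Ω f F) {e : Idx × Fin 3} (he : edge v e ⊆ Ω) :
    IntervalIntegrable (fun t => cl (F (gam v e t)) ((1 / 2 ^ e.1.1 : ℝ) • ev e.2))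
      volume 0 1 :=
  (good_edge rat he).1

theorem aesm_D {v : V} {Ω : Set V} {f : V → V} {F : V → Mat}
    (rat : RatGood v Ω f F) {e : Idx × Fin 3} (he : edge v e ⊆ Ω) :
    AEMeasurable (fun t => cl (F (gam v e t)) (ev e.2)) (volume.restrict (Icc (0:ℝ) 1)) := by
  have h1 := intervalIntegrable_D rat he
  rw [intervalIntegrable_iff_integrableOn_Icc_of_le zero_le_one] at h1
  have h2 := h1.aestronglyMeasurable.aemeasurable.const_smul ((2:ℝ) ^ e.1.1)
  refine h2.congr (Filter.Eventually.of_forall fun t => ?_)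
  simp only [Pi.smul_apply]
  rw [map_smul, smul_smul, mul_one_div_cancel (by positivity), one_smul]

theorem integrable_euc {p : ℝ} (hp : 1 ≤ p) {v : V} {Ω : Set V} {f : V → V} {F : V → Mat}
    (rat : RatGood v Ω f F) {e : Idx × Fin 3} (he : edge v e ⊆ Ω)
    (fin : eInt v e (fun x => ENNReal.ofReal (‖cl (F x) (ev e.2)‖ ^ p)) ≠ ⊤) :
    IntervalIntegrable (fun t => euc (cl (F (gam v e t)) ((1 / 2 ^ e.1.1 : ℝ) • ev e.2)) ^ p)
      volume 0 1 := by
  have hp0 : 0 ≤ p := by linarith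
  rw [intervalIntegrable_iff_integrableOn_Icc_of_le zero_le_one]
  have h1 := intervalIntegrable_D rat he
  rw [intervalIntegrable_iff_integrableOn_Icc_of_le zero_le_one] at h1
  have h2 : AEMeasurable (fun t => euc (cl (F (gam v e t)) ((1 / 2 ^ e.1.1 : ℝ) • ev e.2)) ^ p)
      (volume.restrict (Icc (0:ℝ) 1)) :=
    (continuous_euc.measurable.comp_aemeasurable h1.aestronglyMeasurable.aemeasurable).pow_const p
  refine ⟨h2.aestronglyMeasurable, ?_⟩
  have hj : jInt v e (fun x => ENNReal.ofReal (‖cl (F x) (ev e.2)‖ ^ p)) ≠ ⊤ := by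
    intro hcon
    apply fin
    rw [eInt_eq, hcon]
    exact ENNReal.mul_top (ENNReal.ofReal_pos.2 (by positivity)).ne'
  have h3 : ∀ t, ‖euc (cl (F (gam v e t)) ((1 / 2 ^ e.1.1 : ℝ) • ev e.2)) ^ p‖ₑ ≤
      ENNReal.ofReal ((2 * (1 / 2 ^ e.1.1)) ^ p) *
        ENNReal.ofReal (‖cl (F (gam v e t)) (ev e.2)‖ ^ p) := by
    intro t
    rw [Real.enorm_eq_ofReal (Real.rpow_nonneg (P073.Net.euc_nonneg _) _),
      ← ENNReal.ofReal_mul (by positivity), ← Real.mul_rpow (by positivity) (norm_nonneg _)]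
    apply ENNReal.ofReal_le_ofReal
    apply Real.rpow_le_rpow (P073.Net.euc_nonneg _) _ hp0
    refine (P073.Net.euc_le _).trans (le_of_eq ?_)
    rw [map_smul, norm_smul, Real.norm_of_nonneg (by positivity)]
    ring
  refine lt_of_le_of_lt (lintegral_mono h3) ?_
  rw [lintegral_const_mul' _ _ ENNReal.ofReal_ne_top]
  exact ENNReal.mul_lt_top ENNReal.ofReal_lt_top (lt_top_iff_ne_top.2 hj)

/-- **The net lemma.** -/
theorem net_of (hN : P073.Top.NetOut) (hG : SpecGraph) {p : ℝ} {Ω Λ : Set V} {f : V → V}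
    {F : V → Mat} {v : V} {I : Set Idx} (hp : 1 ≤ p) (hp2 : p < 2) (hΩ : IsBoundedDomain Ω)
    (hΛ : IsBoundedDomain Λ) (hf : IsHomeo Ω Λ f) (hI : Part Ω v I) (rat : RatGood v Ω f F)
    (fin : ∀ e : Idx × Fin 3, (∃ q ∈ I, EdgeOf e q) →
      eInt v e (fun x => ENNReal.ofReal (‖cl (F x) (ev e.2)‖ ^ p)) ≠ ⊤)
    (δ : Idx × Fin 3 → ℝ) (hδ : ∀ e, 0 < δ e) :
    ∃ h : ConHomeo Ω Λ, ∀ e : Idx × Fin 3, (∃ q ∈ I, EdgeOf e q) →
      (∀ x ∈ edge v e, ‖h.toFun x - f x‖ ≤ δ e) ∧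
      eInt v e (fun x => ENNReal.ofReal
        (‖lineDeriv ℝ h.toFun x (ev e.2) - cl (F x) (ev e.2)‖ ^ p)) ≤ ENNReal.ofReal (δ e) := by
  classical
  have hp0 : 0 ≤ p := by linarith
  obtain ⟨G, φ, φinj, -, hab, hφ, hS⟩ := hG Ω v I hΩ.1 hI
  have hsubΩ : ∀ e : Idx × Fin 3, (∃ q ∈ I, EdgeOf e q) → edge v e ⊆ Ω := by
    rintro e ⟨q, hq, he⟩
    exact (Gr.edge_subset_dyc he).trans (hI.sub q hq)
  have hS' : ∀ e, ∃ S : Finset G.ι, (∃ q ∈ I, EdgeOf e q) →
      edge v e = ⋃ i ∈ S, edge v (φ i) := by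
    intro e
    by_cases he : ∃ q ∈ I, EdgeOf e q
    · obtain ⟨S, hS⟩ := hS e he
      exact ⟨S, fun _ => hS⟩
    · exact ⟨∅, fun h => absurd h he⟩
  choose S hS using hS'
  obtain ⟨c, hc0, hc⟩ : ∃ c : Idx × Fin 3 → ℝ, (∀ e, 0 < c e) ∧
      ∀ e, (((S e).card : ℕ) : ℝ) ≤ c e :=
    ⟨fun e => ((S e).card : ℝ) + 1, fun e => Nat.cast_add_one_pos _, fun e => by linarith⟩
  have hGe : ∀ i t, G.e i t = gam v (φ i) t := by
    intro i t
    simp only [Graph.e, gam, (hab i).1, (hab i).2, add_sub_cancel_left]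
  -- tolerances
  have hε : ∀ i, ∃ ε > 0, ∀ e : Idx × Fin 3, (∃ q ∈ I, EdgeOf e q) →
      (edge v e ∩ edge v (φ i)).Nonempty →
      ε ≤ min (δ e) ((1 / 2 ^ (φ i).1.1) ^ p * (δ e / c e)) := by
    intro i
    have h1 := Gr.finite_edges hI (hsubΩ _ (hφ i)) (Gr.isCompact_edge v (φ i))
    obtain ⟨ε, h2, h3⟩ := exists_pos_le h1
      (fun e => min (δ e) ((1 / 2 ^ (φ i).1.1) ^ p * (δ e / c e))) (fun e _ =>
        lt_min (hδ e) (mul_pos (Real.rpow_pos_of_pos (by positivity) _)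
          (div_pos (hδ e) (hc0 e))))
    exact ⟨ε, h2, fun e he hne => h3 e ⟨he, hne⟩⟩
  choose ε hε0 hε1 using hε
  set D : G.ι → ℝ → V := fun i t => cl (F (gam v (φ i) t)) ((1 / 2 ^ (φ i).1.1 : ℝ) • ev (φ i).2)
    with hD
  obtain ⟨h, hh⟩ := hN p Ω Λ f v G D hp hp2.le hΩ.1 hΩ.2.1 hΛ.1 hf
    (by
      intro a ha b hb hab
      obtain ⟨q, hq⟩ := ha
      obtain ⟨q', hq'⟩ := hb
      have := rat a b (fun k => ⟨q k, hq k⟩) (fun k => ⟨q' k, hq' k⟩) hab
      exact ⟨_, this.1, this.2⟩)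
    (by
      intro i
      rw [(hab i).1, (hab i).2]
      exact gam_rat v (φ i))
    (by
      refine ⟨fun i => intervalIntegrable_D rat (hsubΩ _ (hφ i)), fun i t ht => ?_⟩
      have := (good_edge rat (hsubΩ _ (hφ i))).2 t ht
      simp only [hGe]
      have h0 : gam v (φ i) 0 = pt v (φ i).1.1 (φ i).1.2 := by simp [gam]
      rw [h0]
      exact this)
    (fun i => integrable_euc hp rat (hsubΩ _ (hφ i)) (fin _ (hφ i)))
    ε hε0
  refine ⟨h, fun e he => ?_⟩
  have hSe := hS e he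
  have hsub : ∀ i ∈ S e, edge v (φ i) ⊆ edge v e := by
    intro i hi
    rw [hSe]
    exact subset_biUnion_of_mem (u := fun i => edge v (φ i)) hi
  have hεe : ∀ i ∈ S e, ε i ≤ min (δ e) ((1 / 2 ^ (φ i).1.1) ^ p * (δ e / c e)) := by
    intro i hi
    apply hε1 i e he
    obtain ⟨y, hy⟩ := Gr.edge_nonempty v (φ i)
    exact ⟨y, hsub i hi hy, hy⟩
  constructor
  · intro x hx
    rw [hSe] at hx
    obtain ⟨i, hi, hx⟩ := mem_iUnion₂.1 hx
    obtain ⟨t, ht, rfl⟩ := mem_edge_iff.1 hx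
    have h1 := (hh i).1 t ht
    rw [hGe] at h1
    exact h1.trans ((hεe i hi).trans (min_le_left _ _))
  · refine (eInt_le_sum hSe _).trans ?_
    have key : ∀ i ∈ S e, eInt v (φ i) (fun x => ENNReal.ofReal
        (‖lineDeriv ℝ h.toFun x (ev e.2) - cl (F x) (ev e.2)‖ ^ p)) ≤
        ENNReal.ofReal (δ e / c e) := by
      intro i hi
      have hk : (φ i).2 = e.2 := (sub_edge (hsub i hi)).1
      have h1 := (hh i).2.2
      have hpos : (0:ℝ) < (1 / 2 ^ (φ i).1.1) ^ p := by positivity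
      have h2 : ENNReal.ofReal ((1 / 2 ^ (φ i).1.1) ^ p) *
          jInt v (φ i) (fun x => ENNReal.ofReal
            (‖lineDeriv ℝ h.toFun x (ev e.2) - cl (F x) (ev e.2)‖ ^ p)) ≤
          ENNReal.ofReal ((1 / 2 ^ (φ i).1.1) ^ p) *
            ENNReal.ofReal (δ e / c e) := by
        rw [← ENNReal.ofReal_mul hpos.le]
        refine le_trans ?_ (h1.trans (ENNReal.ofReal_le_ofReal
          ((hεe i hi).trans (min_le_right _ _))))
        unfold jInt
        rw [← lintegral_const_mul' _ _ ENNReal.ofReal_ne_top]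
        refine lintegral_mono fun t => ?_
        rw [← ENNReal.ofReal_mul hpos.le, ← Real.mul_rpow (by positivity) (norm_nonneg _)]
        apply ENNReal.ofReal_le_ofReal
        apply Real.rpow_le_rpow (by positivity) _ hp0
        refine le_trans (le_of_eq ?_) (P073.Net.norm_le_euc _)
        have h3 : (fun s => h.toFun (G.e i s)) = fun s => h.toFun (gam v (φ i) s) := by
          funext s; rw [hGe]
        rw [h3, deriv_gam, hD]
        simp only [map_smul]
        rw [← smul_sub, norm_smul, Real.norm_of_nonneg (by positivity), hk]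
      have h3 := le_of_mul_ofReal hpos h2
      rw [eInt_eq]
      refine le_trans ?_ h3
      have h4 : ENNReal.ofReal (1 / 2 ^ (φ i).1.1) ≤ 1 := by
        rw [← ENNReal.ofReal_one]
        apply ENNReal.ofReal_le_ofReal
        rw [div_le_one (by positivity)]
        exact one_le_pow₀ (by norm_num)
      calc _ ≤ 1 * jInt v (φ i) _ := by gcongr
        _ = _ := one_mul _
    refine (Finset.sum_le_sum key).trans ?_
    rw [Finset.sum_const, nsmul_eq_mul, ← ENNReal.ofReal_natCast,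
      ← ENNReal.ofReal_mul (Nat.cast_nonneg _)]
    apply ENNReal.ofReal_le_ofReal
    rw [mul_div_assoc', div_le_iff₀ (hc0 e), mul_comm]
    exact mul_le_mul_of_nonneg_left (hc e) (hδ e).le

end P073.Gauge.O407
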