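import Vale.Agent.P073.Gauge.Of407c
import Vale.Agent.P073.SMV.Glue
import Vale.Agent.P073.SMF.Meas
import Vale.Agent.P073.SMF.Ae

/-!
# P073, block GAUGE, composition (helper407), part d: auxiliary facts for the smoothing
-/

open Set Metric Topology MeasureTheory Filter
open scoped ENNReal

namespace P073.Gauge.O407

open Vale.Agent.P073.St (V Mat euc IsHomeo IsBoundedDomain)
open Vale.Agent.P073.SQ (ev)
open Vale.Agent.P073.AB
open P073.Net (dyc dyo Graph ACOn)
open P073.Gauge.C110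

/-- the tolerance function for the smoothing -/
theorem exists_radius {Ω : Set V} {v : V} {I : Set Idx} (hΩ : IsOpen Ω) (hI : Part Ω v I)
    {r₀ : ℝ} (hr₀ : 0 < r₀) {δ : Idx × Fin 3 → ℝ} (hδ : ∀ e, 0 < δ e) :
    ∃ m : V → ℝ, ContinuousOn m Ω ∧ (∀ x ∈ Ω, 0 < m x) ∧ (∀ x ∈ Ω, m x ≤ r₀) ∧
      ∀ e : Idx × Fin 3, (∃ q ∈ I, EdgeOf e q) → ∀ x ∈ edge v e, m x ≤ δ e := by
  obtain ⟨m, h1, h2⟩ := Vale.Agent.P073.SMV.exists_cont_radius (Ω := Ω)
    (P := fun x m => m ≤ r₀ ∧ ∀ e : Idx × Fin 3, (∃ q ∈ I, EdgeOf e q) → x ∈ edge v e → m ≤ δ e)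
    (fun x m m' _ h ⟨a, b⟩ => ⟨h.trans a, fun e he hx => h.trans (b e he hx)⟩) (by
      intro x hx
      obtain ⟨ρ, hρ, hb⟩ := Metric.nhds_basis_closedBall.mem_iff.1 (hΩ.mem_nhds hx)
      have hF := Gr.finite_edges hI hb (isCompact_closedBall x ρ)
      obtain ⟨ε, hε, hε'⟩ := exists_pos_le hF δ (fun e _ => hδ e)
      refine ⟨min r₀ ε, lt_min hr₀ hε, ?_⟩
      filter_upwards [mem_nhdsWithin_of_mem_nhds (closedBall_mem_nhds x hρ)] with y hy
      refine ⟨min_le_left _ _, fun e he hye => (min_le_right _ _).trans ?_⟩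
      exact hε' e ⟨he, ⟨y, hye, hy⟩⟩)
  refine ⟨m, h1, fun x hx => (h2 x hx).1, fun x hx => (h2 x hx).2.1, fun e he x hx => ?_⟩
  have hxΩ : x ∈ Ω := by
    obtain ⟨q, hq, he⟩ := he
    exact hI.sub q hq (Gr.edge_subset_dyc he hx)
  exact (h2 x hxΩ).2.2 e he hx

theorem finite_pts (v : V) (m j : ℕ) (z : Fin 3 → ℤ) :
    {e : Idx × Fin 3 | e.1.1 = m + j ∧ pt v e.1.1 e.1.2 ∈ dyc v m z}.Finite := by
  have hfin : (({m + j} : Set ℕ) ×ˢ (Set.pi univ fun k =>
      Icc (z k * 2 ^ j : ℤ) ((z k + 1) * 2 ^ j))).Finite := by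
    exact Set.Finite.prod (finite_singleton _) (Set.Finite.pi fun j => Set.finite_Icc _ _)
  refine (hfin.prod (finite_univ (α := Fin 3))).subset ?_
  rintro ⟨⟨n, w⟩, k⟩ ⟨h1, h2⟩
  simp only at h1 h2
  subst h1
  refine ⟨⟨rfl, fun i _ => ?_⟩, mem_univ _⟩
  have h := h2 i
  simp only [pt] at h
  constructor
  · refine (dy_le_iff (z i) (w i) m j).1 ?_
    linarith [h.1]
  · refine (dy_ge_iff (z i + 1) (w i) m j).1 ?_
    push_cast
    linarith [h.2]

theorem convex_shrink (v : V) (n : ℕ) (z : Fin 3 → ℤ) (δ : ℝ) :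
    Convex ℝ (shrink v n z δ) := by
  have h : shrink v n z δ = Set.pi univ
      (fun k => Icc (v k + z k / 2 ^ n + δ) (v k + (z k + 1) / 2 ^ n - δ)) := by
    ext x; simp only [shrink, Set.mem_ofPred_eq, Set.mem_pi, mem_univ, forall_true_left, mem_Icc]
  rw [h]
  exact convex_pi fun k _ => convex_Icc _ _

theorem convex_dyc (v : V) (n : ℕ) (z : Fin 3 → ℤ) : Convex ℝ (dyc v n z) := by
  have h : dyc v n z = Set.pi univ (fun k => Icc (v k + z k / 2 ^ n) (v k + (z k + 1) / 2 ^ n)) := by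
    ext x; simp only [dyc, Set.mem_ofPred_eq, Set.mem_pi, mem_univ, forall_true_left, mem_Icc]
  rw [h]
  exact convex_pi fun k _ => convex_Icc _ _

theorem lintegral_le_interior {s : Set V} (hs : Convex ℝ s) (H : V → ℝ≥0∞) :
    ∫⁻ x in s, H x ≤ ∫⁻ x in interior s, H x := by
  have h0 : (volume : Measure V) (frontier s) = 0 := hs.addHaar_frontier volume
  have h1 : s ⊆ interior s ∪ frontier s := by
    intro x hx
    by_cases h : x ∈ interior s
    · exact Or.inl h
    · exact Or.inr ⟨subset_closure hx, h⟩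
  calc ∫⁻ x in s, H x ≤ ∫⁻ x in interior s ∪ frontier s, H x := lintegral_mono_set h1
    _ ≤ (∫⁻ x in interior s, H x) + ∫⁻ x in frontier s, H x := lintegral_union_le _ _ _
    _ = ∫⁻ x in interior s, H x := by
      rw [Measure.restrict_eq_zero.2 h0, lintegral_zero_measure, add_zero]

/-- derivative on the protected box -/
theorem fderiv_box {h A : V → V} {L : V →L[ℝ] V} {s : Set V} (aff : ∀ x y, A y - A x = L (y - x))
    (hs : ∀ x ∈ s, h x = A x) {x : V} (hx : x ∈ interior s) : fderiv ℝ h x = L := by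
  have h1 : HasFDerivAt A L x := by
    have h2 : A = fun y => L y + (A x - L x) := by
      funext y
      have := aff x y
      rw [map_sub] at this
      rw [← sub_eq_zero]
      calc A y - (L y + (A x - L x)) = (A y - A x) - (L y - L x) := by abel
        _ = 0 := by rw [this, sub_self]
    rw [h2]
    exact L.hasFDerivAt.add_const _
  have h3 : h =ᶠ[𝓝 x] A := by
    filter_upwards [isOpen_interior.mem_nhds hx] with y hy
    exact hs y (interior_subset hy)
  exact (h1.congr_of_eventuallyEq h3).fderiv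

/-- tangential derivatives on the squares of the surface of the protected box -/
theorem lineDeriv_squ {h A : V → V} {L : V →L[ℝ] V} {S : Set V} {v : V} {s : Idx × Fin 3}
    (aff : ∀ x y, A y - A x = L (y - x)) (hS : ∀ x ∈ S, h x = A x) (hs : squ v s ⊆ S)
    {x : V} (hx : x ∈ dyo v s.1.1 s.1.2) {j : Fin 3} (hj : j ≠ s.2) :
    lineDeriv ℝ h (Function.update x s.2 (pt v s.1.1 s.1.2 s.2)) (ev j) = L (ev j) := by
  set u : V := Function.update x s.2 (pt v s.1.1 s.1.2 s.2) with hu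
  have h1 : ∀ᶠ t : ℝ in 𝓝 0, u + t • ev j ∈ squ v s := by
    have h2 : Tendsto (fun t : ℝ => x + t • ev j) (𝓝 0) (𝓝 (x + (0:ℝ) • ev j)) := by
      apply Continuous.tendsto
      fun_prop
    rw [zero_smul, add_zero] at h2
    have h3 : dyo v s.1.1 s.1.2 ∈ 𝓝 x := by
      rw [← interior_dyc] at hx ⊢
      exact isOpen_interior.mem_nhds hx
    filter_upwards [h2 h3] with t ht
    refine ⟨?_, fun k hk => ?_⟩
    · rw [Pi.add_apply, Pi.smul_apply, ev_apply, if_neg (Ne.symm hj), smul_zero, add_zero, hu,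
        Function.update_self]
      rfl
    · have h4 := ht k
      have h5 : (u + t • ev j) k = (x + t • ev j) k := by
        rw [Pi.add_apply, Pi.add_apply, hu, Function.update_of_ne hk]
      rw [h5]
      exact ⟨h4.1.le, h4.2.le⟩
  have h6 : HasDerivAt (fun t : ℝ => h (u + t • ev j)) (L (ev j)) 0 := by
    have h7 : HasDerivAt (fun t : ℝ => A u + t • L (ev j)) (L (ev j)) 0 := by
      have := ((hasDerivAt_id (0:ℝ)).smul_const (L (ev j))).const_add (A u)
      simpa using this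
    apply h7.congr_of_eventuallyEq
    filter_upwards [h1] with t ht
    rw [hS _ (hs ht)]
    have h8 := aff u (u + t • ev j)
    rw [add_sub_cancel_left, map_smul] at h8
    rw [← h8]
    abel
  unfold lineDeriv
  exact h6.deriv

/-- the same derivative along an edge if the maps coincide on the edge -/
theorem lineDeriv_congr {h h' : V → V} {v : V} {e : Idx × Fin 3}
    (H : ∀ x ∈ edge v e, h' x = h x) {t : ℝ} (ht : t ∈ Ioo (0:ℝ) 1) :
    lineDeriv ℝ h' (gam v e t) (ev e.2) = lineDeriv ℝ h (gam v e t) (ev e.2) := by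
  have h1 : (fun s => h' (gam v e s)) =ᶠ[𝓝 t] fun s => h (gam v e s) := by
    filter_upwards [isOpen_Ioo.mem_nhds ht] with s hs
    exact H _ (mem_edge_iff.2 ⟨s, Ioo_subset_Icc_self hs, rfl⟩)
  have h2 := h1.deriv_eq
  rw [deriv_gam, deriv_gam] at h2
  have h3 : (1 / 2 ^ e.1.1 : ℝ) ≠ 0 := by positivity
  exact smul_right_injective _ h3 h2

theorem jInt_congr {v : V} {e : Idx × Fin 3} {H H' : V → ℝ≥0∞}
    (h : ∀ t ∈ Ioo (0:ℝ) 1, H (gam v e t) = H' (gam v e t)) : jInt v e H = jInt v e H' := by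
  unfold jInt
  rw [← restrict_Ioo_eq_restrict_Icc]
  exact setLIntegral_congr_fun measurableSet_Ioo h

/-- `fderiv` against `lineDeriv` along an edge -/
theorem seg_eq {p : ℝ} (G h : V → V) (v : V) (e : Idx × Fin 3) :
    ∫⁻ t in Icc (0:ℝ) 1, ENNReal.ofReal (‖fderiv ℝ G (pt v e.1.1 e.1.2 +
        t • ((1 / 2 ^ e.1.1 : ℝ) • ev e.2)) ((1 / 2 ^ e.1.1 : ℝ) • ev e.2) -
        deriv (fun s => h (pt v e.1.1 e.1.2 + s • ((1 / 2 ^ e.1.1 : ℝ) • ev e.2))) t‖ ^ p) =
      ENNReal.ofReal ((1 / 2 ^ e.1.1) ^ p) *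
        jInt v e (fun x => ENNReal.ofReal (‖fderiv ℝ G x (ev e.2) -
          lineDeriv ℝ h x (ev e.2)‖ ^ p)) := by
  unfold jInt
  rw [← lintegral_const_mul' _ _ ENNReal.ofReal_ne_top]
  refine lintegral_congr fun t => ?_
  have h1 := deriv_gam h v e t
  simp only [gam] at h1 ⊢
  rw [h1, map_smul, ← smul_sub, norm_smul, Real.norm_of_nonneg (by positivity),
    Real.mul_rpow (by positivity) (norm_nonneg _), ENNReal.ofReal_mul (by positivity)]

theorem len_le_one (e : Idx × Fin 3) : ENNReal.ofReal (1 / 2 ^ e.1.1) ≤ 1 := by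
  rw [← ENNReal.ofReal_one]
  apply ENNReal.ofReal_le_ofReal
  rw [div_le_one (by positivity)]
  exact one_le_pow₀ (by norm_num)

theorem eInt_le_jInt (v : V) (e : Idx × Fin 3) (H : V → ℝ≥0∞) : eInt v e H ≤ jInt v e H := by
  rw [eInt_eq]
  calc _ ≤ 1 * jInt v e H := by gcongr; exact len_le_one e
    _ = _ := one_mul _

end P073.Gauge.O407
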