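import Vale.Agent.P073.Gauge.CxR673a

/-!
# P073, block CXR: every edge is a finite union of minimal edges
-/

open Set Metric Topology Filter

namespace P073.Gauge.CxR

open Vale.Agent.P073.St (V)
open Vale.Agent.P073.SQ (ev)
open Vale.Agent.P073.AB
open Vale.Agent.P073.AB.Gr (mem_edge mid mid_spec edge_subset_dyc exists_ancestor' edgeOf_of_mem
  exists_sub_edge inner_of_sub edge_nonempty isCompact_edge)
open P073.Net (dyc dyo)
open P073.Net.NC (dyA dyB dyc_sub fine_sub fine_sub')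

variable {v : V} {Ω : Set V} {I : Set Idx} {Q : Set (Idx × Fin 3)}

theorem mid_inner {e e' : Idx × Fin 3} (h : edge v e' ⊆ edge v e) : Inner v e (mid v e') :=
  (inner_of_sub h).2

/-- the direction of an edge inside an edge -/
theorem dir_of_sub {e e' : Idx × Fin 3} (h : edge v e' ⊆ edge v e) : e'.2 = e.2 := by
  by_contra hne
  obtain ⟨h1, h2, h3⟩ := mid_spec v e'
  have a1 := (mem_edge.1 (h h1)).1 e'.2 hne
  have a2 : pt v e'.1.1 e'.1.2 ∈ edge v e := h (left_mem_segment ℝ _ _)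
  have a3 := (mem_edge.1 a2).1 e'.2 hne
  have a4 : pt v e'.1.1 e'.1.2 e'.2 = v e'.2 + e'.1.2 e'.2 / 2 ^ e'.1.1 := rfl
  rw [a4, ← a1] at a3
  linarith

/-- the points of a dyadic edge which contains an edge of a finer cube of the partition are in
edges of finer cubes -/
theorem finer_cube (hΩ : IsOpen Ω) (hI : Part Ω v I) {e e' : Idx × Fin 3} {q' : Idx}
    (hq' : q' ∈ I) (heq' : EdgeOf e' q') (hlt : e.1.1 < e'.1.1) (hsub : edge v e' ⊆ edge v e)
    {x : V} (hx : x ∈ edge v e) (hxΩ : x ∈ Ω) :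
    ∃ e'', (∃ q ∈ I, EdgeOf e'' q) ∧ e.1.1 < e''.1.1 ∧ x ∈ edge v e'' ∧
      edge v e'' ⊆ edge v e := by
  obtain ⟨⟨m, z⟩, k⟩ := e
  have hlt' : m < q'.1 := by rw [← heq'.1]; exact hlt
  obtain ⟨Z, hZ⟩ := exists_ancestor' v hlt'.le q'.2
  obtain ⟨i1, i2, i3⟩ := inner_of_sub hsub
  have hmidq : mid v e' ∈ dyc v q'.1 q'.2 := edge_subset_dyc heq' (mid_spec v e').1
  have hEZ : EdgeOf ((m, z), k) (m, Z) := edgeOf_of_mem i1 i2 i3 (hZ hmidq)
  have hxZ : x ∈ dyc v m Z := edge_subset_dyc hEZ hx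
  obtain ⟨N, hN, hNΩ, hN'⟩ := P86.near hΩ hI hxΩ
  have hlim : Tendsto (fun t : ℝ => x + t • (P86.cen v m Z - x)) (𝓝[>] 0) (𝓝 x) := by
    have h1 : Continuous (fun t : ℝ => x + t • (P86.cen v m Z - x)) := by fun_prop
    have h2 := h1.tendsto 0
    simp only [zero_smul, add_zero] at h2
    exact h2.mono_left nhdsWithin_le_nhds
  obtain ⟨t, ht, ht'⟩ := ((hlim.eventually hN).and
    (Ioc_mem_nhdsGT (zero_lt_one (α := ℝ)))).exists
  have hyo := P86.seg_mem hxZ ht'.1 ht'.2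
  obtain ⟨p, hp, hyp⟩ := hI.cover _ (hNΩ ht)
  have hxp := hN' p hp ⟨_, hyp, ht⟩
  have hmp : m < p.1 := by
    by_contra hcon
    push Not at hcon
    have s1 : dyc v m Z ⊆ dyc v p.1 p.2 := dyc_sub (fine_sub' hcon hyo hyp)
    have s2 : q' = p := P86.eq_of_sub hI hq' hp (hZ.trans s1)
    rw [s2] at hlt'
    omega
  have hpZ : dyc v p.1 p.2 ⊆ dyc v m Z := dyc_sub (fine_sub hmp.le hyo hyp)
  obtain ⟨w, hw1, hw2, hw3⟩ := exists_sub_edge hEZ hpZ hx hxp
  exact ⟨((p.1, w), k), ⟨p, hp, hw1⟩, hmp, hw2, hw3⟩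

theorem isCompact_squ (v : V) (s : Idx × Fin 3) : IsCompact (squ v s) := by
  have : squ v s = Set.pi univ (fun k => if k = s.2 then {v s.2 + (s.1.2 s.2 : ℝ) / 2 ^ s.1.1} else
      Icc (v k + s.1.2 k / 2 ^ s.1.1) (v k + (s.1.2 k + 1) / 2 ^ s.1.1)) := by
    ext x
    constructor
    · rintro ⟨h1, h2⟩ k -
      show x k ∈ (if k = s.2 then {v s.2 + (s.1.2 s.2 : ℝ) / 2 ^ s.1.1} else
        Icc (v k + s.1.2 k / 2 ^ s.1.1) (v k + (s.1.2 k + 1) / 2 ^ s.1.1))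
      by_cases hk : k = s.2
      · rw [if_pos hk, hk]; exact h1
      · rw [if_neg hk]; exact h2 k hk
    · intro h
      have h' : ∀ k, x k ∈ (if k = s.2 then {v s.2 + (s.1.2 s.2 : ℝ) / 2 ^ s.1.1} else
        Icc (v k + s.1.2 k / 2 ^ s.1.1) (v k + (s.1.2 k + 1) / 2 ^ s.1.1)) :=
        fun k => h k (mem_univ k)
      refine ⟨?_, fun k hk => ?_⟩
      · have := h' s.2
        rw [if_pos rfl] at this
        exact this
      · have := h' k
        rw [if_neg hk] at this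
        exact this
  rw [this]
  refine isCompact_univ_pi fun k => ?_
  by_cases hk : k = s.2
  · rw [if_pos hk]; exact isCompact_singleton
  · rw [if_neg hk]; exact isCompact_Icc

/-- points on the segment from a point of a square to the centre are in the relative interior -/
theorem seg_rel {s : Idx × Fin 3} {x : V} (hx : x ∈ squ v s) {t : ℝ} (ht : 0 < t)
    (ht1 : t ≤ 1) : x + t • (P86.sc v s - x) ∈ P86.rel v s := by
  have hp : (0:ℝ) < 1 / 2 ^ s.1.1 := by positivity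
  refine ⟨?_, fun k hk => ?_⟩
  · have h1 : P86.sc v s s.2 = v s.2 + s.1.2 s.2 / 2 ^ s.1.1 := by simp [P86.sc]
    simp only [Pi.add_apply, Pi.smul_apply, Pi.sub_apply, smul_eq_mul]
    rw [h1, hx.1]; ring
  · have h1 := hx.2 k hk
    have h2 : P86.sc v s k = v k + s.1.2 k / 2 ^ s.1.1 + 1 / 2 * (1 / 2 ^ s.1.1) := by
      simp only [P86.sc, if_neg hk]; rw [add_div]; ring
    have h3 : ((s.1.2 k : ℝ) + 1) / 2 ^ s.1.1 = s.1.2 k / 2 ^ s.1.1 + 1 / 2 ^ s.1.1 := add_div _ _ _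
    simp only [Pi.add_apply, Pi.smul_apply, Pi.sub_apply, smul_eq_mul]
    rw [h2, h3]
    rw [h3] at h1
    have h4 : 0 < t * (1 / 2 ^ s.1.1 : ℝ) := by positivity
    have h5 : 0 ≤ (1 - t) * (x k - (v k + s.1.2 k / 2 ^ s.1.1)) :=
      mul_nonneg (by linarith) (by linarith [h1.1])
    have h6 : 0 ≤ (1 - t) * (v k + (s.1.2 k / 2 ^ s.1.1 + 1 / 2 ^ s.1.1) - x k) :=
      mul_nonneg (by linarith) (by linarith [h1.2])
    constructor <;> nlinarith

/-- a coarse square meeting the relative interior of a fine one contains it -/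
theorem squ_sub_of_rel {s s' : Idx × Fin 3} (h : s'.1.1 ≤ s.1.1) (hk : s'.2 = s.2) {x : V}
    (hx : x ∈ P86.rel v s) (hx' : x ∈ squ v s') : squ v s ⊆ squ v s' := by
  rintro y ⟨hy1, hy2⟩
  refine ⟨?_, fun k hk' => ?_⟩
  · rw [hk, hy1, ← hx.1, ← hk]; exact hx'.1
  · have hk'' : k ≠ s.2 := by rw [← hk]; exact hk'
    have := nest h (hx'.2 k hk').1 (hx'.2 k hk').2 (hx.2 k hk'').1 (hx.2 k hk'').2
    constructor <;> linarith [this.1, this.2, (hy2 k hk'').1, (hy2 k hk'').2]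

/-- a fine square meeting the relative interior of a coarse one is contained in it -/
theorem squ_sub_of_rel' {s s' : Idx × Fin 3} (h : s.1.1 ≤ s'.1.1) (hk : s'.2 = s.2) {x : V}
    (hx : x ∈ P86.rel v s) (hx' : x ∈ squ v s') : squ v s' ⊆ squ v s := by
  rintro y ⟨hy1, hy2⟩
  refine ⟨?_, fun k hk' => ?_⟩
  · rw [← hk, hy1, ← hx'.1, hk]; exact hx.1
  · have hk'' : k ≠ s'.2 := by rw [hk]; exact hk'
    have := nest' h (hx'.2 k hk'').1 (hx'.2 k hk'').2 (hx.2 k hk').1 (hx.2 k hk').2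
    constructor <;> linarith [this.1, this.2, (hy2 k hk'').1, (hy2 k hk'').2]

/-- the ancestor square with a given edge -/
theorem exists_parent {e s : Idx × Fin 3} (h : e.1.1 ≤ s.1.1) (hk : e.2 ≠ s.2) {x : V}
    (hx : x ∈ edge v e) (hi : Inner v e x) (hxs : x ∈ squ v s) :
    ∃ Z : Idx × Fin 3, Z.1.1 = e.1.1 ∧ Z.2 = s.2 ∧ EdgeOfSq e Z ∧ squ v s ⊆ squ v Z := by
  obtain ⟨a1, a2, a3⟩ := mem_edge.1 hx
  obtain ⟨b1, b2⟩ := hxs
  obtain ⟨j, hje, hjs⟩ := exists_third e.2 s.2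
  have h3 : ∀ i, i ≠ j → i = e.2 ∨ i = s.2 := fun i hi => third e.2 s.2 j i hk hje hjs hi
  have hd : ∀ (a : ℝ) (m : ℕ), (a + 1) / 2 ^ m = a / 2 ^ m + 1 / 2 ^ m := fun a m => add_div _ _ _
  have hp : (0:ℝ) < 1 / 2 ^ s.1.1 := by positivity
  have hps : (1:ℝ) / 2 ^ s.1.1 ≤ 1 / 2 ^ e.1.1 := by
    rw [one_div_le_one_div (by positivity) (by positivity)]
    exact pow_le_pow_right₀ (by norm_num) h
  -- the third coordinate
  obtain ⟨c, hc, hc1, hc2⟩ : ∃ c : ℤ, (e.1.2 j = c ∨ e.1.2 j = c + 1) ∧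
      (c : ℝ) / 2 ^ e.1.1 ≤ s.1.2 j / 2 ^ s.1.1 ∧
      ((s.1.2 j : ℝ) + 1) / 2 ^ s.1.1 ≤ (c + 1) / 2 ^ e.1.1 := by
    have d1 := b2 j hjs
    rw [a1 j hje] at d1
    rcases lt_or_ge ((e.1.2 j : ℝ) / 2 ^ e.1.1) (((s.1.2 j : ℝ) + 1) / 2 ^ s.1.1) with hlt | hge
    · have h4 := dyB h hlt
      have h5 : (s.1.2 j : ℝ) / 2 ^ s.1.1 = e.1.2 j / 2 ^ e.1.1 := le_antisymm (by linarith [d1.1]) h4
      refine ⟨e.1.2 j, Or.inl rfl, h4, ?_⟩
      rw [hd, hd, h5]; linarith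
    · have h5 : ((s.1.2 j : ℝ) + 1) / 2 ^ s.1.1 = e.1.2 j / 2 ^ e.1.1 :=
        le_antisymm hge (by linarith [d1.2])
      refine ⟨e.1.2 j - 1, Or.inr (by omega), ?_, ?_⟩
      · push_cast
        rw [sub_div, ← h5, hd]; linarith
      · push_cast
        rw [sub_add_cancel, h5]
  have hn := nest' h (b2 e.2 hk).1 (b2 e.2 hk).2 hi.1 hi.2
  set u : Fin 3 → ℤ := Function.update e.1.2 j c with hu
  have hue : u e.2 = e.1.2 e.2 := by rw [hu, Function.update_of_ne (Ne.symm hje)]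
  have hus : u s.2 = e.1.2 s.2 := by rw [hu, Function.update_of_ne (Ne.symm hjs)]
  have huj : u j = c := by rw [hu, Function.update_self]
  refine ⟨((e.1.1, u), s.2), rfl, rfl, ⟨rfl, hk, hue.symm, hus.symm, fun i hi1 hi2 => ?_⟩, ?_⟩
  · have hij : i = j := by
      by_contra hne
      rcases h3 i hne with h4 | h4
      · exact hi1 h4
      · exact hi2 h4
    show e.1.2 i = u i ∨ e.1.2 i = u i + 1
    rw [hij, huj]; exact hc
  · rintro y ⟨hy1, hy2⟩
    refine ⟨?_, fun i hi' => ?_⟩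
    · show y s.2 = v s.2 + (u s.2 : ℝ) / 2 ^ e.1.1
      rw [hus, hy1, ← b1]; exact a1 s.2 (Ne.symm hk)
    · have hi'' : i ≠ s.2 := hi'
      show v i + (u i : ℝ) / 2 ^ e.1.1 ≤ y i ∧ y i ≤ v i + ((u i : ℝ) + 1) / 2 ^ e.1.1
      have h6 := hy2 i hi''
      by_cases hij : i = j
      · rw [hij, huj]
        rw [hij] at h6
        constructor <;> linarith [h6.1, h6.2]
      · rcases h3 i hij with h4 | h4
        · rw [h4, hue]
          rw [h4] at h6
          constructor <;> linarith [h6.1, h6.2, hn.1, hn.2]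
        · exact absurd h4 hi''

/-- the points of a dyadic edge which contains an edge of a finer square of `Q`, in a minimal square
which is not finer, are in edges of finer squares of `Q` -/
theorem finer_squ (hQ : Sub v I Q) {e e' s t : Idx × Fin 3} (ht : MinSq v I t) (hs : s ∈ Q)
    (hst : s.2 = t.2) (hsub : squ v s ⊆ squ v t) (hes : EdgeOfSq e' s) (hlt : e.1.1 < e'.1.1)
    (hee : edge v e' ⊆ edge v e) (htm : t.1.1 ≤ e.1.1) {x : V} (hx : x ∈ edge v e) :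
    ∃ e'', (∃ s ∈ Q, EdgeOfSq e'' s) ∧ e.1.1 < e''.1.1 ∧ x ∈ edge v e'' ∧
      edge v e'' ⊆ edge v e := by
  have hdir := dir_of_sub hee
  have hi := mid_inner hee
  have hme : mid v e' ∈ edge v e := hee (mid_spec v e').1
  have hms : mid v e' ∈ squ v s := edgeOfSq_subset hes (mid_spec v e').1
  have hg : e'.1.1 = s.1.1 := hes.1
  have hks : e.2 ≠ s.2 := by rw [← hdir]; exact hes.2.1
  obtain ⟨Z, hZ1, hZ2, hZ3, hZ4⟩ := exists_parent (show e.1.1 ≤ s.1.1 by omega) hks hme hi hms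
  have hxZ : x ∈ squ v Z := edgeOfSq_subset hZ3 hx
  -- a point in both relative interiors
  have hcs : P86.sc v s ∈ P86.rel v s := P86.sc_mem
  have hrel : P86.sc v s ∈ P86.rel v Z := by
    have h1 : P86.sc v s ∈ squ v Z := hZ4 (P86.rel_sub hcs)
    refine ⟨h1.1, fun k hk => ?_⟩
    have hk' : k ≠ s.2 := by rw [← hZ2]; exact hk
    have h2 := hcs.2 k hk'
    have h3 := h1.2 k hk
    have h4 := nest (m := s.1.1) (m' := Z.1.1) (by omega) h3.1 h3.2 h2.1 h2.2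
    constructor <;> linarith [h4.1, h4.2, h2.1, h2.2]
  have hZt : squ v Z ⊆ squ v t := by
    refine squ_sub_of_rel (by omega) (by rw [hZ2, hst]) hrel (hsub (P86.rel_sub hcs))
  set F : Set (Idx × Fin 3) := {p | (p ∈ Q ∧ squ v p ⊆ squ v t) ∧ p.2 = Z.2 ∧ Z.1.1 < p.1.1 ∧
    squ v p ⊆ squ v Z} with hF
  have hFfin : F.Finite := (hQ.fin t ht).subset fun p hp => hp.1
  have hclosed : IsClosed (⋃ p ∈ F, squ v p) :=
    hFfin.isClosed_biUnion fun p _ => (isCompact_squ v p).isClosed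
  have hlim : Tendsto (fun τ : ℝ => x + τ • (P86.sc v Z - x)) (𝓝[>] 0) (𝓝 x) := by
    have h1 : Continuous (fun τ : ℝ => x + τ • (P86.sc v Z - x)) := by fun_prop
    have h2 := h1.tendsto 0
    simp only [zero_smul, add_zero] at h2
    exact h2.mono_left nhdsWithin_le_nhds
  have hev : ∀ᶠ τ : ℝ in 𝓝[>] 0, x + τ • (P86.sc v Z - x) ∈ ⋃ p ∈ F, squ v p := by
    filter_upwards [Ioc_mem_nhdsGT (zero_lt_one (α := ℝ))] with τ hτ
    have h1 := seg_rel hxZ hτ.1 hτ.2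
    obtain ⟨p, hp, hp2, hyp, hpt⟩ := hQ.cov t ht _ (hZt (P86.rel_sub h1))
    have hpZ : p.2 = Z.2 := by rw [hp2, ← hst, hZ2]
    have hlt' : Z.1.1 < p.1.1 := by
      by_contra hcon
      push Not at hcon
      have h2 : squ v Z ⊆ squ v p := squ_sub_of_rel hcon hpZ h1 hyp
      have h3 : s ≠ p := by
        intro h
        rw [← h] at hcon
        omega
      exact disjoint_left.1 (hQ.disj s hs p hp h3) hcs (h2 (hZ4 (P86.rel_sub hcs)))
    exact mem_iUnion₂.2 ⟨p, ⟨⟨hp, hpt⟩, hpZ, hlt', squ_sub_of_rel' hlt'.le hpZ h1 hyp⟩, hyp⟩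
  obtain ⟨p, ⟨⟨hp, -⟩, hpZ, hlt', hsubZ⟩, hxp⟩ := mem_iUnion₂.1 (hclosed.mem_of_tendsto hlim hev)
  have hkp : e.2 ≠ p.2 := by rw [hpZ, hZ2]; exact hks
  have hn := (P86.squ_ineq hpZ hsubZ).2 e.2 (by rw [← hpZ]; exact hkp)
  have hZe : Z.1.2 e.2 = e.1.2 e.2 := hZ3.2.2.1.symm
  rw [hZe, hZ1] at hn
  obtain ⟨e'', h1, h2, h3, h4⟩ := squ_sub_edge (show e.1.1 ≤ p.1.1 by omega) hkp hx hxp hn
  have h5 : e''.1.1 = p.1.1 := h1.1
  exact ⟨e'', ⟨p, hp, h1⟩, by omega, h3, h4⟩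

/-- an edge lies in `Ω` -/
theorem edge_sub (hI : Part Ω v I) (hQ : Sub v I Q) {e : Idx × Fin 3} (he : PEdge I Q e) :
    edge v e ⊆ Ω := by
  rcases he with ⟨q, hq, heq⟩ | ⟨s, hs, hes⟩
  · exact (edge_subset_dyc heq).trans (hI.sub q hq)
  · obtain ⟨t, ht, -, hsub⟩ := hQ.sub s hs
    obtain ⟨q, hq, -, hsubq⟩ := exists_face ht
    exact (edgeOfSq_subset hes).trans (hsub.trans (hsubq.trans (hI.sub q hq)))

/-- an edge which is not minimal is covered by strictly finer edges -/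
theorem exists_finer (hΩ : IsOpen Ω) (hI : Part Ω v I) (hQ : Sub v I Q) {e : Idx × Fin 3}
    (he : PEdge I Q e) (hmin : ¬ Min v I Q e) {x : V} (hx : x ∈ edge v e) :
    ∃ e', PEdge I Q e' ∧ e.1.1 < e'.1.1 ∧ x ∈ edge v e' ∧ edge v e' ⊆ edge v e := by
  obtain ⟨e', he', hlt, hsub⟩ : ∃ e', PEdge I Q e' ∧ e.1.1 < e'.1.1 ∧ edge v e' ⊆ edge v e := by
    by_contra hcon
    push Not at hcon
    exact hmin ⟨he, hcon⟩
  have hxΩ : x ∈ Ω := edge_sub hI hQ he hx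
  rcases he' with ⟨q, hq, heq⟩ | ⟨s, hs, hes⟩
  · obtain ⟨e'', h1, h2⟩ := finer_cube hΩ hI hq heq hlt hsub hx hxΩ
    exact ⟨e'', Or.inl h1, h2⟩
  · obtain ⟨t, ht, hst, hsubt⟩ := hQ.sub s hs
    rcases lt_or_ge e.1.1 t.1.1 with hgt | hle
    · obtain ⟨q, hq, hf, hsubq⟩ := exists_face ht
      have h1 : t.1.1 = q.1 := hf.1
      have hm : mid v e' ∈ edge v e := hsub (mid_spec v e').1
      obtain ⟨w, hw1, -, hw3⟩ := cube_sub_edge (show e.1.1 < q.1 by omega) hm (mid_inner hsub)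
        (hsubq (hsubt (edgeOfSq_subset hes (mid_spec v e').1)))
      obtain ⟨e'', h1, h2⟩ := finer_cube hΩ hI hq hw1 (show e.1.1 < q.1 by omega) hw3 hx hxΩ
      exact ⟨e'', Or.inl h1, h2⟩
    · obtain ⟨e'', h1, h2⟩ := finer_squ hQ ht hs hst hsubt hes hlt hsub hle hx
      exact ⟨e'', Or.inr h1, h2⟩

theorem finite_edgeOf (q : Idx) : {e : Idx × Fin 3 | EdgeOf e q}.Finite := by
  have hfin : (({q.1} : Set ℕ) ×ˢ (Set.pi univ fun j => ({q.2 j, q.2 j + 1} : Set ℤ))).Finite := by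
    exact Set.Finite.prod (finite_singleton _) (Set.Finite.pi fun j => Set.toFinite _)
  refine (hfin.prod (finite_univ (α := Fin 3))).subset ?_
  rintro ⟨⟨m, z⟩, k⟩ ⟨a1, a2, a3⟩
  refine ⟨⟨a1, fun j _ => ?_⟩, mem_univ _⟩
  by_cases hj : j = k
  · subst hj
    left; exact a2
  · exact a3 j hj

theorem finite_edgeOfSq (s : Idx × Fin 3) : {e : Idx × Fin 3 | EdgeOfSq e s}.Finite := by
  have hfin : (({s.1.1} : Set ℕ) ×ˢ
      (Set.pi univ fun j => ({s.1.2 j, s.1.2 j + 1} : Set ℤ))).Finite := by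
    exact Set.Finite.prod (finite_singleton _) (Set.Finite.pi fun j => Set.toFinite _)
  refine (hfin.prod (finite_univ (α := Fin 3))).subset ?_
  rintro ⟨⟨m, z⟩, k⟩ ⟨a1, a2, a3, a4, a5⟩
  refine ⟨⟨a1, fun j _ => ?_⟩, mem_univ _⟩
  by_cases hj : j = k
  · subst hj
    left; exact a3
  · by_cases hj' : j = s.2
    · subst hj'
      left; exact a4
    · exact a5 j hj hj'

/-- finitely many squares of `Q` meet a compact subset of `Ω` -/
theorem finite_squ (hI : Part Ω v I) (hQ : Sub v I Q) {K : Set V} (hK : K ⊆ Ω)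
    (hKc : IsCompact K) : {s | s ∈ Q ∧ (squ v s ∩ K).Nonempty}.Finite := by
  have h1 : {t | MinSq v I t ∧ (squ v t ∩ K).Nonempty}.Finite := by
    refine ((hI.fin K hK hKc).biUnion (fun r hr => P86.finite_minSq hI hr.1)).subset ?_
    rintro t ⟨ht, y, hy, hyK⟩
    obtain ⟨q, hq, -, hsub⟩ := exists_face ht
    exact mem_biUnion (x := q) ⟨hq, y, hsub hy, hyK⟩ ⟨ht, hsub⟩
  refine (h1.biUnion (fun t ht => hQ.fin t ht.1)).subset ?_
  rintro s ⟨hs, y, hy, hyK⟩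
  obtain ⟨t, ht, -, hsub⟩ := hQ.sub s hs
  exact mem_biUnion (x := t) ⟨ht, y, hsub hy, hyK⟩ ⟨hs, hsub⟩

/-- finitely many edges meet a compact subset of `Ω` -/
theorem finite_edges (hI : Part Ω v I) (hQ : Sub v I Q) {K : Set V} (hK : K ⊆ Ω)
    (hKc : IsCompact K) : {e | PEdge I Q e ∧ (edge v e ∩ K).Nonempty}.Finite := by
  refine (((hI.fin K hK hKc).biUnion fun q _ => finite_edgeOf q).union
    ((finite_squ hI hQ hK hKc).biUnion fun s _ => finite_edgeOfSq s)).subset ?_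
  rintro e ⟨⟨q, hq, heq⟩ | ⟨s, hs, hes⟩, hne⟩
  · exact Or.inl (mem_biUnion (x := q)
      ⟨hq, hne.mono (inter_subset_inter_left _ (edge_subset_dyc heq))⟩ heq)
  · exact Or.inr (mem_biUnion (x := s)
      ⟨hs, hne.mono (inter_subset_inter_left _ (edgeOfSq_subset hes))⟩ hes)

/-- **(M2)** every edge is a finite union of minimal edges -/
theorem exists_cover (hΩ : IsOpen Ω) (hI : Part Ω v I) (hQ : Sub v I Q) {e : Idx × Fin 3}
    (he : PEdge I Q e) :
    ∃ S : Set (Idx × Fin 3), S.Finite ∧ (∀ e' ∈ S, Min v I Q e') ∧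
      edge v e = ⋃ e' ∈ S, edge v e' := by
  have hfin := finite_edges hI hQ (edge_sub hI hQ he) (isCompact_edge v e)
  obtain ⟨N, hN⟩ : ∃ N, ∀ e', PEdge I Q e' → edge v e' ⊆ edge v e → e'.1.1 ≤ N := by
    obtain ⟨N, hN⟩ := (hfin.image fun e' => e'.1.1).bddAbove
    refine ⟨N, fun e' h1 h2 => hN ⟨e', ⟨h1, ?_⟩, rfl⟩⟩
    obtain ⟨y, hy⟩ := edge_nonempty v e'
    exact ⟨y, hy, h2 hy⟩
  have key : ∀ d : ℕ, ∀ e', PEdge I Q e' → edge v e' ⊆ edge v e → N ≤ e'.1.1 + d →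
      ∃ S : Set (Idx × Fin 3), S.Finite ∧ (∀ e'' ∈ S, Min v I Q e'') ∧
        edge v e' = ⋃ e'' ∈ S, edge v e'' := by
    intro d
    induction d with
    | zero =>
      intro e' h1 h2 h3
      refine ⟨{e'}, finite_singleton _, ?_, by simp⟩
      rintro _ rfl
      refine ⟨h1, fun e'' h4 h5 h6 => ?_⟩
      have := hN e'' h4 (h6.trans h2)
      omega
    | succ d ih =>
      intro e' h1 h2 h3
      by_cases hm : Min v I Q e'
      · refine ⟨{e'}, finite_singleton _, ?_, by simp⟩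
        rintro _ rfl
        exact hm
      · set D : Set (Idx × Fin 3) := {e'' | PEdge I Q e'' ∧ e'.1.1 < e''.1.1 ∧
          edge v e'' ⊆ edge v e'} with hD
        have hDfin : D.Finite := by
          refine hfin.subset ?_
          rintro e'' ⟨h4, -, h5⟩
          obtain ⟨y, hy⟩ := edge_nonempty v e''
          exact ⟨h4, y, hy, h2 (h5 hy)⟩
        have h4 : ∀ e'' ∈ D, ∃ S : Set (Idx × Fin 3), S.Finite ∧ (∀ e'' ∈ S, Min v I Q e'') ∧
            edge v e'' = ⋃ e'' ∈ S, edge v e'' := by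
          rintro e'' ⟨h5, h6, h7⟩
          exact ih e'' h5 (h7.trans h2) (by omega)
        choose! S hS1 hS2 hS3 using h4
        refine ⟨⋃ e'' ∈ D, S e'', hDfin.biUnion hS1, ?_, ?_⟩
        · intro e'' he''
          obtain ⟨e3, h5, h6⟩ := mem_iUnion₂.1 he''
          exact hS2 e3 h5 e'' h6
        · apply Subset.antisymm
          · intro x hx
            obtain ⟨e'', h5, h6, h7, h8⟩ := exists_finer hΩ hI hQ h1 hm hx
            have h9 : e'' ∈ D := ⟨h5, h6, h8⟩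
            rw [hS3 e'' h9] at h7
            obtain ⟨e3, h10, h11⟩ := mem_iUnion₂.1 h7
            exact mem_iUnion₂.2 ⟨e3, mem_iUnion₂.2 ⟨e'', h9, h10⟩, h11⟩
          · intro x hx
            obtain ⟨e3, h5, h6⟩ := mem_iUnion₂.1 hx
            obtain ⟨e'', h7, h8⟩ := mem_iUnion₂.1 h5
            apply h7.2.2
            rw [hS3 e'' h7]
            exact mem_iUnion₂.2 ⟨e3, h8, h6⟩
  exact key N e he (le_refl _) (by omega)

end P073.Gauge.CxR
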