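import Vale.Agent.P073.Gauge.CxA86
import Vale.Agent.P073.Gauge.CxR673b

/-!
# P073, block CXR: incidences in the cell complex of a dyadic partition with subdivided faces
(M3)-(M9)
-/

open Set Metric Topology Filter

namespace P073.Gauge.CxR

open Vale.Agent.P073.St (V)
open Vale.Agent.P073.SQ (ev cube)
open Vale.Agent.P073.AB Vale.Agent.P073.AB.P86
open Vale.Agent.P073.AB.Gr (mem_edge mid mid_spec edge_subset_dyc edge_nonempty isCompact_edge)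
open P073.Net (dyc dyo)
open P073.Gauge.CxA (sqbd cbd mem_sqbd mem_cbd sqbd_subset cbd_subset exists_edgeOfSq)

variable {Ω : Set V} {v : V} {I : Set Idx} {Q : Set (Idx × Fin 3)}

/-- the relative interior of a square inside a parallel square -/
theorem rel_mono {s t : Idx × Fin 3} (hk : s.2 = t.2) (h : squ v s ⊆ squ v t) :
    rel v s ⊆ rel v t := by
  intro x hx
  obtain ⟨-, h2⟩ := squ_ineq hk h
  refine ⟨(h (rel_sub hx)).1, fun k hk' => ?_⟩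
  have h3 := h2 k hk'
  have h4 := hx.2 k (by rw [hk]; exact hk')
  constructor <;> linarith [h3.1, h3.2, h4.1, h4.2]

/-- edges of a square avoid its relative interior -/
theorem edgeOfSq_rel {s e : Idx × Fin 3} (he : EdgeOfSq e s) {x : V} (hx : x ∈ edge v e) :
    x ∉ rel v s := by
  intro hr
  obtain ⟨h1, h2, h3, h4, h5⟩ := he
  obtain ⟨j, hje, hjs⟩ := exists_third e.2 s.2
  have g := (mem_edge.1 hx).1 j hje
  rw [h1] at g
  have h6 := hr.2 j hjs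
  rcases h5 j hje hjs with h | h
  · rw [h] at g; linarith [h6.1]
  · rw [h] at g; push_cast at g; linarith [h6.2]

/-- **(M3)** edges avoid the relative interiors of the squares -/
theorem edge_rel (hΩ : IsOpen Ω) (hI : Part Ω v I) (hQ : Sub v I Q) {s e : Idx × Fin 3}
    (hs : s ∈ Q) (he : PEdge I Q e) {x : V} (hx : x ∈ edge v e) : x ∉ rel v s := by
  intro hr
  rcases he with he | ⟨s', hs', hes⟩
  · obtain ⟨t, ht, hst, hsub⟩ := hQ.sub s hs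
    exact CxA.edge_rel hΩ hI ht he hx (rel_mono hst hsub hr)
  · by_cases h : s = s'
    · subst h
      exact edgeOfSq_rel hes hx hr
    · exact disjoint_left.1 (hQ.disj s hs s' hs' h) hr (CxA.edgeOfSq_subset hes hx)

/-- **(M4)** -/
theorem sqbd_eq (hΩ : IsOpen Ω) (hI : Part Ω v I) (hQ : Sub v I Q) {s : Idx × Fin 3}
    (hs : s ∈ Q) : sqbd v s = ⋃ e ∈ {e | Min v I Q e ∧ edge v e ⊆ squ v s}, edge v e := by
  apply Subset.antisymm
  · intro x hx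
    obtain ⟨e, he, hxe⟩ := exists_edgeOfSq hx
    obtain ⟨S, -, hmin, hcov⟩ := exists_cover hΩ hI hQ (Or.inr ⟨s, hs, he⟩)
    rw [hcov] at hxe
    obtain ⟨e', he', hxe'⟩ := mem_iUnion₂.1 hxe
    refine mem_biUnion (x := e') ⟨hmin e' he', ?_⟩ hxe'
    have : edge v e' ⊆ edge v e := by
      rw [hcov]; exact subset_biUnion_of_mem (u := fun e => edge v e) he'
    exact this.trans (CxA.edgeOfSq_subset he)
  · intro x hx
    obtain ⟨e, ⟨hmin, hsub⟩, hxe⟩ := mem_iUnion₂.1 hx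
    exact ⟨hsub hxe, edge_rel hΩ hI hQ hs hmin.1 hxe⟩

/-- **(M5)** -/
theorem squ_inter (hQ : Sub v I Q) {s s' : Idx × Fin 3} (hs : s ∈ Q) (hs' : s' ∈ Q)
    (hne : s ≠ s') : squ v s ∩ squ v s' ⊆ sqbd v s := by
  rintro x ⟨hx, hx'⟩
  exact ⟨hx, fun hr => disjoint_left.1 (hQ.disj s hs s' hs' hne) hr hx'⟩

/-- (M3') -/
theorem squ_inter_edge (hΩ : IsOpen Ω) (hI : Part Ω v I) (hQ : Sub v I Q) {s e : Idx × Fin 3}
    (hs : s ∈ Q) (he : PEdge I Q e) : squ v s ∩ edge v e ⊆ sqbd v s := by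
  rintro x ⟨hx, hx'⟩
  exact ⟨hx, edge_rel hΩ hI hQ hs he hx'⟩

/-- **(M6)** every minimal edge is contained in a square -/
theorem exists_squ (hΩ : IsOpen Ω) (hI : Part Ω v I) (hQ : Sub v I Q) {e : Idx × Fin 3}
    (he : Min v I Q e) : ∃ s ∈ Q, edge v e ⊆ squ v s := by
  rcases he.1 with ⟨q, hq, heq⟩ | ⟨s, hs, hes⟩
  · obtain ⟨hm1, hm2, hm3⟩ := mid_spec v e
    have hxq : mid v e ∈ dyc v q.1 q.2 := edge_subset_dyc heq hm1
    obtain ⟨l, hl⟩ : ∃ l : Fin 3, l ≠ e.2 := exists_ne e.2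
    have h1 := (mem_edge.1 hm1).1 l hl
    rw [heq.1] at h1
    obtain ⟨t, ht, hxt, -⟩ := bd_cover hΩ hI hq hxq (l := l) (by
      rcases heq.2.2 l hl with h2 | h2
      · left; rw [h1, h2]
      · right; rw [h1, h2]; push_cast; rfl)
    obtain ⟨s, hs, -, hxs, -⟩ := hQ.cov t ht _ hxt
    have h2 : mid v e ∈ sqbd v s := ⟨hxs, edge_rel hΩ hI hQ hs he.1 hm1⟩
    rw [sqbd_eq hΩ hI hQ hs] at h2
    obtain ⟨e', ⟨hmin, hsub⟩, hxe'⟩ := mem_iUnion₂.1 h2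
    by_cases hee : e = e'
    · rw [hee]; exact ⟨s, hs, hsub⟩
    · exact absurd ⟨hm2, hm3⟩ (not_inner hQ he hmin hee hm1 hxe')
  · exact ⟨s, hs, CxA.edgeOfSq_subset hes⟩

/-- squares of `Q` lie in `Ω` -/
theorem squ_sub (hI : Part Ω v I) (hQ : Sub v I Q) {s : Idx × Fin 3} (hs : s ∈ Q) :
    squ v s ⊆ Ω := by
  obtain ⟨t, ht, -, hsub⟩ := hQ.sub s hs
  obtain ⟨q, hq, -, hsubq⟩ := CxA.exists_face ht
  exact hsub.trans (hsubq.trans (hI.sub q hq))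

/-- **(M7)** -/
theorem finite_min (hI : Part Ω v I) (hQ : Sub v I Q) {s : Idx × Fin 3} (hs : s ∈ Q) :
    {e | Min v I Q e ∧ edge v e ⊆ squ v s}.Finite := by
  refine (finite_edges hI hQ (squ_sub hI hQ hs) (isCompact_squ v s)).subset ?_
  rintro e ⟨he, hes⟩
  obtain ⟨y, hy⟩ := edge_nonempty v e
  exact ⟨he.1, y, hy, hes hy⟩

/-- (M7') local finiteness of the squares -/
theorem lf_squ (hΩ : IsOpen Ω) (hI : Part Ω v I) (hQ : Sub v I Q) {x : V} (hx : x ∈ Ω) :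
    ∃ U ∈ 𝓝 x, {s | s ∈ Q ∧ (squ v s ∩ U).Nonempty}.Finite := by
  obtain ⟨K, hK, hKΩ, hKc⟩ := local_compact_nhds (hΩ.mem_nhds hx)
  exact ⟨K, hK, finite_squ hI hQ hKΩ hKc⟩

/-- (M7'') local finiteness of the edges -/
theorem lf_edge (hΩ : IsOpen Ω) (hI : Part Ω v I) (hQ : Sub v I Q) {x : V} (hx : x ∈ Ω) :
    ∃ U ∈ 𝓝 x, {e | Min v I Q e ∧ (edge v e ∩ U).Nonempty}.Finite := by
  obtain ⟨K, hK, hKΩ, hKc⟩ := local_compact_nhds (hΩ.mem_nhds hx)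
  exact ⟨K, hK, (finite_edges hI hQ hKΩ hKc).subset fun e he => ⟨he.1.1, he.2⟩⟩

/-- **(M8c)** -/
theorem dyc_inter_squ (hI : Part Ω v I) (hQ : Sub v I Q) {s : Idx × Fin 3} (hs : s ∈ Q) {q : Idx}
    (hq : q ∈ I) : dyc v q.1 q.2 ∩ squ v s ⊆ cbd v q := by
  rintro x ⟨hx, hx'⟩
  obtain ⟨t, ht, -, hsub⟩ := hQ.sub s hs
  exact CxA.dyc_inter_squ hI ht hq ⟨hx, hsub hx'⟩

/-- **(M8a)** -/
theorem cbd_eq (hΩ : IsOpen Ω) (hI : Part Ω v I) (hQ : Sub v I Q) {q : Idx} (hq : q ∈ I) :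
    cbd v q = ⋃ s ∈ {s | s ∈ Q ∧ squ v s ⊆ dyc v q.1 q.2}, squ v s := by
  apply Subset.antisymm
  · intro x hx
    rw [CxA.cbd_eq hΩ hI hq] at hx
    obtain ⟨t, ⟨ht, hsub⟩, hxt⟩ := mem_iUnion₂.1 hx
    obtain ⟨s, hs, -, hxs, hst⟩ := hQ.cov t ht x hxt
    exact mem_biUnion (x := s) ⟨hs, hst.trans hsub⟩ hxs
  · intro x hx
    obtain ⟨s, ⟨hs, hsub⟩, hxs⟩ := mem_iUnion₂.1 hx
    exact dyc_inter_squ hI hQ hs hq ⟨hsub hxs, hxs⟩

/-- **(M8b)** -/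
theorem finite_squ_dyc (hI : Part Ω v I) (hQ : Sub v I Q) {q : Idx} (hq : q ∈ I) :
    {s | s ∈ Q ∧ squ v s ⊆ dyc v q.1 q.2}.Finite := by
  refine (finite_squ hI hQ (hI.sub q hq) (isCompact_dyc v q.1 q.2)).subset ?_
  rintro s ⟨hs, hsub⟩
  exact ⟨hs, sc v s, rel_sub sc_mem, hsub (rel_sub sc_mem)⟩

/-- a square of `Q` in a cube lies in its boundary -/
theorem squ_sub_cbd (hI : Part Ω v I) (hQ : Sub v I Q) {s : Idx × Fin 3} (hs : s ∈ Q) {q : Idx}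
    (hq : q ∈ I) (hsub : squ v s ⊆ dyc v q.1 q.2) : squ v s ⊆ cbd v q :=
  fun _ hx => dyc_inter_squ hI hQ hs hq ⟨hsub hx, hx⟩

/-- **(M9)** -/
theorem exists_two (hΩ : IsOpen Ω) (hI : Part Ω v I) (hQ : Sub v I Q) {s : Idx × Fin 3}
    (hs : s ∈ Q) : ∃ q ∈ I, ∃ q' ∈ I, q ≠ q' ∧
      ∀ r ∈ I, squ v s ⊆ dyc v r.1 r.2 ↔ r = q ∨ r = q' := by
  obtain ⟨t, ht, hst, hsub⟩ := hQ.sub s hs
  obtain ⟨qp, hqp, qm, hqm, hne, h⟩ := CxA.exists_two hΩ hI ht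
  refine ⟨qp, hqp, qm, hqm, hne, fun r hr => ⟨fun h1 => ?_, fun h1 => ?_⟩⟩
  · obtain ⟨qp', qm', htwo⟩ := two_of_minSq hΩ hI ht
    have h2 : sc v s ∈ rel v t := rel_mono hst hsub sc_mem
    have h3 : squ v t ⊆ dyc v r.1 r.2 := by
      rcases rel_mem hI htwo h2 hr (h1 (rel_sub sc_mem)) with rfl | rfl
      · exact squ_sub_hi.trans htwo.subp
      · exact squ_sub_lo.trans htwo.subm
    exact (h r hr).1 h3
  · exact hsub.trans ((h r hr).2 h1)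

end P073.Gauge.CxR
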