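import Vale.Agent.P073.Gauge.CxR673d
import Vale.Agent.P073.Gauge.CxR86
import Vale.Agent.P073.Spec.Plate

/-!
# P073, block CXT: `SpecCxT`

The cell complex of a dyadic partition whose minimal squares are subdivided by `T`.
-/

open Set Metric Topology Filter

namespace P073.Plate

open Vale.Agent.P073.St (V)
open Vale.Agent.P073.SQ (ev)
open Vale.Agent.P073.AB
open P073.GB73 (Cx3)
open P073.Net (dyc dyo)
open P073.Gauge

/-- a family of squares as in `FaceT` is a subdivision -/
theorem FaceT.toSub {Ω : Set V} {v : V} {I : Set Idx} {T : Set (Idx × Fin 3)} (hΩ : IsOpen Ω)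
    (hI : Part Ω v I) (hT : FaceT v I T) : CxR.Sub v I T where
  sub s hs := by
    obtain ⟨t, ht, hk, hsub⟩ := hT.sub s hs
    exact ⟨t, ht, hk.symm, hsub⟩
  cov t ht x hx := by
    obtain ⟨s, hs, hk, hsub, hxs⟩ := hT.cover t ht x hx
    exact ⟨s, hs, hk, hxs, hsub⟩
  disj s hs s' hs' hne := by
    rw [Set.disjoint_left]
    intro x hx hx'
    by_cases hk : s'.2 = s.2
    · rcases le_total s'.1.1 s.1.1 with h | h
      · exact hne (hT.disj s hs s' hs' hk.symm (CxR.squ_sub_of_rel h hk hx hx'))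
      · exact hne (hT.disj s' hs' s hs hk (CxR.squ_sub_of_rel' h hk hx hx')).symm
    · obtain ⟨t, ht, hkt, hsub⟩ := hT.sub s hs
      obtain ⟨t', ht', hkt', hsub'⟩ := hT.sub s' hs'
      have h1 : t = t' := P86.sq_disj hΩ hI ht ht' (CxR.rel_mono hkt.symm hsub hx) (hsub' hx')
      exact hk (by rw [← hkt', ← hkt, h1])
  fin t ht := hT.fin t ht

theorem facts {Ω : Set V} {v : V} {I : Set Idx} {Q : Set (Idx × Fin 3)} (hΩ : IsOpen Ω)
    (hI : Part Ω v I) (hQ : CxR.Sub v I Q) : CxR.Facts Ω v I Q where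
  L1 _ hs _ he _ hx := CxR.edge_rel hΩ hI hQ hs he hx
  L2 _ hs := CxR.sqbd_eq hΩ hI hQ hs
  L3 _ hs _ hs' hne := CxR.squ_inter hQ hs hs' hne
  L4 _ he := CxR.exists_squ hΩ hI hQ he
  L5 _ hs := CxR.finite_min hI hQ hs
  L6 _ hx := CxR.lf_squ hΩ hI hQ hx
  L7 _ hq := CxR.cbd_eq hΩ hI hQ hq
  L8 _ hq _ hs := CxR.dyc_inter_squ hI hQ hs hq
  L9 _ hq _ hq' hne := CxA.dyc_inter_dyc hI hq hq' hne
  L10 _ hs := CxR.exists_two hΩ hI hQ hs
  L11 _ hq := CxR.finite_squ_dyc hI hQ hq
  L12 _ hx := CxA.lf_dyc hΩ hI hx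

/-- **(CXT)** -/
theorem specCxT : SpecCxT := by
  intro Ω v I T hΩ hI hT
  have hQ := hT.toSub hΩ hI
  exact ⟨{ Vx := CxR.Vx v I T
           B := CxR.B v I T
           J := {s : Idx × Fin 3 // s ∈ T}
           e0 := CxR.e0
           e1 := CxR.e1
           inc := fun b j => edge v b.1 ⊆ squ v j.1
           qC := fun j q => squ v j.1 ⊆ dyc v q.1.1 q.1.2
           K := CxR.cx hI hQ (facts hΩ hI hQ)
           cntB := inferInstance
           φ := Subtype.val
           ψ := Subtype.val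
           φinj := Subtype.val_injective
           ψinj := Subtype.val_injective
           y0 := fun _ => rfl
           y1 := fun _ => rfl
           arc := fun _ => rfl
           edgeOf := fun b => CxR.min_edgeOfSq hΩ hI hQ b.2
           edges := fun e he => CxR.edges_arcs hΩ hI hQ (Or.inr he)
           tile := fun _ => rfl
           rangeψ := Subtype.range_val
           cell := fun _ => rfl
           inc_iff := fun _ _ => Iff.rfl
           qC_iff := fun _ _ => Iff.rfl }⟩

end P073.Plate
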