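import Vale.Agent.P073.AB.Part86
import Vale.Agent.P073.AB.Graph907
import Vale.Agent.P073.MOS.Surf

/-!
# P073, block CX: the dyadic edges, squares and cubes are conical balls; the graph of the minimal
edges
-/

open Set Metric Topology Filter

namespace P073.Gauge.Cx673

open Vale.Agent.P073.St (V)
open Vale.Agent.P073.SQ (ev)
open Vale.Agent.P073.AB
open P073.Net (dyc dyo)
open P073.PR720 (LF)

/-- first end point of a dyadic edge -/
noncomputable def p0 (v : V) (e : Idx × Fin 3) : V := pt v e.1.1 e.1.2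

/-- second end point of a dyadic edge -/
noncomputable def p1 (v : V) (e : Idx × Fin 3) : V :=
  pt v e.1.1 e.1.2 + (1 / 2 ^ e.1.1 : ℝ) • ev e.2

theorem p0_ne_p1 (v : V) (e : Idx × Fin 3) : p0 v e ≠ p1 v e := by
  intro h
  have h1 := congrFun h e.2
  simp only [p0, p1, ev, Pi.add_apply, Pi.smul_apply, Pi.single_eq_same, smul_eq_mul,
    mul_one] at h1
  have : (0:ℝ) < 1 / 2 ^ e.1.1 := by positivity
  linarith

theorem p0_mem (v : V) (e : Idx × Fin 3) : p0 v e ∈ edge v e := left_mem_segment ℝ _ _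

theorem p1_mem (v : V) (e : Idx × Fin 3) : p1 v e ∈ edge v e := right_mem_segment ℝ _ _

/-- edges are conical arcs -/
theorem ball1 (v : V) (e : Idx × Fin 3) : ConBall 1 (edge v e) {p0 v e, p1 v e} :=
  P073.MOS.conBall_segment (p0_ne_p1 v e)

/-- dyadic squares are conical discs -/
theorem ball2 (v : V) (s : Idx × Fin 3) : ConBall 2 (squ v s) (squ v s \ P86.rel v s) := by
  have h0 : (0:ℝ) < 1 / 2 ^ s.1.1 := by positivity
  have h := conBall_brickFace two_ne_zero s.2 (v s.2 + s.1.2 s.2 / 2 ^ s.1.1)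
    (lo := fun k => v k + s.1.2 k / 2 ^ s.1.1) (hi := fun k => v k + (s.1.2 k + 1) / 2 ^ s.1.1)
    (fun k _ => by
      show v k + (s.1.2 k : ℝ) / 2 ^ s.1.1 < v k + ((s.1.2 k : ℝ) + 1) / 2 ^ s.1.1
      rw [P86.div_add_one]; linarith)
  have e2 : squ v s \ P86.rel v s =
      {x | x ∈ {x : Fin 3 → ℝ | x s.2 = v s.2 + s.1.2 s.2 / 2 ^ s.1.1 ∧ ∀ k, k ≠ s.2 →
        v k + s.1.2 k / 2 ^ s.1.1 ≤ x k ∧ x k ≤ v k + (s.1.2 k + 1) / 2 ^ s.1.1} ∧
        ∃ k, k ≠ s.2 ∧ (x k = v k + s.1.2 k / 2 ^ s.1.1 ∨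
          x k = v k + (s.1.2 k + 1) / 2 ^ s.1.1)} := by
    ext x
    refine and_congr_right fun hx => ?_
    constructor
    · intro h3
      by_contra hcon
      push Not at hcon
      exact h3 ⟨hx.1, fun k hk => ⟨lt_of_le_of_ne (hx.2 k hk).1 (hcon k hk).1.symm,
        lt_of_le_of_ne (hx.2 k hk).2 (hcon k hk).2⟩⟩
    · rintro ⟨k, hk, h3⟩ h4
      rcases h3 with h3 | h3
      · exact (h4.2 k hk).1.ne' h3
      · exact (h4.2 k hk).2.ne h3
  rw [e2]
  exact h

/-- dyadic cubes are conical balls -/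
theorem ball3 (v : V) (q : Idx) : ConBall 3 (dyc v q.1 q.2) (dyc v q.1 q.2 \ dyo v q.1 q.2) := by
  have h0 : (0:ℝ) < 1 / 2 ^ q.1 := by positivity
  exact conBall_brick three_ne_zero
    (lo := fun k => v k + q.2 k / 2 ^ q.1) (hi := fun k => v k + (q.2 k + 1) / 2 ^ q.1)
    (fun k => by
      show v k + (q.2 k : ℝ) / 2 ^ q.1 < v k + ((q.2 k : ℝ) + 1) / 2 ^ q.1
      rw [P86.div_add_one]; linarith)

section

variable {Ω : Set V} {v : V} {I : Set Idx}

/-- two different minimal edges meet at an end point of each -/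
theorem edge_inter (hI : Part Ω v I) {e e' : Idx × Fin 3} (he : Gr.Min v I e)
    (he' : Gr.Min v I e') (hne : e ≠ e') {x : V} (hx : x ∈ edge v e) (hx' : x ∈ edge v e') :
    (x = p0 v e ∨ x = p1 v e) ∧ (x = p0 v e' ∨ x = p1 v e') :=
  ⟨Gr.end_of_not_inner hx (Gr.not_inner hI he he' hne hx hx'),
    Gr.end_of_not_inner hx' (Gr.not_inner hI he' he hne.symm hx' hx)⟩

/-- an end point of a minimal edge which lies on a minimal edge is an end point of it -/
theorem end_mem (hI : Part Ω v I) {e e' : Idx × Fin 3} (he : Gr.Min v I e)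
    (he' : Gr.Min v I e') {x : V} (hx : x ∈ edge v e) (hx' : x = p0 v e' ∨ x = p1 v e') :
    x = p0 v e ∨ x = p1 v e := by
  by_cases hne : e = e'
  · rw [hne]; exact hx'
  · have h1 : x ∈ edge v e' := by
      rcases hx' with h | h
      · rw [h]; exact p0_mem v e'
      · rw [h]; exact p1_mem v e'
    exact (edge_inter hI he he' hne hx h1).1

/-- the vertices -/
def Vx (v : V) (I : Set Idx) : Type :=
  {x : V // ∃ e, Gr.Min v I e ∧ (x = p0 v e ∨ x = p1 v e)}

/-- the graph of the minimal edges -/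
noncomputable def graph (hI : Part Ω v I) :
    P073.PR720.Graph (V := Vx v I) (B := {e : Idx × Fin 3 // Gr.Min v I e})
      (fun b => ⟨p0 v b.1, b.1, b.2, Or.inl rfl⟩) (fun b => ⟨p1 v b.1, b.1, b.2, Or.inr rfl⟩) V where
  y := Subtype.val
  arc b := edge v b.1
  ball b := ball1 v b.1
  inj := Subtype.val_injective
  mem := by
    rintro b ⟨x, e, he, hx⟩ hxb
    rcases end_mem hI b.2 he hxb hx with h | h
    · left; exact Subtype.ext h
    · right; exact Subtype.ext h
  inter := by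
    rintro b b' hbb x ⟨hx, hx'⟩
    have hne : b.1 ≠ b'.1 := fun h => hbb (Subtype.ext h)
    exact ⟨⟨x, b.1, b.2, (edge_inter hI b.2 b'.2 hne hx hx').1⟩, rfl⟩

end

end P073.Gauge.Cx673
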