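import Vale.Agent.P073.Gauge.Cx673a
import Vale.Agent.P073.Spec.Gauge

/-!
# P073, block CX: the cell complex of a dyadic partition, assembly
-/

open Set Metric Topology Filter

namespace P073.Gauge.Cx673

open Vale.Agent.P073.St (V)
open Vale.Agent.P073.SQ (ev)
open Vale.Agent.P073.AB
open P073.Net (dyc dyo)
open P073.PR720 (LF)
open P073.GB73 (Cx3)

/-- the facts on minimal edges and squares which give the complex -/
structure Facts (Ω : Set V) (v : V) (I : Set Idx) : Prop where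
  L1 : ∀ s e x, MinSq v I s → x ∈ squ v s → x ∈ edge v e → (∃ q ∈ I, EdgeOf e q) →
    x ∈ squ v s \ P86.rel v s
  L2 : ∀ s, MinSq v I s → squ v s \ P86.rel v s =
    ⋃ e ∈ {e | Gr.Min v I e ∧ edge v e ⊆ squ v s}, edge v e
  L3 : ∀ s s', MinSq v I s → MinSq v I s' → s ≠ s' →
    squ v s ∩ squ v s' ⊆ squ v s \ P86.rel v s
  L4 : ∀ e, Gr.Min v I e → ∃ s, MinSq v I s ∧ edge v e ⊆ squ v s
  L5 : ∀ s, MinSq v I s → {e | Gr.Min v I e ∧ edge v e ⊆ squ v s}.Finite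
  L6 : LF (fun s : {s : Idx × Fin 3 // MinSq v I s} => squ v s.1) Ω
  L7 : ∀ q ∈ I, dyc v q.1 q.2 \ dyo v q.1 q.2 =
    ⋃ s ∈ {s | MinSq v I s ∧ squ v s ⊆ dyc v q.1 q.2}, squ v s
  L8 : ∀ q ∈ I, ∀ s, MinSq v I s → dyc v q.1 q.2 ∩ squ v s ⊆ dyc v q.1 q.2 \ dyo v q.1 q.2
  L9 : ∀ q ∈ I, ∀ q' ∈ I, q ≠ q' →
    dyc v q.1 q.2 ∩ dyc v q'.1 q'.2 ⊆ dyc v q.1 q.2 \ dyo v q.1 q.2
  L10 : ∀ s, MinSq v I s → ∃ q ∈ I, ∃ q' ∈ I, q ≠ q' ∧
    ∀ r ∈ I, squ v s ⊆ dyc v r.1 r.2 ↔ r = q ∨ r = q'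
  L11 : ∀ q ∈ I, {s | MinSq v I s ∧ squ v s ⊆ dyc v q.1 q.2}.Finite
  L12 : LF (fun q : I => dyc v q.1.1 q.1.2) Ω

section

variable {Ω : Set V} {v : V} {I : Set Idx}

theorem squ_sub_Ω (hI : Part Ω v I) {s : Idx × Fin 3} (hs : MinSq v I s) : squ v s ⊆ Ω := by
  obtain ⟨⟨q, hq, hf⟩, -⟩ := hs
  refine subset_trans ?_ (hI.sub q hq)
  rcases P86.faceOf_iff.1 hf with rfl | rfl
  · exact P86.squ_sub_hi
  · exact P86.squ_sub_lo

theorem iUnion_sub {P Q : Idx × Fin 3 → Prop} {f : Idx × Fin 3 → Set V} :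
    (⋃ b ∈ {b : {e : Idx × Fin 3 // P e} | Q b.1}, f b.1) = ⋃ e ∈ {e | P e ∧ Q e}, f e := by
  ext x
  simp only [mem_iUnion, mem_ofPred_eq, exists_prop, Subtype.exists]
  constructor
  · rintro ⟨e, h1, h2, h3⟩; exact ⟨e, ⟨h1, h2⟩, h3⟩
  · rintro ⟨e, ⟨h1, h2⟩, h3⟩; exact ⟨e, h1, h2, h3⟩

/-- the complex of a dyadic partition -/
noncomputable def cx (hI : Part Ω v I) (F : Facts Ω v I) :
    Cx3 (Vx := Vx v I) (B := {e : Idx × Fin 3 // Gr.Min v I e})
      (J := {s : Idx × Fin 3 // MinSq v I s}) (I := I)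
      (fun b => ⟨p0 v b.1, b.1, b.2, Or.inl rfl⟩) (fun b => ⟨p1 v b.1, b.1, b.2, Or.inr rfl⟩)
      (fun b j => edge v b.1 ⊆ squ v j.1) (fun j q => squ v j.1 ⊆ dyc v q.1.1 q.1.2) Ω where
  toGraph := graph hI
  tile j := squ v j.1
  tball j := by
    have h := ball2 v j.1
    rw [F.L2 j.1 j.2] at h
    show ConBall 2 (squ v j.1) (⋃ b ∈ {b : {e : Idx × Fin 3 // Gr.Min v I e} |
      edge v b.1 ⊆ squ v j.1}, edge v b.1)
    rw [iUnion_sub (P := Gr.Min v I) (Q := fun e => edge v e ⊆ squ v j.1) (f := edge v)]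
    exact h
  tile_arc j b := by
    rintro x ⟨hx, hx'⟩
    show x ∈ ⋃ b ∈ {b : {e : Idx × Fin 3 // Gr.Min v I e} | edge v b.1 ⊆ squ v j.1}, edge v b.1
    rw [iUnion_sub (P := Gr.Min v I) (Q := fun e => edge v e ⊆ squ v j.1) (f := edge v),
      ← F.L2 j.1 j.2]
    exact F.L1 j.1 b.1 x j.2 hx hx' b.2.1
  tile_tile j k hjk := by
    intro x hx
    have h1 := F.L3 j.1 k.1 j.2 k.2 (fun h => hjk (Subtype.ext h)) hx
    rw [F.L2 j.1 j.2] at h1
    obtain ⟨e, he, hxe⟩ := mem_iUnion₂.1 h1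
    exact mem_iUnion.2 ⟨⟨e, he.1⟩, hxe⟩
  arc_tile b := by
    obtain ⟨s, hs, h⟩ := F.L4 b.1 b.2
    exact ⟨⟨s, hs⟩, h⟩
  vert_arc := by
    rintro ⟨x, e, he, hx⟩
    refine ⟨⟨e, he⟩, ?_⟩
    rcases hx with hx | hx
    · left; exact Subtype.ext hx
    · right; exact Subtype.ext hx
  fin_inc j := by
    have h := (F.L5 j.1 j.2).preimage
      (Subtype.val_injective (p := fun e : Idx × Fin 3 => Gr.Min v I e)).injOn
    exact h.subset fun b hb => ⟨b.2, hb⟩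
  lf := F.L6.mono (iUnion_subset fun j => squ_sub_Ω hI j.2)
  cell q := dyc v q.1.1 q.1.2
  cball q := by
    have h := ball3 v q.1
    rw [F.L7 q.1 q.2] at h
    show ConBall 3 (dyc v q.1.1 q.1.2) (⋃ s ∈ {s : {s : Idx × Fin 3 // MinSq v I s} |
      squ v s.1 ⊆ dyc v q.1.1 q.1.2}, squ v s.1)
    rw [iUnion_sub (P := MinSq v I) (Q := fun s => squ v s ⊆ dyc v q.1.1 q.1.2) (f := squ v)]
    exact h
  cell_tile q j := by
    intro x hx
    show x ∈ ⋃ s ∈ {s : {s : Idx × Fin 3 // MinSq v I s} |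
      squ v s.1 ⊆ dyc v q.1.1 q.1.2}, squ v s.1
    rw [iUnion_sub (P := MinSq v I) (Q := fun s => squ v s ⊆ dyc v q.1.1 q.1.2) (f := squ v),
      ← F.L7 q.1 q.2]
    exact F.L8 q.1 q.2 j.1 j.2 hx
  cell_cell q q' hqq := by
    intro x hx
    have h1 := F.L9 q.1 q.2 q'.1 q'.2 (fun h => hqq (Subtype.ext h)) hx
    rw [F.L7 q.1 q.2] at h1
    obtain ⟨s, hs, hxs⟩ := mem_iUnion₂.1 h1
    exact mem_iUnion.2 ⟨⟨s, hs.1⟩, hxs⟩
  two j := by
    obtain ⟨q, hq, q', hq', hne, h⟩ := F.L10 j.1 j.2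
    refine ⟨⟨q, hq⟩, ⟨q', hq'⟩, fun h => hne (congrArg Subtype.val h), fun r => ?_⟩
    rw [h r.1 r.2, Subtype.ext_iff, Subtype.ext_iff]
  fin_qC q := by
    have h := (F.L11 q.1 q.2).preimage
      (Subtype.val_injective (p := fun s : Idx × Fin 3 => MinSq v I s)).injOn
    exact h.subset fun s hs => ⟨s.2, hs⟩
  cover := by
    apply Subset.antisymm
    · exact iUnion_subset fun q => hI.sub q.1 q.2
    · intro x hx
      obtain ⟨q, hq, h⟩ := hI.cover x hx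
      exact mem_iUnion.2 ⟨⟨q, hq⟩, h⟩
  clf := F.L12

/-- the complex of a dyadic partition, with its data -/
theorem dyCx_of_facts (hΩ : IsOpen Ω) (hI : Part Ω v I) (F : Facts Ω v I) :
    Nonempty (DyCx Ω v I) := by
  classical
  refine ⟨{ Vx := Vx v I
            B := {e : Idx × Fin 3 // Gr.Min v I e}
            J := {s : Idx × Fin 3 // MinSq v I s}
            e0 := fun b => ⟨p0 v b.1, b.1, b.2, Or.inl rfl⟩
            e1 := fun b => ⟨p1 v b.1, b.1, b.2, Or.inr rfl⟩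
            inc := fun b j => edge v b.1 ⊆ squ v j.1
            qC := fun j q => squ v j.1 ⊆ dyc v q.1.1 q.1.2
            K := cx hI F
            cntB := inferInstance
            φ := Subtype.val
            ψ := Subtype.val
            φinj := Subtype.val_injective
            ψinj := Subtype.val_injective
            y0 := fun _ => rfl
            y1 := fun _ => rfl
            arc := fun _ => rfl
            edgeOf := fun b => b.2.1
            edges := ?_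
            tile := fun _ => rfl
            minSq := fun j => j.2
            allSq := fun s hs => ⟨⟨s, hs⟩, rfl⟩
            cell := fun _ => rfl
            inc_iff := fun _ _ => Iff.rfl
            qC_iff := fun _ _ => Iff.rfl }⟩
  intro e he
  obtain ⟨S, hS, hmin, hcov⟩ := Gr.exists_cover hΩ hI he
  have h2 : (Subtype.val ⁻¹' S : Set {e : Idx × Fin 3 // Gr.Min v I e}).Finite :=
    hS.preimage Subtype.val_injective.injOn
  refine ⟨h2.toFinset, ?_⟩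
  rw [hcov]
  ext x
  simp only [mem_iUnion, exists_prop]
  constructor
  · rintro ⟨e', he', hx⟩
    exact ⟨⟨e', hmin e' he'⟩, h2.mem_toFinset.2 he', hx⟩
  · rintro ⟨e', he', hx⟩
    exact ⟨e'.1, h2.mem_toFinset.1 he', hx⟩

end

end P073.Gauge.Cx673
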