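import Vale.Agent.P073.Gauge.CxRDefs

/-!
# P073, block CXR: minimal edges of a subdivided dyadic partition
-/

open Set Metric Topology Filter

namespace P073.Gauge.CxR

open Vale.Agent.P073.St (V)
open Vale.Agent.P073.SQ (ev)
open Vale.Agent.P073.AB
open Vale.Agent.P073.AB.Gr (mem_edge mid mid_spec edge_subset_dyc exists_ancestor' edgeOf_of_mem
  exists_sub_edge inner_of_sub edge_nonempty isCompact_edge)
open P073.Net (dyc dyo)
open P073.Net.NC (dyA dyB dyc_sub fine_sub fine_sub')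

/-- a closed coarse dyadic interval which contains an inner point of a fine one contains it -/
theorem nest {m m' : ℕ} (h : m' ≤ m) {a b : ℤ} {w x : ℝ} (h1 : w + a / 2 ^ m' ≤ x)
    (h2 : x ≤ w + (a + 1) / 2 ^ m') (h3 : w + b / 2 ^ m < x) (h4 : x < w + (b + 1) / 2 ^ m) :
    (a : ℝ) / 2 ^ m' ≤ b / 2 ^ m ∧ ((b : ℝ) + 1) / 2 ^ m ≤ (a + 1) / 2 ^ m' := by
  constructor
  · exact dyB h (by linarith)
  · have := dyA (a := a + 1) (b := b) h (by push_cast; linarith)
    push_cast at this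
    exact this

/-- a closed fine dyadic interval which contains an inner point of a coarse one lies in it -/
theorem nest' {m m' : ℕ} (h : m ≤ m') {c b : ℤ} {w x : ℝ} (h1 : w + c / 2 ^ m' ≤ x)
    (h2 : x ≤ w + (c + 1) / 2 ^ m') (h3 : w + b / 2 ^ m < x) (h4 : x < w + (b + 1) / 2 ^ m) :
    (b : ℝ) / 2 ^ m ≤ c / 2 ^ m' ∧ ((c : ℝ) + 1) / 2 ^ m' ≤ (b + 1) / 2 ^ m := by
  constructor
  · exact dyB h (by linarith)
  · have := dyA (a := b + 1) (b := c) h (by push_cast; linarith)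
    push_cast at this
    exact this

theorem third (a b l j : Fin 3) : a ≠ b → l ≠ a → l ≠ b → j ≠ l → j = a ∨ j = b := by
  revert a b l j; decide

theorem exists_third (a b : Fin 3) : ∃ l : Fin 3, l ≠ a ∧ l ≠ b := by
  revert a b; decide

/-- an inner point of an edge -/
def Inner (v : V) (e : Idx × Fin 3) (x : V) : Prop :=
  v e.2 + e.1.2 e.2 / 2 ^ e.1.1 < x e.2 ∧ x e.2 < v e.2 + (e.1.2 e.2 + 1) / 2 ^ e.1.1

variable {v : V}

/-- a coarse square which contains an inner point of an edge and is parallel to it contains it -/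
theorem edge_sub_squ {t e : Idx × Fin 3} (h : t.1.1 ≤ e.1.1) (hk : e.2 ≠ t.2) {x : V}
    (hx : x ∈ edge v e) (hi : Inner v e x) (hxt : x ∈ squ v t) : edge v e ⊆ squ v t := by
  obtain ⟨a1, a2, a3⟩ := mem_edge.1 hx
  obtain ⟨b1, b2⟩ := hxt
  intro y hy
  obtain ⟨c1, c2, c3⟩ := mem_edge.1 hy
  refine ⟨?_, fun j hj => ?_⟩
  · rw [c1 t.2 (Ne.symm hk), ← a1 t.2 (Ne.symm hk), b1]
  · by_cases hjk : j = e.2
    · subst hjk
      have := nest h (b2 _ hj).1 (b2 _ hj).2 hi.1 hi.2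
      constructor <;> linarith [this.1, this.2]
    · rw [c1 j hjk, ← a1 j hjk]; exact b2 j hj

/-- a finer cube through an inner point of an edge has an edge in this edge -/
theorem cube_sub_edge {e : Idx × Fin 3} {q : Idx} (h : e.1.1 < q.1) {x : V}
    (hx : x ∈ edge v e) (hi : Inner v e x) (hxq : x ∈ dyc v q.1 q.2) :
    ∃ w : Fin 3 → ℤ, EdgeOf ((q.1, w), e.2) q ∧ x ∈ edge v ((q.1, w), e.2) ∧
      edge v ((q.1, w), e.2) ⊆ edge v e := by
  obtain ⟨⟨m, z⟩, k⟩ := e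
  obtain ⟨Z, hZ⟩ := exists_ancestor' v (show m ≤ q.1 from (show m < q.1 from h).le) q.2
  have hEZ := edgeOf_of_mem hx hi.1 hi.2 (hZ hxq)
  exact exists_sub_edge hEZ hZ hx hxq

/-- a finer square which touches an edge in its plane has an edge in this edge -/
theorem squ_sub_edge {e s : Idx × Fin 3} (h : e.1.1 ≤ s.1.1) (hk : e.2 ≠ s.2) {x : V}
    (hx : x ∈ edge v e) (hxs : x ∈ squ v s)
    (hn : (e.1.2 e.2 : ℝ) / 2 ^ e.1.1 ≤ s.1.2 e.2 / 2 ^ s.1.1 ∧
      ((s.1.2 e.2 : ℝ) + 1) / 2 ^ s.1.1 ≤ (e.1.2 e.2 + 1) / 2 ^ e.1.1) :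
    ∃ e', EdgeOfSq e' s ∧ e'.2 = e.2 ∧ x ∈ edge v e' ∧ edge v e' ⊆ edge v e := by
  obtain ⟨a1, a2, a3⟩ := mem_edge.1 hx
  obtain ⟨b1, b2⟩ := hxs
  obtain ⟨j, hje, hjs⟩ := exists_third e.2 s.2
  have h3 : ∀ i, i ≠ j → i = e.2 ∨ i = s.2 := fun i hi => third e.2 s.2 j i hk hje hjs hi
  -- the third coordinate
  obtain ⟨c, hc, hc'⟩ : ∃ c : ℤ, (c = s.1.2 j ∨ c = s.1.2 j + 1) ∧
      (c : ℝ) / 2 ^ s.1.1 = e.1.2 j / 2 ^ e.1.1 := by
    have d1 := b2 j hjs
    rw [a1 j hje] at d1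
    rcases lt_or_ge ((e.1.2 j : ℝ) / 2 ^ e.1.1) (((s.1.2 j : ℝ) + 1) / 2 ^ s.1.1) with hlt | hge
    · refine ⟨s.1.2 j, Or.inl rfl, le_antisymm (by linarith [d1.1]) (dyB h hlt)⟩
    · refine ⟨s.1.2 j + 1, Or.inr rfl, ?_⟩
      push_cast
      exact le_antisymm hge (by linarith [d1.2])
  set u : Fin 3 → ℤ := Function.update s.1.2 j c with hu
  have hue : u e.2 = s.1.2 e.2 := by rw [hu, Function.update_of_ne (Ne.symm hje)]
  have hus : u s.2 = s.1.2 s.2 := by rw [hu, Function.update_of_ne (Ne.symm hjs)]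
  have huj : u j = c := by rw [hu, Function.update_self]
  refine ⟨((s.1.1, u), e.2), ⟨rfl, hk, hue, hus, fun i hi1 hi2 => ?_⟩, rfl, ?_, ?_⟩
  · have hij : i = j := by
      by_contra hne
      rcases h3 i hne with h4 | h4
      · exact hi1 h4
      · exact hi2 h4
    show u i = s.1.2 i ∨ u i = s.1.2 i + 1
    rw [hij, huj]; exact hc
  · refine mem_edge.2 ⟨fun i hi => ?_, ?_, ?_⟩
    · show x i = v i + (u i : ℝ) / 2 ^ s.1.1
      by_cases hij : i = j
      · rw [hij, huj, hc']; exact a1 j hje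
      · rcases h3 i hij with h4 | h4
        · exact absurd h4 hi
        · rw [h4, hus]; exact b1
    · show v e.2 + (u e.2 : ℝ) / 2 ^ s.1.1 ≤ x e.2
      rw [hue]; exact (b2 e.2 hk).1
    · show x e.2 ≤ v e.2 + ((u e.2 : ℝ) + 1) / 2 ^ s.1.1
      rw [hue]; exact (b2 e.2 hk).2
  · intro y hy
    obtain ⟨c1, c2, c3⟩ := mem_edge.1 hy
    refine mem_edge.2 ⟨fun i hi => ?_, ?_, ?_⟩
    · have c4 : y i = v i + (u i : ℝ) / 2 ^ s.1.1 := c1 i hi
      by_cases hij : i = j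
      · rw [c4, hij, huj, hc']
      · rcases h3 i hij with h4 | h4
        · exact absurd h4 hi
        · rw [c4, h4, hus, ← b1, a1 s.2 (Ne.symm hk)]
    · have c4 : v e.2 + (u e.2 : ℝ) / 2 ^ s.1.1 ≤ y e.2 := c2
      rw [hue] at c4
      linarith [hn.1]
    · have c4 : y e.2 ≤ v e.2 + ((u e.2 : ℝ) + 1) / 2 ^ s.1.1 := c3
      rw [hue] at c4
      linarith [hn.2]

/-- a lattice plane does not meet the interior of a finer interval -/
theorem plane_inner {m m' : ℕ} (h : m' ≤ m) {a b : ℤ} {w x : ℝ} (h1 : x = w + a / 2 ^ m')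
    (h3 : w + b / 2 ^ m < x) (h4 : x < w + (b + 1) / 2 ^ m) : False := by
  have h5 : (a : ℝ) / 2 ^ m' < (b + 1) / 2 ^ m := by linarith
  have := dyB h h5
  linarith

variable {Ω : Set V} {I : Set Idx} {Q : Set (Idx × Fin 3)}

/-- a minimal square is a face of a cube of the partition -/
theorem exists_face {s : Idx × Fin 3} (hs : MinSq v I s) :
    ∃ q ∈ I, FaceOf s q ∧ squ v s ⊆ dyc v q.1 q.2 := by
  obtain ⟨⟨q, hq, hf⟩, -⟩ := hs
  refine ⟨q, hq, hf, ?_⟩
  rcases P86.faceOf_iff.1 hf with rfl | rfl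
  · exact P86.squ_sub_hi
  · exact P86.squ_sub_lo

theorem edgeOfSq_subset {s e : Idx × Fin 3} (he : EdgeOfSq e s) : edge v e ⊆ squ v s := by
  obtain ⟨h1, h2, h3, h4, h5⟩ := he
  intro x hx
  obtain ⟨g1, g2, g3⟩ := mem_edge.1 hx
  refine ⟨?_, fun k hk => ?_⟩
  · rw [g1 s.2 (Ne.symm h2), h4, h1]
  · have hp : (0:ℝ) < 1 / 2 ^ s.1.1 := by positivity
    have hd : ((s.1.2 k : ℝ) + 1) / 2 ^ s.1.1 = s.1.2 k / 2 ^ s.1.1 + 1 / 2 ^ s.1.1 := add_div _ _ _
    by_cases hke : k = e.2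
    · subst hke
      rw [← h1, ← h3]; exact ⟨g2, g3⟩
    · rw [g1 k hke, h1]
      rcases h5 k hke hk with h6 | h6
      · rw [h6, hd]; constructor <;> linarith
      · rw [h6]; push_cast; rw [hd]; constructor <;> linarith

/-- **(M1)** a minimal edge has no other minimal edge through its inner points -/
theorem not_inner (hQ : Sub v I Q) {e e' : Idx × Fin 3} (he : Min v I Q e) (he' : Min v I Q e')
    (hne : e ≠ e') {x : V} (hx : x ∈ edge v e) (hx' : x ∈ edge v e') : ¬ Inner v e x := by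
  intro hi
  rcases lt_or_ge e.1.1 e'.1.1 with hlt | hge
  · rcases he'.1 with ⟨q, hq, heq⟩ | ⟨s, hs, hes⟩
    · have hm' : e'.1.1 = q.1 := heq.1
      obtain ⟨w, hw1, -, hw3⟩ := cube_sub_edge (show e.1.1 < q.1 by omega) hx hi
        (edge_subset_dyc heq hx')
      exact he.2 ((q.1, w), e.2) (Or.inl ⟨q, hq, hw1⟩) (show e.1.1 < q.1 by omega) hw3
    · obtain ⟨t, ht, hst, hsub⟩ := hQ.sub s hs
      have hxs : x ∈ squ v s := edgeOfSq_subset hes hx'
      have hm' : e'.1.1 = s.1.1 := hes.1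
      rcases lt_or_ge e.1.1 t.1.1 with hgt | hle
      · obtain ⟨q, hq, hf, hsubq⟩ := exists_face ht
        have h1 : t.1.1 = q.1 := hf.1
        obtain ⟨w, hw1, -, hw3⟩ := cube_sub_edge (show e.1.1 < q.1 by omega) hx hi
          (hsubq (hsub hxs))
        exact he.2 ((q.1, w), e.2) (Or.inl ⟨q, hq, hw1⟩) (show e.1.1 < q.1 by omega) hw3
      · have hk : e.2 ≠ t.2 := by
          intro hk
          have h1 := (hsub hxs).1
          rw [← hk] at h1
          exact plane_inner hle h1 hi.1 hi.2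
        have hk' : e.2 ≠ s.2 := by rw [hst]; exact hk
        obtain ⟨e'', h1, h2, -, h4⟩ := squ_sub_edge (show e.1.1 ≤ s.1.1 by omega) hk' hx hxs
          (nest' (show e.1.1 ≤ s.1.1 by omega) (hxs.2 e.2 hk').1 (hxs.2 e.2 hk').2 hi.1 hi.2)
        have h5 : e''.1.1 = s.1.1 := h1.1
        exact he.2 e'' (Or.inr ⟨s, hs, h1⟩) (by omega) h4
  · -- `e'` is coarser or of the same generation
    obtain ⟨⟨m, z⟩, k⟩ := e
    obtain ⟨⟨m', z'⟩, k'⟩ := e'
    have h0 : (0:ℝ) < 2 ^ m := by positivity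
    have h0' : (0:ℝ) < 2 ^ m' := by positivity
    have h1' : v k + (z k : ℝ) / 2 ^ m < x k := hi.1
    have h2' : x k < v k + ((z k : ℝ) + 1) / 2 ^ m := hi.2
    have hge' : m' ≤ m := hge
    have hx1 := mem_edge.1 hx
    have hx2 := mem_edge.1 hx'
    have hk : k' = k := by
      by_contra hkk
      have a : x k = v k + (z' k : ℝ) / 2 ^ m' := hx2.1 k (Ne.symm hkk)
      exact plane_inner hge' a h1' h2'
    subst hk
    have c1 : v k' + (z' k' : ℝ) / 2 ^ m' ≤ x k' := hx2.2.1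
    have c2 : x k' ≤ v k' + ((z' k' : ℝ) + 1) / 2 ^ m' := hx2.2.2
    obtain ⟨d1, d2⟩ := nest hge' c1 c2 h1' h2'
    have hsub : edge v ((m, z), k') ⊆ edge v ((m', z'), k') := by
      intro y hy
      have hy1 := mem_edge.1 hy
      rw [mem_edge]
      refine ⟨fun j hj => ?_, ?_, ?_⟩
      · have e1 : y j = v j + (z j : ℝ) / 2 ^ m := hy1.1 j hj
        have e2 : x j = v j + (z j : ℝ) / 2 ^ m := hx1.1 j hj
        have e3 : x j = v j + (z' j : ℝ) / 2 ^ m' := hx2.1 j hj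
        show y j = v j + (z' j : ℝ) / 2 ^ m'
        rw [e1, ← e2, e3]
      · have e1 : v k' + (z k' : ℝ) / 2 ^ m ≤ y k' := hy1.2.1
        show v k' + (z' k' : ℝ) / 2 ^ m' ≤ y k'
        linarith
      · have e1 : y k' ≤ v k' + ((z k' : ℝ) + 1) / 2 ^ m := hy1.2.2
        show y k' ≤ v k' + ((z' k' : ℝ) + 1) / 2 ^ m'
        linarith
    rcases eq_or_lt_of_le hge' with hm | hm
    · subst hm
      apply hne
      have hz : z = z' := by
        funext j
        by_cases hj : j = k'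
        · subst hj
          rw [div_le_div_iff_of_pos_right h0] at d1 d2
          have d1' : z' j ≤ z j := by exact_mod_cast d1
          have d2' : z j + 1 ≤ z' j + 1 := by exact_mod_cast d2
          omega
        · have e2 : x j = v j + (z j : ℝ) / 2 ^ m' := hx1.1 j hj
          have e3 : x j = v j + (z' j : ℝ) / 2 ^ m' := hx2.1 j hj
          have e4 : (z j : ℝ) / 2 ^ m' = z' j / 2 ^ m' := by linarith
          rw [div_left_inj' h0'.ne'] at e4
          exact_mod_cast e4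
      rw [hz]
    · exact he'.2 _ he.1 hm hsub

end P073.Gauge.CxR
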