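import Vale.Agent.P073.Gauge.CxR673b

/-!
# P073, block CXR: the minimal edges are edges of squares of `Q`
-/

open Set Metric Topology Filter

namespace P073.Gauge.CxR

open Vale.Agent.P073.St (V)
open Vale.Agent.P073.SQ (ev)
open Vale.Agent.P073.AB
open Vale.Agent.P073.AB.Gr (mem_edge mid mid_spec edge_subset_dyc exists_ancestor' edgeOf_of_mem
  exists_sub_edge inner_of_sub edge_nonempty isCompact_edge)
open P073.Net (dyc dyo)
open P073.Net.NC (dyA dyB dyc_sub fine_sub fine_sub')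

variable {v : V} {Ω : Set V} {I : Set Idx} {Q : Set (Idx × Fin 3)}

/-- inclusions of squares are inclusions in the same plane -/
theorem dir_of_squ_sub {s f : Idx × Fin 3} (h : squ v s ⊆ squ v f) : s.2 = f.2 := by
  by_contra hne
  have hp : (0:ℝ) < 1 / 2 ^ s.1.1 := by positivity
  have h1 : (fun k => v k + s.1.2 k / 2 ^ s.1.1 : V) ∈ squ v s :=
    ⟨rfl, fun j _ => ⟨le_rfl, by rw [P86.div_add_one]; linarith⟩⟩
  have h2 : (fun k => if k = s.2 then v k + s.1.2 k / 2 ^ s.1.1 else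
      v k + (s.1.2 k + 1) / 2 ^ s.1.1 : V) ∈ squ v s := by
    refine ⟨by simp, fun j hj => ?_⟩
    simp only [if_neg hj]
    exact ⟨by rw [P86.div_add_one]; linarith, le_rfl⟩
  have h3 := (h h1).1
  have h4 := (h h2).1
  have hne' : f.2 ≠ s.2 := Ne.symm hne
  simp only [if_neg hne'] at h4
  rw [P86.div_add_one] at h4
  linarith

theorem eq_of_squ_sub {p f : Idx × Fin 3} (hg : p.1.1 ≤ f.1.1) (h : squ v p ⊆ squ v f) :
    p = f := by
  have hk := dir_of_squ_sub h
  obtain ⟨h1, h2⟩ := P86.squ_ineq hk h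
  obtain ⟨j, hj⟩ : ∃ j : Fin 3, j ≠ f.2 := exists_ne f.2
  have h3 := h2 j hj
  rw [P86.div_add_one, P86.div_add_one] at h3
  have h4 : (1:ℝ) / 2 ^ p.1.1 ≤ 1 / 2 ^ f.1.1 := by linarith [h3.1, h3.2]
  rw [one_div_le_one_div (by positivity) (by positivity)] at h4
  have h5 : f.1.1 ≤ p.1.1 := (pow_le_pow_iff_right₀ (by norm_num)).1 h4
  have h6 : p.1.1 = f.1.1 := le_antisymm hg h5
  have h0 : (0:ℝ) < 2 ^ f.1.1 := by positivity
  refine Prod.ext (Prod.ext h6 ?_) hk
  funext i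
  rw [h6] at h1 h2
  by_cases hi : i = f.2
  · subst hi
    have := (div_left_inj' h0.ne').1 h1
    exact_mod_cast this
  · have h7 := h2 i hi
    rw [div_le_div_iff_of_pos_right h0, div_le_div_iff_of_pos_right h0] at h7
    have h8 : f.1.2 i ≤ p.1.2 i := by exact_mod_cast h7.1
    have h9 : p.1.2 i + 1 ≤ f.1.2 i + 1 := by exact_mod_cast h7.2
    omega

/-- the minimal edges are edges of squares of `Q` -/
theorem min_edgeOfSq (hΩ : IsOpen Ω) (hI : Part Ω v I) (hQ : Sub v I Q) {e : Idx × Fin 3}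
    (he : Min v I Q e) : ∃ s ∈ Q, EdgeOfSq e s := by
  rcases he.1 with ⟨q, hq, heq⟩ | h
  swap
  · exact h
  obtain ⟨l, hl⟩ : ∃ l : Fin 3, l ≠ e.2 := exists_ne e.2
  obtain ⟨g1, g2, g3⟩ := heq
  set f : Idx × Fin 3 := ((q.1, Function.update q.2 l (e.1.2 l)), l) with hf
  have hfl : f.1.2 l = e.1.2 l := by simp [hf]
  have hfj : ∀ j, j ≠ l → f.1.2 j = q.2 j := fun j hj => by simp [hf, hj]
  have hef : EdgeOfSq e f := by
    refine ⟨g1, Ne.symm hl, ?_, hfl.symm, fun j h1 h2 => ?_⟩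
    · rw [hfj _ (Ne.symm hl)]; exact g2
    · rw [hfj _ h2]; exact g3 j h1
  have hx : mid v e ∈ squ v f := edgeOfSq_subset hef (mid_spec v e).1
  obtain ⟨s', hs', hxs', hsub'⟩ : ∃ s', MinSq v I s' ∧ mid v e ∈ squ v s' ∧
      squ v s' ⊆ squ v f := by
    rcases g3 l hl with h1 | h1
    · refine P86.cover_hi hΩ hI hx ?_
      have : (f.1.1, f.1.2) = q := by
        refine Prod.ext rfl ?_
        show Function.update q.2 l (e.1.2 l) = q.2
        rw [h1, Function.update_eq_self]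
      rw [this]; exact hq
    · refine P86.cover_lo hΩ hI hx ?_
      have : (f.1.1, P86.lo f) = q := by
        refine Prod.ext rfl ?_
        funext j
        show P86.lo f j = q.2 j
        by_cases hj : j = l
        · have h2 : P86.lo f l = f.1.2 l - 1 := P86.lo_same f
          rw [hj, h2, hfl, h1]; omega
        · have h2 : P86.lo f j = f.1.2 j := P86.lo_other f hj
          rw [h2, hfj j hj]
      rw [this]; exact hq
  obtain ⟨p, hp, hp2, hxp, hps⟩ := hQ.cov s' hs' _ hxs'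
  have hpf : squ v p ⊆ squ v f := hps.trans hsub'
  have hpd : p.2 = l := dir_of_squ_sub hpf
  rcases le_or_gt p.1.1 f.1.1 with hle | hgt
  · rw [eq_of_squ_sub hle hpf] at hp
    exact ⟨f, hp, hef⟩
  · exfalso
    have hgt' : e.1.1 < p.1.1 := by
      have : f.1.1 = q.1 := rfl
      omega
    have hk : e.2 ≠ p.2 := by rw [hpd]; exact Ne.symm hl
    obtain ⟨h1, h2, h3⟩ := mid_spec v e
    obtain ⟨e'', h4, -, -, h5⟩ := squ_sub_edge hgt'.le hk h1 hxp
      (nest' hgt'.le (hxp.2 e.2 hk).1 (hxp.2 e.2 hk).2 h2 h3)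
    have h6 : e''.1.1 = p.1.1 := h4.1
    exact he.2 e'' (Or.inr ⟨p, hp, h4⟩) (by omega) h5

/-- the minimal edges are the minimal ones among the edges of the squares of `Q` -/
theorem min_iff (hΩ : IsOpen Ω) (hI : Part Ω v I) (hQ : Sub v I Q) {e : Idx × Fin 3} :
    Min v I Q e ↔ (∃ s ∈ Q, EdgeOfSq e s) ∧ ∀ e', (∃ s ∈ Q, EdgeOfSq e' s) → e.1.1 < e'.1.1 →
      ¬ edge v e' ⊆ edge v e := by
  constructor
  · intro he
    exact ⟨min_edgeOfSq hΩ hI hQ he, fun e' he' => he.2 e' (Or.inr he')⟩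
  · rintro ⟨he, hmin⟩
    refine ⟨Or.inr he, ?_⟩
    rintro e' he' hlt hsub
    obtain ⟨S, -, hS, hcov⟩ := exists_cover hΩ hI hQ he'
    obtain ⟨e'', he'', hx⟩ : ∃ e'' ∈ S, mid v e' ∈ edge v e'' := by
      have := (mid_spec v e').1
      rw [hcov] at this
      obtain ⟨e'', h1, h2⟩ := mem_iUnion₂.1 this
      exact ⟨e'', h1, h2⟩
    have hsub' : edge v e'' ⊆ edge v e' := by
      rw [hcov]; exact subset_biUnion_of_mem (u := fun e => edge v e) he''
    have hgen : e'.1.1 ≤ e''.1.1 := by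
      -- the length of `e''` is at most the length of `e'`
      have hd := dir_of_sub hsub'
      have a1 := (mem_edge.1 (hsub' (left_mem_segment ℝ _ _) :
        pt v e''.1.1 e''.1.2 ∈ edge v e')).2.1
      have a2 := (mem_edge.1 (hsub' (right_mem_segment ℝ _ _) :
        pt v e''.1.1 e''.1.2 + (1 / 2 ^ e''.1.1 : ℝ) • ev e''.2 ∈ edge v e')).2.2
      have b1 : pt v e''.1.1 e''.1.2 e'.2 = v e'.2 + e''.1.2 e'.2 / 2 ^ e''.1.1 := rfl
      have b2 : (pt v e''.1.1 e''.1.2 + (1 / 2 ^ e''.1.1 : ℝ) • ev e''.2) e'.2 =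
          v e'.2 + (e''.1.2 e'.2 / 2 ^ e''.1.1 + 1 / 2 ^ e''.1.1) := by
        rw [← hd]
        simp only [pt, ev, Pi.add_apply, Pi.smul_apply, Pi.single_eq_same, smul_eq_mul, mul_one]
        ring
      rw [b1] at a1
      rw [b2, add_div] at a2
      have h4 : (1:ℝ) / 2 ^ e''.1.1 ≤ 1 / 2 ^ e'.1.1 := by linarith
      rw [one_div_le_one_div (by positivity) (by positivity)] at h4
      exact (pow_le_pow_iff_right₀ (by norm_num)).1 h4
    exact hmin e'' (min_edgeOfSq hΩ hI hQ (hS e'' he'')) (by omega) (hsub'.trans hsub)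

end P073.Gauge.CxR
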