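import Vale.Agent.P073.Gauge.CxR673c
import Vale.Agent.P073.Gauge.Cx673a
import Vale.Agent.P073.GB73.Spec

/-!
# P073, block CXR: the cell complex of a subdivided dyadic partition, assembly
-/

open Set Metric Topology Filter

namespace P073.Gauge.CxR

open Vale.Agent.P073.St (V)
open Vale.Agent.P073.SQ (ev)
open Vale.Agent.P073.AB
open P073.Net (dyc dyo)
open P073.PR720 (LF)
open P073.GB73 (Cx3)
open P073.Gauge.Cx673 (p0 p1 p0_mem p1_mem ball1 ball2 ball3)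

/-- the facts on minimal edges and squares which give the complex -/
structure Facts (Ω : Set V) (v : V) (I : Set Idx) (Q : Set (Idx × Fin 3)) : Prop where
  L1 : ∀ s ∈ Q, ∀ e, PEdge I Q e → ∀ x ∈ edge v e, x ∉ P86.rel v s
  L2 : ∀ s ∈ Q, squ v s \ P86.rel v s = ⋃ e ∈ {e | Min v I Q e ∧ edge v e ⊆ squ v s}, edge v e
  L3 : ∀ s ∈ Q, ∀ s' ∈ Q, s ≠ s' → squ v s ∩ squ v s' ⊆ squ v s \ P86.rel v s
  L4 : ∀ e, Min v I Q e → ∃ s ∈ Q, edge v e ⊆ squ v s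
  L5 : ∀ s ∈ Q, {e | Min v I Q e ∧ edge v e ⊆ squ v s}.Finite
  L6 : ∀ x ∈ Ω, ∃ U ∈ 𝓝 x, {s | s ∈ Q ∧ (squ v s ∩ U).Nonempty}.Finite
  L7 : ∀ q ∈ I, dyc v q.1 q.2 \ dyo v q.1 q.2 =
    ⋃ s ∈ {s | s ∈ Q ∧ squ v s ⊆ dyc v q.1 q.2}, squ v s
  L8 : ∀ q ∈ I, ∀ s ∈ Q, dyc v q.1 q.2 ∩ squ v s ⊆ dyc v q.1 q.2 \ dyo v q.1 q.2
  L9 : ∀ q ∈ I, ∀ q' ∈ I, q ≠ q' →
    dyc v q.1 q.2 ∩ dyc v q'.1 q'.2 ⊆ dyc v q.1 q.2 \ dyo v q.1 q.2
  L10 : ∀ s ∈ Q, ∃ q ∈ I, ∃ q' ∈ I, q ≠ q' ∧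
    ∀ r ∈ I, squ v s ⊆ dyc v r.1 r.2 ↔ r = q ∨ r = q'
  L11 : ∀ q ∈ I, {s | s ∈ Q ∧ squ v s ⊆ dyc v q.1 q.2}.Finite
  L12 : ∀ x ∈ Ω, ∃ U ∈ 𝓝 x, {q | q ∈ I ∧ (dyc v q.1 q.2 ∩ U).Nonempty}.Finite

section

variable {Ω : Set V} {v : V} {I : Set Idx} {Q : Set (Idx × Fin 3)}

/-- two different minimal edges meet at an end point of each -/
theorem edge_inter (hQ : Sub v I Q) {e e' : Idx × Fin 3} (he : Min v I Q e)
    (he' : Min v I Q e') (hne : e ≠ e') {x : V} (hx : x ∈ edge v e) (hx' : x ∈ edge v e') :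
    (x = p0 v e ∨ x = p1 v e) ∧ (x = p0 v e' ∨ x = p1 v e') :=
  ⟨Gr.end_of_not_inner hx (not_inner hQ he he' hne hx hx'),
    Gr.end_of_not_inner hx' (not_inner hQ he' he hne.symm hx' hx)⟩

/-- an end point of a minimal edge which lies on a minimal edge is an end point of it -/
theorem end_mem (hQ : Sub v I Q) {e e' : Idx × Fin 3} (he : Min v I Q e)
    (he' : Min v I Q e') {x : V} (hx : x ∈ edge v e) (hx' : x = p0 v e' ∨ x = p1 v e') :
    x = p0 v e ∨ x = p1 v e := by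
  by_cases hne : e = e'
  · rw [hne]; exact hx'
  · have h1 : x ∈ edge v e' := by
      rcases hx' with h | h
      · rw [h]; exact p0_mem v e'
      · rw [h]; exact p1_mem v e'
    exact (edge_inter hQ he he' hne hx h1).1

/-- the vertices -/
def Vx (v : V) (I : Set Idx) (Q : Set (Idx × Fin 3)) : Type :=
  {x : V // ∃ e, Min v I Q e ∧ (x = p0 v e ∨ x = p1 v e)}

/-- the arcs -/
abbrev B (v : V) (I : Set Idx) (Q : Set (Idx × Fin 3)) : Type :=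
  {e : Idx × Fin 3 // Min v I Q e}

/-- first end point -/
noncomputable def e0 (b : B v I Q) : Vx v I Q := ⟨p0 v b.1, b.1, b.2, Or.inl rfl⟩

/-- second end point -/
noncomputable def e1 (b : B v I Q) : Vx v I Q := ⟨p1 v b.1, b.1, b.2, Or.inr rfl⟩

/-- the graph of the minimal edges -/
noncomputable def graph (hQ : Sub v I Q) :
    P073.PR720.Graph (V := Vx v I Q) (B := B v I Q) e0 e1 V where
  y := Subtype.val
  arc b := edge v b.1
  ball b := ball1 v b.1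
  inj := Subtype.val_injective
  mem := by
    rintro b ⟨x, e, he, hx⟩ hxb
    rcases end_mem hQ b.2 he hxb hx with h | h
    · left; exact Subtype.ext h
    · right; exact Subtype.ext h
  inter := by
    rintro b b' hbb x ⟨hx, hx'⟩
    have hne : b.1 ≠ b'.1 := fun h => hbb (Subtype.ext h)
    exact ⟨⟨x, b.1, b.2, (edge_inter hQ b.2 b'.2 hne hx hx').1⟩, rfl⟩

theorem squ_sub_Ω (hI : Part Ω v I) (hQ : Sub v I Q) {s : Idx × Fin 3} (hs : s ∈ Q) :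
    squ v s ⊆ Ω := by
  obtain ⟨t, ht, -, hsub⟩ := hQ.sub s hs
  obtain ⟨q, hq, -, hsubq⟩ := exists_face ht
  exact hsub.trans (hsubq.trans (hI.sub q hq))

theorem iUnion_sub {P R : Idx × Fin 3 → Prop} {f : Idx × Fin 3 → Set V} :
    (⋃ b ∈ {b : {e : Idx × Fin 3 // P e} | R b.1}, f b.1) = ⋃ e ∈ {e | P e ∧ R e}, f e := by
  ext x
  simp only [mem_iUnion, mem_ofPred_eq, exists_prop, Subtype.exists]
  constructor
  · rintro ⟨e, h1, h2, h3⟩; exact ⟨e, ⟨h1, h2⟩, h3⟩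
  · rintro ⟨e, ⟨h1, h2⟩, h3⟩; exact ⟨e, h1, h2, h3⟩

/-- the complex of a subdivided dyadic partition -/
noncomputable def cx (hI : Part Ω v I) (hQ : Sub v I Q) (F : Facts Ω v I Q) :
    Cx3 (Vx := Vx v I Q) (B := B v I Q) (J := {s : Idx × Fin 3 // s ∈ Q}) (I := I) e0 e1
      (fun b j => edge v b.1 ⊆ squ v j.1) (fun j q => squ v j.1 ⊆ dyc v q.1.1 q.1.2) Ω where
  toGraph := graph hQ
  tile j := squ v j.1
  tball j := by
    have h := ball2 v j.1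
    rw [F.L2 j.1 j.2] at h
    show ConBall 2 (squ v j.1) (⋃ b ∈ {b : B v I Q | edge v b.1 ⊆ squ v j.1}, edge v b.1)
    rw [iUnion_sub (P := Min v I Q) (R := fun e => edge v e ⊆ squ v j.1) (f := edge v)]
    exact h
  tile_arc j b := by
    rintro x ⟨hx, hx'⟩
    show x ∈ ⋃ b ∈ {b : B v I Q | edge v b.1 ⊆ squ v j.1}, edge v b.1
    rw [iUnion_sub (P := Min v I Q) (R := fun e => edge v e ⊆ squ v j.1) (f := edge v),
      ← F.L2 j.1 j.2]
    exact ⟨hx, F.L1 j.1 j.2 b.1 b.2.1 x hx'⟩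
  tile_tile j k hjk := by
    intro x hx
    have h1 := F.L3 j.1 j.2 k.1 k.2 (fun h => hjk (Subtype.ext h)) hx
    rw [F.L2 j.1 j.2] at h1
    obtain ⟨e, he, hxe⟩ := mem_iUnion₂.1 h1
    exact mem_iUnion.2 ⟨⟨e, he.1⟩, hxe⟩
  arc_tile b := by
    obtain ⟨s, hs, h⟩ := F.L4 b.1 b.2
    exact ⟨⟨s, hs⟩, h⟩
  vert_arc := by
    rintro ⟨x, e, he, hx⟩
    refine ⟨⟨e, he⟩, ?_⟩
    rcases hx with hx | hx
    · left; exact Subtype.ext hx
    · right; exact Subtype.ext hx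
  fin_inc j := by
    have h := (F.L5 j.1 j.2).preimage
      (Subtype.val_injective (p := fun e : Idx × Fin 3 => Min v I Q e)).injOn
    exact h.subset fun b hb => ⟨b.2, hb⟩
  lf := by
    intro z hz
    obtain ⟨j, hj⟩ := mem_iUnion.1 hz
    obtain ⟨U, hU, hfin⟩ := F.L6 z (squ_sub_Ω hI hQ j.2 hj)
    exact ⟨U, hU, (hfin.preimage (Subtype.val_injective
      (p := fun s : Idx × Fin 3 => s ∈ Q)).injOn).subset fun s hs => ⟨s.2, hs⟩⟩
  cell q := dyc v q.1.1 q.1.2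
  cball q := by
    have h := ball3 v q.1
    rw [F.L7 q.1 q.2] at h
    show ConBall 3 (dyc v q.1.1 q.1.2) (⋃ s ∈ {s : {s : Idx × Fin 3 // s ∈ Q} |
      squ v s.1 ⊆ dyc v q.1.1 q.1.2}, squ v s.1)
    rw [iUnion_sub (P := fun s => s ∈ Q) (R := fun s => squ v s ⊆ dyc v q.1.1 q.1.2)
      (f := squ v)]
    exact h
  cell_tile q j := by
    intro x hx
    show x ∈ ⋃ s ∈ {s : {s : Idx × Fin 3 // s ∈ Q} |
      squ v s.1 ⊆ dyc v q.1.1 q.1.2}, squ v s.1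
    rw [iUnion_sub (P := fun s => s ∈ Q) (R := fun s => squ v s ⊆ dyc v q.1.1 q.1.2)
      (f := squ v), ← F.L7 q.1 q.2]
    exact F.L8 q.1 q.2 j.1 j.2 hx
  cell_cell q q' hqq := by
    intro x hx
    have h1 := F.L9 q.1 q.2 q'.1 q'.2 (fun h => hqq (Subtype.ext h)) hx
    rw [F.L7 q.1 q.2] at h1
    obtain ⟨s, hs, hxs⟩ := mem_iUnion₂.1 h1
    exact mem_iUnion.2 ⟨⟨s, hs.1⟩, hxs⟩
  two j := by
    obtain ⟨q, hq, q', hq', hne, h⟩ := F.L10 j.1 j.2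
    refine ⟨⟨q, hq⟩, ⟨q', hq'⟩, fun h => hne (congrArg Subtype.val h), fun r => ?_⟩
    rw [h r.1 r.2, Subtype.ext_iff, Subtype.ext_iff]
  fin_qC q := by
    have h := (F.L11 q.1 q.2).preimage
      (Subtype.val_injective (p := fun s : Idx × Fin 3 => s ∈ Q)).injOn
    exact h.subset fun s hs => ⟨s.2, hs⟩
  cover := by
    apply Subset.antisymm
    · exact iUnion_subset fun q => hI.sub q.1 q.2
    · intro x hx
      obtain ⟨q, hq, h⟩ := hI.cover x hx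
      exact mem_iUnion.2 ⟨⟨q, hq⟩, h⟩
  clf := by
    intro z hz
    obtain ⟨U, hU, hfin⟩ := F.L12 z hz
    exact ⟨U, hU, (hfin.preimage (Subtype.val_injective
      (p := fun q : Idx => q ∈ I)).injOn).subset fun q hq => ⟨q.2, hq⟩⟩

/-- every edge is a finite union of arcs -/
theorem edges_arcs (hΩ : IsOpen Ω) (hI : Part Ω v I) (hQ : Sub v I Q) {e : Idx × Fin 3}
    (he : PEdge I Q e) : ∃ S : Finset (B v I Q), edge v e = ⋃ b ∈ S, edge v b.1 := by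
  classical
  obtain ⟨S, hS, hmin, hcov⟩ := exists_cover hΩ hI hQ he
  have h2 : (Subtype.val ⁻¹' S : Set (B v I Q)).Finite :=
    hS.preimage Subtype.val_injective.injOn
  refine ⟨h2.toFinset, ?_⟩
  rw [hcov]
  ext x
  simp only [mem_iUnion, exists_prop]
  constructor
  · rintro ⟨e', he', hx⟩
    exact ⟨⟨e', hmin e' he'⟩, h2.mem_toFinset.2 he', hx⟩
  · rintro ⟨e', he', hx⟩
    exact ⟨e'.1, h2.mem_toFinset.1 he', hx⟩

end

end P073.Gauge.CxR
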