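import Vale.Agent.P073.Gauge.CxR86
import Vale.Agent.P073.Spec.Plate

/-!
# P073, block CXT: `FaceT` gives `Sub`; minimal edges are edges of squares
(M10), (M11)
-/

open Set Metric Topology Filter

namespace P073.Gauge.CxR

open Vale.Agent.P073.St (V)
open Vale.Agent.P073.AB Vale.Agent.P073.AB.P86
open Vale.Agent.P073.AB.Gr (mem_edge mid mid_spec edge_subset_dyc edge_nonempty isCompact_edge)
open P073.Net (dyc dyo)

variable {Ω : Set V} {v : V} {I : Set Idx} {Q : Set (Idx × Fin 3)}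

/-- **(M10)** -/
theorem sub_of_faceT (hΩ : IsOpen Ω) (hI : Part Ω v I) {T : Set (Idx × Fin 3)}
    (hT : Plate.FaceT v I T) : Sub v I T where
  sub s hs := by
    obtain ⟨t, ht, hk, hsub⟩ := hT.sub s hs
    exact ⟨t, ht, hk.symm, hsub⟩
  cov t ht x hx := by
    obtain ⟨s, hs, hk, hsub, hxs⟩ := hT.cover t ht x hx
    exact ⟨s, hs, hk, hxs, hsub⟩
  disj s hs s' hs' hne := by
    rw [disjoint_left]
    intro x hx hx'
    obtain ⟨t, ht, hk, hsub⟩ := hT.sub s hs
    obtain ⟨t', ht', hk', hsub'⟩ := hT.sub s' hs'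
    have h1 : x ∈ rel v t := rel_mono hk.symm hsub hx
    have h2 : t = t' := sq_disj hΩ hI ht ht' h1 (hsub' hx')
    have h3 : s'.2 = s.2 := by rw [← hk, ← hk', h2]
    rcases le_total s'.1.1 s.1.1 with h | h
    · exact hne (hT.disj s hs s' hs' h3.symm (squ_sub_of_rel h h3 hx hx'))
    · exact hne (hT.disj s' hs' s hs h3 (squ_sub_of_rel' h h3 hx hx')).symm
  fin t ht := hT.fin t ht

/-- the direction of an included square -/
theorem dir_squ {s t : Idx × Fin 3} (h : squ v s ⊆ squ v t) : s.2 = t.2 := by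
  by_contra hne
  have hp : (0:ℝ) < 1 / 2 ^ s.1.1 := by positivity
  have h1 : (fun k => v k + s.1.2 k / 2 ^ s.1.1 : V) ∈ squ v s :=
    ⟨rfl, fun j _ => ⟨le_rfl, by rw [add_div]; linarith⟩⟩
  have h2 : (Function.update (fun k => v k + s.1.2 k / 2 ^ s.1.1 : V) t.2
      (v t.2 + (s.1.2 t.2 + 1) / 2 ^ s.1.1)) ∈ squ v s := by
    refine ⟨by rw [Function.update_of_ne hne], fun j _ => ?_⟩
    by_cases hj : j = t.2
    · subst hj
      rw [Function.update_self, add_div]
      exact ⟨by linarith, le_rfl⟩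
    · rw [Function.update_of_ne hj]
      exact ⟨le_rfl, by rw [add_div]; linarith⟩
  have h3 := (h h1).1
  have h4 := (h h2).1
  rw [Function.update_self, add_div] at h4
  simp only at h3
  linarith

/-- squares of the same generation -/
theorem squ_eq {s t : Idx × Fin 3} (hg : s.1.1 = t.1.1) (h : squ v s ⊆ squ v t) : s = t := by
  have hk := dir_squ h
  obtain ⟨h1, h2⟩ := squ_ineq hk h
  have hp : (0:ℝ) < 2 ^ t.1.1 := by positivity
  rw [hg] at h1
  have h3 : ∀ k, s.1.2 k = t.1.2 k := by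
    intro k
    by_cases hkt : k = t.2
    · rw [hkt]
      have := (div_left_inj' hp.ne').1 h1
      exact_mod_cast this
    · obtain ⟨h4, h5⟩ := h2 k hkt
      rw [hg] at h4 h5
      have h6 := (div_le_div_iff_of_pos_right hp).1 h4
      have h7 := (div_le_div_iff_of_pos_right hp).1 h5
      have h8 : t.1.2 k ≤ s.1.2 k := by exact_mod_cast h6
      have h9 : s.1.2 k + 1 ≤ t.1.2 k + 1 := by exact_mod_cast h7
      omega
  exact Prod.ext (Prod.ext hg (funext h3)) hk

/-- the generation of an included square -/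
theorem gen_squ {s t : Idx × Fin 3} (h : squ v s ⊆ squ v t) : t.1.1 ≤ s.1.1 := by
  obtain ⟨-, h2⟩ := squ_ineq (dir_squ h) h
  obtain ⟨k, hk⟩ : ∃ k : Fin 3, k ≠ t.2 := exists_ne t.2
  have h1 := h2 k hk
  rw [add_div, add_div] at h1
  have h2 : (1:ℝ) / 2 ^ s.1.1 ≤ 1 / 2 ^ t.1.1 := by linarith [h1.1, h1.2]
  rw [one_div_le_one_div (by positivity) (by positivity)] at h2
  exact (pow_le_pow_iff_right₀ (by norm_num)).1 h2

/-- an edge of a cube is an edge of a face of the cube -/
theorem exists_faceOf {e : Idx × Fin 3} {q : Idx} (he : EdgeOf e q) :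
    ∃ F, FaceOf F q ∧ EdgeOfSq e F := by
  obtain ⟨l, hl⟩ : ∃ l : Fin 3, l ≠ e.2 := exists_ne e.2
  obtain ⟨h1, h2, h3⟩ := he
  refine ⟨((q.1, Function.update q.2 l (e.1.2 l)), l), ⟨rfl, ?_, fun j hj => ?_⟩,
    ⟨h1, hl.symm, ?_, ?_, fun j hj hj' => ?_⟩⟩
  · simp only [Function.update_self]; exact h3 l hl
  · simp only [Function.update_of_ne hj]
  · simp only [Function.update_of_ne hl.symm]; exact h2
  · simp only [Function.update_self]
  · simp only [Function.update_of_ne hj']; exact h3 j hj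

/-- **(M11)** a minimal edge is an edge of a square of `Q` -/
theorem min_edgeOfSq86 (hΩ : IsOpen Ω) (hI : Part Ω v I) (hQ : Sub v I Q) {e : Idx × Fin 3}
    (he : Min v I Q e) : ∃ s ∈ Q, EdgeOfSq e s := by
  rcases he.1 with ⟨q, hq, heq⟩ | h
  · obtain ⟨F, hF, heF⟩ := exists_faceOf heq
    have hm := (mid_spec v e).1
    have hmF : mid v e ∈ squ v F := edgeOfSq_subset heF hm
    obtain ⟨t, ht, hmt, htF⟩ : ∃ t, MinSq v I t ∧ mid v e ∈ squ v t ∧ squ v t ⊆ squ v F := by
      rcases faceOf_iff.1 hF with h | h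
      · exact cover_hi hΩ hI hmF (by rw [← h]; exact hq)
      · exact cover_lo hΩ hI hmF (by rw [← h]; exact hq)
    obtain ⟨s, hs, -, hms, hst⟩ := hQ.cov t ht _ hmt
    have hsF := hst.trans htF
    have hg := gen_squ hsF
    have heg : e.1.1 = F.1.1 := heF.1
    rcases Nat.lt_or_ge F.1.1 s.1.1 with hlt | hge
    · exfalso
      have hd := dir_squ hsF
      have hk : e.2 ≠ s.2 := by rw [hd]; exact heF.2.1
      have hn := (squ_ineq hd hsF).2 e.2 heF.2.1
      rw [← heF.2.2.1, ← heg] at hn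
      obtain ⟨e', h1, h2, h3, h4⟩ := squ_sub_edge (show e.1.1 ≤ s.1.1 by omega) hk hm hms hn
      have h5 : e'.1.1 = s.1.1 := h1.1
      exact he.2 e' (Or.inr ⟨s, hs, h1⟩) (by omega) h4
    · have : s = F := squ_eq (le_antisymm hge hg) hsF
      exact ⟨s, hs, by rw [this]; exact heF⟩
  · exact h

end P073.Gauge.CxR
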