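import Vale.Agent.P073.AB.Part86
import Vale.Agent.P073.AB.Graph907

/-!
# P073, block CXR: dyadic partitions with subdivided faces, definitions

`Q` is a family of dyadic squares which subdivides the minimal squares of the partition `I`.
-/

open Set Metric Topology Filter

namespace P073.Gauge.CxR

open Vale.Agent.P073.St (V)
open Vale.Agent.P073.SQ (ev)
open Vale.Agent.P073.AB
open P073.Net (dyc dyo)

/-- `Q` subdivides the minimal squares of `I` -/
structure Sub (v : V) (I : Set Idx) (Q : Set (Idx × Fin 3)) : Prop where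
  /-- every square of `Q` lies in a minimal square (same plane) -/
  sub : ∀ s ∈ Q, ∃ t, MinSq v I t ∧ s.2 = t.2 ∧ squ v s ⊆ squ v t
  /-- the minimal squares are covered -/
  cov : ∀ t, MinSq v I t → ∀ x ∈ squ v t, ∃ s ∈ Q, s.2 = t.2 ∧ x ∈ squ v s ∧ squ v s ⊆ squ v t
  /-- relative interiors are disjoint from the other squares -/
  disj : ∀ s ∈ Q, ∀ s' ∈ Q, s ≠ s' → Disjoint (P86.rel v s) (squ v s')
  /-- finitely many squares in every minimal square -/
  fin : ∀ t, MinSq v I t → {s | s ∈ Q ∧ squ v s ⊆ squ v t}.Finite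

/-- edges of the cubes of `I` and of the squares of `Q` -/
def PEdge (I : Set Idx) (Q : Set (Idx × Fin 3)) (e : Idx × Fin 3) : Prop :=
  (∃ q ∈ I, EdgeOf e q) ∨ ∃ s ∈ Q, EdgeOfSq e s

/-- minimal edges -/
def Min (v : V) (I : Set Idx) (Q : Set (Idx × Fin 3)) (e : Idx × Fin 3) : Prop :=
  PEdge I Q e ∧ ∀ e', PEdge I Q e' → e.1.1 < e'.1.1 → ¬ edge v e' ⊆ edge v e

end P073.Gauge.CxR
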