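import Vale.Agent.P073.Gauge.Of407
import Vale.Agent.P073.AB.Tiles907
import Vale.Agent.P073.SMF.Main
import Vale.Agent.P073.SM.Final

/-!
# P073, block GAUGE (helper407): `SpecGauge` from `NetOut` and `SpecCell` only
-/

namespace P073.Gauge

open Vale.Agent.P073.AB

theorem specGauge_of_netOut (hN : P073.Top.NetOut) (hC : SpecCell) : SpecGauge :=
  specGauge_of hN specGraph specTiles (specCells hC) (P073.SMF.specSmooth P073.SM.specSM)

end P073.Gauge
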