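import Vale.Agent.P073.Gauge.Cells110
import Vale.Agent.P073.AB.Graph907
import Vale.Agent.P073.Net.Len

/-!
# P073, block GAUGE, composition (helper407), part a: one-dimensional integrals on dyadic edges
-/

open Set Metric Topology MeasureTheory Filter
open scoped ENNReal

namespace P073.Gauge.O407

open Vale.Agent.P073.St (V Mat)
open Vale.Agent.P073.SQ (ev)
open Vale.Agent.P073.AB
open P073.Net (dyc dyo)
open P073.Gauge.C110

/-- integral along the edge, without the factor of the length -/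
noncomputable def jInt (v : V) (e : Idx × Fin 3) (H : V → ℝ≥0∞) : ℝ≥0∞ :=
  ∫⁻ t in Icc (0:ℝ) 1, H (gam v e t)

theorem eInt_eq (v : V) (e : Idx × Fin 3) (H : V → ℝ≥0∞) :
    eInt v e H = ENNReal.ofReal (1 / 2 ^ e.1.1) * jInt v e H := rfl

theorem deriv_gam (h : V → V) (v : V) (e : Idx × Fin 3) (t : ℝ) :
    deriv (fun s => h (gam v e s)) t =
      (1 / 2 ^ e.1.1 : ℝ) • lineDeriv ℝ h (gam v e t) (ev e.2) := by
  rw [← lineDeriv_smul]
  unfold lineDeriv
  have : (fun s : ℝ => h (gam v e t + s • ((1 / 2 ^ e.1.1 : ℝ) • ev e.2))) =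
      fun s => (fun s => h (gam v e s)) (t + s) := by
    funext s
    simp only [gam]
    congr 1
    module
  rw [this, deriv_comp_const_add (fun s => h (gam v e s)) t 0, add_zero]

theorem dvar_eq {p : ℝ} (h : V → V) (v : V) (e : Idx × Fin 3) (w : V) :
    dvar p h v e ((1 / 2 ^ e.1.1 : ℝ) • w) = ENNReal.ofReal ((1 / 2 ^ e.1.1) ^ p) *
      jInt v e (fun x => ENNReal.ofReal (‖lineDeriv ℝ h x (ev e.2) - w‖ ^ p)) := by
  unfold dvar jInt
  rw [← lintegral_const_mul' _ _ ENNReal.ofReal_ne_top]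
  refine lintegral_congr fun t => ?_
  rw [deriv_gam, ← smul_sub, norm_smul, Real.norm_of_nonneg (by positivity),
    Real.mul_rpow (by positivity) (norm_nonneg _), ENNReal.ofReal_mul (by positivity)]

theorem dvar_zero {p : ℝ} (h : V → V) (v : V) (e : Idx × Fin 3) :
    dvar p h v e 0 = ENNReal.ofReal ((1 / 2 ^ e.1.1) ^ p) *
      jInt v e (fun x => ENNReal.ofReal (‖lineDeriv ℝ h x (ev e.2)‖ ^ p)) := by
  have := dvar_eq (p := p) h v e 0
  simpa using this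

theorem le_of_mul_ofReal {a : ℝ} (ha : 0 < a) {x y : ℝ≥0∞}
    (h : ENNReal.ofReal a * x ≤ ENNReal.ofReal a * y) : x ≤ y := by
  have h1 : ENNReal.ofReal a ≠ 0 := (ENNReal.ofReal_pos.2 ha).ne'
  exact (ENNReal.mul_le_mul_iff_right h1 ENNReal.ofReal_ne_top).1 h

/-- direction and position of a sub-edge -/
theorem sub_edge {v : V} {e e' : Idx × Fin 3} (hsub : edge v e' ⊆ edge v e) :
    e'.2 = e.2 ∧ ∃ α : ℝ, 0 ≤ α ∧ α + 2 ^ e.1.1 / 2 ^ e'.1.1 ≤ 1 ∧
      ∀ t : ℝ, gam v e' t = gam v e (α + 2 ^ e.1.1 / 2 ^ e'.1.1 * t) := by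
  have b1 := Gr.mem_edge.1 (hsub (pt_mem_edge v e'))
  have b2 := Gr.mem_edge.1 (hsub (pt_mem_edge' v e'))
  have h0 : (0:ℝ) < 2 ^ e.1.1 := by positivity
  have h0' : (0:ℝ) < 2 ^ e'.1.1 := by positivity
  have hk : e'.2 = e.2 := by
    by_contra hne
    have a1 := b1.1 e'.2 hne
    have a2 := b2.1 e'.2 hne
    rw [Pi.add_apply, a1] at a2
    simp only [Pi.smul_apply, ev_apply, if_true, smul_eq_mul, mul_one] at a2
    have : (0:ℝ) < 1 / 2 ^ e'.1.1 := by positivity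
    linarith
  refine ⟨hk, (e'.1.2 e.2 / 2 ^ e'.1.1 - e.1.2 e.2 / 2 ^ e.1.1) * 2 ^ e.1.1, ?_, ?_, ?_⟩
  · have := b1.2.1
    simp only [pt] at this
    apply mul_nonneg _ h0.le
    linarith
  · have := b2.2.2
    simp only [Pi.add_apply, pt, Pi.smul_apply, ev_apply, hk, if_true, smul_eq_mul, mul_one] at this
    have h3 : (e'.1.2 e.2 / 2 ^ e'.1.1 - e.1.2 e.2 / 2 ^ e.1.1 : ℝ) + 1 / 2 ^ e'.1.1 ≤
        1 / 2 ^ e.1.1 := by
      rw [add_div] at this
      linarith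
    have h4 := mul_le_mul_of_nonneg_right h3 h0.le
    rw [add_mul, one_div_mul_cancel h0.ne'] at h4
    have h5 : (1 / 2 ^ e'.1.1 : ℝ) * 2 ^ e.1.1 = 2 ^ e.1.1 / 2 ^ e'.1.1 := by ring
    rw [h5] at h4
    exact h4
  · intro t
    funext j
    simp only [gam, Pi.add_apply, Pi.smul_apply, ev_apply, smul_eq_mul, hk]
    by_cases hj : j = e.2
    · subst hj
      simp only [if_true, pt]
      field_simp
      ring
    · simp only [hj, if_false, mul_zero, add_zero]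
      exact b1.1 j hj

/-- change of variables -/
theorem jInt_sub {v : V} {e e' : Idx × Fin 3} {α : ℝ}
    (hα : ∀ t : ℝ, gam v e' t = gam v e (α + 2 ^ e.1.1 / 2 ^ e'.1.1 * t)) (H : V → ℝ≥0∞) :
    jInt v e' H = ENNReal.ofReal (2 ^ e'.1.1 / 2 ^ e.1.1) *
      ∫⁻ s in Icc α (α + 2 ^ e.1.1 / 2 ^ e'.1.1), H (gam v e s) := by
  set β : ℝ := 2 ^ e.1.1 / 2 ^ e'.1.1 with hβ
  have hβ0 : 0 < β := by positivity
  have hβi : (2 ^ e'.1.1 / 2 ^ e.1.1 : ℝ) = β⁻¹ := by rw [hβ, inv_div]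
  rw [hβi]
  unfold jInt
  simp only [hα]
  set K : ℝ → ℝ≥0∞ := fun s => H (gam v e s)
  have hE : MeasurableEmbedding (fun t : ℝ => α + β * t) := by
    have h1 : MeasurableEmbedding (fun t : ℝ => β * t) :=
      (Homeomorph.mulLeft₀ β hβ0.ne').measurableEmbedding
    have h2 : MeasurableEmbedding (fun t : ℝ => α + t) :=
      (Homeomorph.addLeft α).measurableEmbedding
    exact h2.comp h1
  have hpre : (fun t : ℝ => α + β * t) ⁻¹' (Icc α (α + β)) = Icc 0 1 := by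
    ext t
    simp only [mem_preimage, mem_Icc]
    constructor
    · rintro ⟨h1, h2⟩
      constructor
      · nlinarith
      · nlinarith
    · rintro ⟨h1, h2⟩
      constructor
      · nlinarith
      · nlinarith
  have hmap : Measure.map (fun t : ℝ => α + β * t) volume = ENNReal.ofReal β⁻¹ • volume := by
    have h1 : (fun t : ℝ => α + β * t) = (fun t => α + t) ∘ fun t => β * t := rfl
    rw [h1, ← Measure.map_map (measurable_const_add α) (measurable_const_mul β),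
      Real.map_volume_mul_left hβ0.ne', Measure.map_smul, map_add_left_eq_self,
      abs_of_pos (by positivity)]
  have h1 : ∫⁻ t in Icc (0:ℝ) 1, K (α + β * t) =
      ∫⁻ s in Icc α (α + β), K s ∂(Measure.map (fun t : ℝ => α + β * t) volume) := by
    rw [hE.restrict_map, hE.lintegral_map, hpre]
  calc ∫⁻ t in Icc (0:ℝ) 1, H (gam v e (α + β * t)) = ∫⁻ t in Icc (0:ℝ) 1, K (α + β * t) := rfl
    _ = _ := by
      rw [h1, hmap, Measure.restrict_smul, lintegral_smul_measure]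
      rfl

theorem lintegral_biUnion_le {ι : Type*} (S : Finset ι) (A : ι → Set ℝ) (K : ℝ → ℝ≥0∞) :
    ∫⁻ t in ⋃ i ∈ S, A i, K t ≤ ∑ i ∈ S, ∫⁻ t in A i, K t := by
  classical
  induction S using Finset.induction_on with
  | empty => simp
  | insert a s ha ih =>
    rw [Finset.set_biUnion_insert, Finset.sum_insert ha]
    refine (lintegral_union_le _ _ _).trans ?_
    gcongr

/-- **The energy of an edge is at most the sum of the energies of the parts.** -/
theorem eInt_le_sum {ι : Type*} {v : V} {e : Idx × Fin 3} {S : Finset ι} {φ : ι → Idx × Fin 3}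
    (hS : edge v e = ⋃ i ∈ S, edge v (φ i)) (H : V → ℝ≥0∞) :
    eInt v e H ≤ ∑ i ∈ S, eInt v (φ i) H := by
  classical
  have hsub : ∀ i ∈ S, edge v (φ i) ⊆ edge v e := by
    intro i hi
    rw [hS]
    exact subset_biUnion_of_mem (u := fun i => edge v (φ i)) hi
  have h1 : ∀ i : S, ∃ α : ℝ, 0 ≤ α ∧ α + 2 ^ e.1.1 / 2 ^ (φ i).1.1 ≤ 1 ∧
      ∀ t : ℝ, gam v (φ i) t = gam v e (α + 2 ^ e.1.1 / 2 ^ (φ i).1.1 * t) :=
    fun i => (sub_edge (hsub i i.2)).2
  choose α hα0 hα1 hα using h1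
  -- the parameter intervals cover
  set A : S → Set ℝ := fun i => Icc (α i) (α i + 2 ^ e.1.1 / 2 ^ (φ i).1.1) with hA
  have hinj : ∀ s t : ℝ, gam v e s = gam v e t → s = t := by
    intro s t hst
    have := congrFun hst e.2
    simp only [gam, Pi.add_apply, Pi.smul_apply, ev_apply, if_true, smul_eq_mul, mul_one] at this
    have h0 : (0:ℝ) < 1 / 2 ^ e.1.1 := by positivity
    have h2 : s * (1 / 2 ^ e.1.1) = t * (1 / 2 ^ e.1.1) := by linarith
    exact mul_right_cancel₀ h0.ne' h2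
  have hcov : Icc (0:ℝ) 1 ⊆ ⋃ i ∈ (Finset.univ : Finset S), A i := by
    intro s hs
    have h2 : gam v e s ∈ edge v e := mem_edge_iff.2 ⟨s, hs, rfl⟩
    rw [hS] at h2
    obtain ⟨i, hi, h3⟩ := mem_iUnion₂.1 h2
    obtain ⟨t, ht, h4⟩ := mem_edge_iff.1 h3
    rw [hα ⟨i, hi⟩ t] at h4
    have h5 := hinj _ _ h4
    refine mem_iUnion₂.2 ⟨⟨i, hi⟩, Finset.mem_univ _, ?_⟩
    have hb : (0:ℝ) < 2 ^ e.1.1 / 2 ^ (φ i).1.1 := by positivity
    rw [h5]
    constructor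
    · have := mul_nonneg hb.le ht.1
      show α ⟨i, hi⟩ ≤ α ⟨i, hi⟩ + 2 ^ e.1.1 / 2 ^ (φ i).1.1 * t
      linarith
    · have := mul_le_mul_of_nonneg_left ht.2 hb.le
      show α ⟨i, hi⟩ + 2 ^ e.1.1 / 2 ^ (φ i).1.1 * t ≤ α ⟨i, hi⟩ + 2 ^ e.1.1 / 2 ^ (φ i).1.1
      linarith
  have h3 : jInt v e H ≤ ∑ i : S, ∫⁻ s in A i, H (gam v e s) :=
    (lintegral_mono_set hcov).trans (lintegral_biUnion_le _ _ _)
  have h4 : ∀ i : S, ENNReal.ofReal (1 / 2 ^ e.1.1) * ∫⁻ s in A i, H (gam v e s) =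
      eInt v (φ i) H := by
    intro i
    rw [eInt_eq, jInt_sub (hα i), ← mul_assoc, ← ENNReal.ofReal_mul (by positivity)]
    congr 2
    field_simp
  calc eInt v e H = ENNReal.ofReal (1 / 2 ^ e.1.1) * jInt v e H := rfl
    _ ≤ ENNReal.ofReal (1 / 2 ^ e.1.1) * ∑ i : S, ∫⁻ s in A i, H (gam v e s) := by gcongr
    _ = ∑ i : S, eInt v (φ i) H := by
      rw [Finset.mul_sum]
      exact Finset.sum_congr rfl fun i _ => h4 i
    _ = ∑ i ∈ S, eInt v (φ i) H := Finset.sum_coe_sort S (fun i => eInt v (φ i) H)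

theorem pow_add_le {p : ℝ} (hp : 1 ≤ p) (hp2 : p < 2) {a b : ℝ} (ha : 0 ≤ a) (hb : 0 ≤ b) :
    (a + b) ^ p ≤ 4 * (a ^ p + b ^ p) := by
  have hp0 : 0 ≤ p := by linarith
  have h1 : a + b ≤ 2 * max a b := by
    have := le_max_left a b
    have := le_max_right a b
    linarith
  have h2 : (2:ℝ) ^ p ≤ 4 := by
    calc (2:ℝ) ^ p ≤ 2 ^ (2:ℝ) := Real.rpow_le_rpow_of_exponent_le (by norm_num) hp2.le
      _ = 4 := by norm_num
  have h3 : (max a b) ^ p ≤ a ^ p + b ^ p := by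
    rcases max_choice a b with h | h
    · rw [h]; linarith [Real.rpow_nonneg hb p]
    · rw [h]; linarith [Real.rpow_nonneg ha p]
  calc (a + b) ^ p ≤ (2 * max a b) ^ p := Real.rpow_le_rpow (by positivity) h1 hp0
    _ = 2 ^ p * (max a b) ^ p := Real.mul_rpow (by norm_num) (le_max_of_le_left ha)
    _ ≤ 4 * (a ^ p + b ^ p) := by
      apply mul_le_mul h2 h3 (Real.rpow_nonneg (le_max_of_le_left ha) p) (by norm_num)

/-- triangle inequality for the energies -/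
theorem ofReal_tri {p : ℝ} (hp : 1 ≤ p) (hp2 : p < 2) (x y z : V) :
    ENNReal.ofReal (‖x - z‖ ^ p) ≤
      4 * (ENNReal.ofReal (‖x - y‖ ^ p) + ENNReal.ofReal (‖y - z‖ ^ p)) := by
  have hp0 : 0 ≤ p := by linarith
  rw [← ENNReal.ofReal_add (by positivity) (by positivity),
    show (4 : ℝ≥0∞) = ENNReal.ofReal 4 by norm_num, ← ENNReal.ofReal_mul (by norm_num)]
  apply ENNReal.ofReal_le_ofReal
  calc ‖x - z‖ ^ p ≤ (‖x - y‖ + ‖y - z‖) ^ p :=
        Real.rpow_le_rpow (norm_nonneg _) (norm_sub_le_norm_sub_add_norm_sub x y z) hp0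
    _ ≤ _ := pow_add_le hp hp2 (norm_nonneg _) (norm_nonneg _)

theorem lintegral_tri {X : Type*} [MeasurableSpace X] {μ : Measure X} {p : ℝ} (hp : 1 ≤ p)
    (hp2 : p < 2) {a b c : X → V} (hab : AEMeasurable (fun t => ‖a t - b t‖) μ) :
    ∫⁻ t, ENNReal.ofReal (‖a t - c t‖ ^ p) ∂μ ≤
      4 * (∫⁻ t, ENNReal.ofReal (‖a t - b t‖ ^ p) ∂μ +
        ∫⁻ t, ENNReal.ofReal (‖b t - c t‖ ^ p) ∂μ) := by
  have h1 : AEMeasurable (fun t => ENNReal.ofReal (‖a t - b t‖ ^ p)) μ :=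
    (hab.pow_const p).ennreal_ofReal
  rw [← lintegral_add_left' h1, ← lintegral_const_mul' _ _ (by norm_num)]
  exact lintegral_mono fun t => ofReal_tri hp hp2 _ _ _

end P073.Gauge.O407
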