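import Vale.Agent.P073.Gauge.Of407b

/-!
# P073, block GAUGE, composition (helper407), part c: the hypotheses on the good cells
-/

open Set Metric Topology MeasureTheory Filter
open scoped ENNReal

namespace P073.Gauge.O407

open Vale.Agent.P073.St (V Mat euc IsHomeo IsBoundedDomain)
open Vale.Agent.P073.SQ (ev)
open Vale.Agent.P073.AB
open P073.Net (dyc dyo Graph ACOn)
open P073.Gauge.C110
open P073.PLS (Rat3)

theorem isCompact_dyc (v : V) (n : ℕ) (z : Fin 3 → ℤ) : IsCompact (dyc v n z) := by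
  have h : dyc v n z = Set.pi univ (fun k => Icc (v k + z k / 2 ^ n) (v k + (z k + 1) / 2 ^ n)) := by
    ext x; simp only [dyc, Set.mem_ofPred_eq, Set.mem_pi, mem_univ, forall_true_left, mem_Icc]
  rw [h]
  exact isCompact_univ_pi fun k => isCompact_Icc

theorem isCompact_shrink (v : V) (n : ℕ) (z : Fin 3 → ℤ) (δ : ℝ) :
    IsCompact (shrink v n z δ) := by
  have h : shrink v n z δ = Set.pi univ
      (fun k => Icc (v k + z k / 2 ^ n + δ) (v k + (z k + 1) / 2 ^ n - δ)) := by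
    ext x; simp only [shrink, Set.mem_ofPred_eq, Set.mem_pi, mem_univ, forall_true_left, mem_Icc]
  rw [h]
  exact isCompact_univ_pi fun k => isCompact_Icc

theorem dist_dyc {v : V} {n : ℕ} {z : Fin 3 → ℤ} {x y : V} (hx : x ∈ dyc v n z)
    (hy : y ∈ dyc v n z) : ‖x - y‖ ≤ 1 / 2 ^ n := by
  rw [pi_norm_le_iff_of_nonneg (by positivity)]
  intro k
  have h1 := hx k
  have h2 := hy k
  have h3 : ((z k : ℝ) + 1) / 2 ^ n = z k / 2 ^ n + 1 / 2 ^ n := by ring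
  rw [h3] at h1 h2
  rw [Pi.sub_apply, Real.norm_eq_abs, abs_le]
  constructor <;> linarith [h1.1, h1.2, h2.1, h2.2]

section choice

variable {p ε θ M κ κ' : ℝ} {k₁ k₀ : ℕ} {Ω Λ : Set V} {f : V → V} {F : V → Mat}
  (c : Choice p ε θ M κ k₁ k₀ Ω Λ f F)

include c in
theorem continuous_A {z : Fin 3 → ℤ} : Continuous (c.A z) := by
  have : c.A z = fun y => c.L z y + c.A z 0 := by
    funext y
    have := c.aff z 0 y
    rw [sub_zero] at this
    rw [← this]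
    abel
  rw [this]
  fun_prop

theorem exists_tol (hf : ContinuousOn f Ω) {e : Idx × Fin 3}
    (he : ∃ q ∈ tiles Ω c.n₀ c.v, EdgeOf e q) (hΩe : edge c.v e ⊆ Ω) :
    ∃ r > 0, ∀ z ∈ c.J, ¬ edge c.v e ⊆ dyc c.v c.n₂ z → ∀ x ∈ edge c.v e, ∀ y : V,
      ‖y - f x‖ ≤ r → y ∉ c.A z '' shrink c.v c.n₂ z (1 / 2 ^ c.n₀) := by
  have h1 : ∀ z : Fin 3 → ℤ, ∃ r > 0, z ∈ c.J → ¬ edge c.v e ⊆ dyc c.v c.n₂ z →
      ∀ x ∈ edge c.v e, ∀ y : V,
      ‖y - f x‖ ≤ r → y ∉ c.A z '' shrink c.v c.n₂ z (1 / 2 ^ c.n₀) := by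
    intro z
    by_cases hz : z ∈ c.J ∧ ¬ edge c.v e ⊆ dyc c.v c.n₂ z
    · have h2 : Disjoint (f '' edge c.v e) (c.A z '' shrink c.v c.n₂ z (1 / 2 ^ c.n₀)) := by
        rw [Set.disjoint_left]
        rintro _ ⟨x, hx, rfl⟩
        exact c.foreign z hz.1 e he hz.2 x hx
      have h3 : IsCompact (f '' edge c.v e) :=
        (Gr.isCompact_edge c.v e).image_of_continuousOn (hf.mono hΩe)
      have h4 : IsCompact (c.A z '' shrink c.v c.n₂ z (1 / 2 ^ c.n₀)) :=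
        (isCompact_shrink _ _ _ _).image (continuous_A c)
      obtain ⟨r, hr, h5⟩ := h2.exists_cthickenings h3 h4.isClosed
      refine ⟨r, hr, fun _ _ x hx y hy hy' => ?_⟩
      refine Set.disjoint_left.1 h5 ?_ (self_subset_cthickening _ hy')
      exact mem_cthickening_of_dist_le y (f x) r _ (mem_image_of_mem f hx) (by rwa [dist_eq_norm])
    · exact ⟨1, one_pos, fun a b => absurd ⟨a, b⟩ hz⟩
  choose r hr hr' using h1
  obtain ⟨ε', h2, h3⟩ := exists_pos_le c.J.finite_toSet r (fun z _ => hr z)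
  refine ⟨ε', h2, fun z hz hne x hx y hy => ?_⟩
  exact hr' z hz hne x hx y (hy.trans (h3 z hz))

theorem fine_mem (hT : SpecTiles) (hΩ : IsBoundedDomain Ω) {z : Fin 3 → ℤ} (hz : z ∈ c.J)
    (hb : Bornology.IsBounded Ω) {z' : Fin 3 → ℤ}
    (h : (dyc c.v c.n₀ z' ∩ dyc c.v c.n₂ z).Nonempty) :
    ((c.n₀, z') : Idx) ∈ tiles Ω c.n₀ c.v := by
  obtain ⟨y, hy1, hy2⟩ := h
  apply (hT Ω c.n₀ c.v hΩ.1 hb hΩ.2.1.nonempty).2.2.2.2 z'
  intro x hx
  apply c.core z hz x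
  refine ⟨y, hy2, (dist_dyc hx hy1).trans ?_⟩
  apply one_div_le_one_div_of_le (by positivity)
  apply pow_le_pow_right₀ (by norm_num)
  have := c.eqn
  omega

theorem dyc_sub_domain {z : Fin 3 → ℤ} (hz : z ∈ c.J) : dyc c.v c.n₂ z ⊆ Ω := by
  intro x hx
  by_contra hcon
  have h1 := c.core z hz x ⟨x, hx, by simp⟩
  rw [infDist_zero_of_mem (show x ∈ Ωᶜ from hcon)] at h1
  have : (0:ℝ) < 1 / 2 ^ c.n₀ := by positivity
  linarith

theorem own_edge (hT : SpecTiles) (hΩ : IsBoundedDomain Ω) {z : Fin 3 → ℤ} (hz : z ∈ c.J)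
    (hb : Bornology.IsBounded Ω) {e : Idx × Fin 3} (he : e.1.1 = c.n₀)
    (hsub : edge c.v e ⊆ dyc c.v c.n₂ z) : ∃ q ∈ tiles Ω c.n₀ c.v, EdgeOf e q := by
  have h1 : e.1.1 = c.n₂ + (k₁ + k₀) := by rw [he, c.eqn]; ring
  obtain ⟨w, hw, hw'⟩ := cube_of_edge h1 hsub
  have h2 : c.n₂ + (k₁ + k₀) = c.n₀ := by rw [c.eqn]; ring
  rw [h2] at hw hw'
  refine ⟨_, fine_mem c hT hΩ hz hb ?_, hw⟩
  refine ⟨pt c.v c.n₀ w, ?_⟩
  have h3 : pt c.v c.n₀ w ∈ dyc c.v c.n₀ w := by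
    intro k
    have h4 : ((w k : ℝ) + 1) / 2 ^ c.n₀ = w k / 2 ^ c.n₀ + 1 / 2 ^ c.n₀ := by ring
    have : (0:ℝ) ≤ 1 / 2 ^ c.n₀ := by positivity
    simp only [pt]
    rw [h4]
    constructor <;> linarith
  exact ⟨h3, hw' h3⟩

theorem jInt_le {v : V} {e : Idx × Fin 3} {H : V → ℝ≥0∞} {a : ℝ}
    (h : eInt v e H ≤ ENNReal.ofReal (a * (1 / 2 ^ e.1.1))) : jInt v e H ≤ ENNReal.ofReal a := by
  have hpos : (0:ℝ) < 1 / 2 ^ e.1.1 := by positivity
  apply le_of_mul_ofReal hpos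
  rw [← ENNReal.ofReal_mul hpos.le, mul_comm (1 / 2 ^ e.1.1 : ℝ) a]
  exact h

theorem aemeasurable_lineDeriv (h : V → V) (v : V) (e : Idx × Fin 3) :
    Measurable (fun t => lineDeriv ℝ h (gam v e t) (ev e.2)) := by
  have h1 : Measurable (fun t => deriv (fun s => h (gam v e s)) t) := measurable_deriv _
  have h2 := h1.const_smul ((2:ℝ) ^ e.1.1)
  convert h2 using 1
  funext t
  simp only [Pi.smul_apply]
  rw [deriv_gam, smul_smul, mul_one_div_cancel (by positivity), one_smul]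

/-- **the hypotheses on a good cell** -/
theorem cellHyp_of (hT : SpecTiles) (hp : 1 ≤ p) (hp2 : p < 2) (hΩ : IsBoundedDomain Ω)
    (hb : Bornology.IsBounded Ω) (hκ' : 0 < κ') (hκ : κ ≤ κ' / 8) {h : V → V}
    {δ : Idx × Fin 3 → ℝ} (hδ1 : ∀ e : Idx × Fin 3, δ e ≤ κ' / 8 * (1 / 2 ^ e.1.1))
    (hδ2 : ∀ e : Idx × Fin 3, (∃ q ∈ tiles Ω c.n₀ c.v, EdgeOf e q) → ∀ z ∈ c.J,
      ¬ edge c.v e ⊆ dyc c.v c.n₂ z → ∀ x ∈ edge c.v e, ∀ y : V,
      ‖y - f x‖ ≤ δ e → y ∉ c.A z '' shrink c.v c.n₂ z (1 / 2 ^ c.n₀))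
    (hh : ∀ e : Idx × Fin 3, (∃ q ∈ tiles Ω c.n₀ c.v, EdgeOf e q) →
      (∀ x ∈ edge c.v e, ‖h x - f x‖ ≤ δ e) ∧
      eInt c.v e (fun x => ENNReal.ofReal
        (‖lineDeriv ℝ h x (ev e.2) - cl (F x) (ev e.2)‖ ^ p)) ≤ ENNReal.ofReal (δ e))
    {z : Fin 3 → ℤ} (hz : z ∈ c.J) :
    CellHyp p θ M κ' k₁ k₀ c.n₂ Λ c.v (tiles Ω c.n₀ c.v) z (c.A z) (c.L z) h := by
  have hp0 : 0 ≤ p := by linarith
  refine ⟨fun x y => c.aff z x y, c.below z hz, c.above z hz, ?_, ?_, ?_, ?_⟩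
  · intro z' hz'
    rw [← c.eqn] at hz' ⊢
    exact fine_mem c hT hΩ hz hb hz'
  · intro e he hsub
    rw [← c.eqn] at he ⊢
    have hed := own_edge c hT hΩ hz hb he hsub
    obtain ⟨h1, h2⟩ := hh e hed
    obtain ⟨h3, h4⟩ := c.own z hz e he hsub
    have hδe := hδ1 e
    rw [he] at hδe
    have hlen : (0:ℝ) < 1 / 2 ^ c.n₀ := by positivity
    constructor
    · intro x hx
      calc ‖h x - c.A z x‖ ≤ ‖h x - f x‖ + ‖f x - c.A z x‖ := norm_sub_le_norm_sub_add_norm_sub _ _ _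
        _ ≤ κ' / 8 * (1 / 2 ^ c.n₀) + κ / 2 ^ c.n₀ := add_le_add ((h1 x hx).trans hδe) (h3 x hx)
        _ ≤ κ' / 2 ^ c.n₀ := by
          have h9 : κ / 2 ^ c.n₀ ≤ κ' / 8 * (1 / 2 ^ c.n₀) := by
            rw [div_eq_mul_one_div]
            exact mul_le_mul_of_nonneg_right hκ hlen.le
          have : κ' / 2 ^ c.n₀ = κ' * (1 / 2 ^ c.n₀) := by ring
          rw [this]
          nlinarith
    · rw [map_smul, ← he, dvar_eq, mul_comm κ', ENNReal.ofReal_mul (by positivity)]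
      gcongr
      have h5 : jInt c.v e (fun x => ENNReal.ofReal
          (‖lineDeriv ℝ h x (ev e.2) - cl (F x) (ev e.2)‖ ^ p)) ≤ ENNReal.ofReal (κ' / 8) := by
        apply jInt_le
        refine h2.trans (ENNReal.ofReal_le_ofReal ?_)
        rw [he]; exact hδe
      have h6 : jInt c.v e (fun x => ENNReal.ofReal
          (‖cl (F x) (ev e.2) - c.L z (ev e.2)‖ ^ p)) ≤ ENNReal.ofReal (κ' / 8) := by
        apply jInt_le
        refine h4.trans (ENNReal.ofReal_le_ofReal ?_)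
        rw [he, div_eq_mul_one_div]
        exact mul_le_mul_of_nonneg_right hκ hlen.le
      have hsubΩ : edge c.v e ⊆ Ω := hsub.trans (dyc_sub_domain c hz)
      have hm : AEMeasurable (fun t => ‖lineDeriv ℝ h (gam c.v e t) (ev e.2) -
          cl (F (gam c.v e t)) (ev e.2)‖) (volume.restrict (Icc (0:ℝ) 1)) :=
        ((aemeasurable_lineDeriv h c.v e).aemeasurable.sub (aesm_D c.rat hsubΩ)).norm
      have h7 := lintegral_tri hp hp2 (c := fun _ => c.L z (ev e.2)) hm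
      refine h7.trans ?_
      calc _ ≤ 4 * (ENNReal.ofReal (κ' / 8) + ENNReal.ofReal (κ' / 8)) := by
            gcongr
            · exact h5
            · exact h6
        _ = ENNReal.ofReal κ' := by
          rw [← ENNReal.ofReal_add (by positivity) (by positivity),
            show (4 : ℝ≥0∞) = ENNReal.ofReal 4 by norm_num, ← ENNReal.ofReal_mul (by norm_num)]
          congr 1
          ring
  · intro e he hne x hx
    rw [← c.eqn]
    exact hδ2 e he z hz hne x hx _ ((hh e he).1 x hx)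
  · rw [← c.eqn]
    exact c.inside z hz

end choice

end P073.Gauge.O407
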