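import Vale.Agent.P073.Spec.Gauge
import Vale.Agent.P073.SMF.Main

/-!
# P073, block GAUGE: `SpecSmV` and `SpecLin2`
-/

open Set Metric Topology MeasureTheory Filter
open scoped ENNReal

namespace P073.Gauge

open Vale.Agent.P073.St (V Mat IsHomeo IsDiffeo IsBoundedDomain)

/-- **(SMV)** smoothing, in `V`, from the smoothing theorem in Euclidean space. -/
theorem specSmV (hSM : Vale.Agent.P073.SMV.SpecSM) : SpecSmV := by
  intro Ω Λ h p μ τ η ε hp hΩ hΛ h1 h2 h3 h4 hη hε hεpos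
  obtain ⟨G, hG, -, hc, hi⟩ := P073.SMF.specSmoothM hSM p Ω Λ h ℕ inferInstance μ τ η ε hp hΩ hΛ
    h1 h2 h3 h4 hη hε hεpos
  exact ⟨G, hG, hc, hi⟩

end P073.Gauge
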